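import Vale.Agent.P236C.G.All
import Vale.Agent.P236C.G.VAll
import Vale.Agent.P236X.Ce.All
import Vale.Agent.P236N.Dt.Fit

/-!
# P236C: the algebraic input
-/

namespace Vale.Agent.P236C.D

/-- **The algebraic input.** -/
theorem alg : P236K.A2 ∧ P236K.AlgFacts' := by
  have h := P236X.Ce.okU hDD (N := 6) (by norm_num) hQ
  obtain ⟨K⟩ := cmp_mkRes hDD pos_DD (S := 33) (fun j hj => (h j hj).1) fun j hj => (h j hj).2
  exact P236N.Dt.alg_of_claims K (fun s hs => by rw [if_pos (by omega)]; exact le_rfl)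
    (fun s _ => dg_mkRes hDD s) clm

end Vale.Agent.P236C.D
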