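import Vale.Agent.P236C.Fin
import Vale.Agent.P236C.D.L
import Vale.Agent.P236C.D.Xs

/-!
# P236C: the resolution in the range `T = 90`
-/

noncomputable section

namespace Vale.Agent.P236C.D

/-- the data -/
def DD : RD := RD.mk 90 dsA xsA

theorem okL_DD : okL 90
    [ds0, ds1, ds2, ds3, ds4, ds5, ds6, ds7, ds8, ds9, ds10, ds11, ds12, ds13, ds14, ds15, ds16,
    ds17, ds18, ds19, ds20, ds21, ds22, ds23, ds24, ds25, ds26, ds27, ds28, ds29, ds30, ds31,
    ds32, ds33, ds34]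
    [xs0, xs1, xs2, xs3, xs4, xs5, xs6, xs7, xs8, xs9, xs10, xs11, xs12, xs13, xs14, xs15, xs16,
    xs17, xs18, xs19, xs20, xs21, xs22, xs23, xs24, xs25, xs26, xs27, xs28, xs29, xs30, xs31,
    xs32, xs33] = true := by
  decide +kernel

theorem hDD : DD.Ok := (ok_of okL_DD).1

theorem pos_DD : ∀ j, ∀ d ∈ DD.ds (j + 1), 0 < d := (ok_of okL_DD).2

theorem q33 : (mkRes DD hDD).Q 6 33 180 := q_of_nil hDD rfl 6 180

end Vale.Agent.P236C.D

end
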