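import Vale.Agent.P236C.Lay
import Vale.Agent.P236B.Sem

/-!
# P236C: the small resolution which is defined by the data
-/

noncomputable section

namespace Vale.Agent.P236C

open Vale.Agent.P236B MvPolynomial

/-- polynomials in the `v_i` -/
abbrev W : Type := MvPolynomial ℕ (ZMod 3)

/-- the exponents -/
def IE.ex (e : IE) : ℕ →₀ ℕ := kk e.j1 e.j2 e.j3 e.j4

theorem IE.eq_iff {e e' : IE} : e = e' ↔ e.i = e'.i ∧ e.ex = e'.ex := by
  cases e
  cases e'
  simp only [IE.mk.injEq, IE.ex, kk_inj]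

/-- functionals over `F₃` -/
abbrev Fn3 : Type := Fn (ZMod 3)

theorem vl_univ (y : Fn3) (E : ℕ →₀ ℕ) : vl C (vmk X) y E = y E := by
  rw [vl, kx_univ, RingHom.id_apply]

theorem vmk_univ : (fun k => vmk (X : ℕ → W) (X k)) = X := funext (vmk_X _)

theorem three_W : (3 : W) = 0 := by
  rw [← map_ofNat (C : ZMod 3 →+* W), show (3 : ZMod 3) = 0 from rfl, map_zero]

/-! ### linear combinations -/

/-- the linear combination whose coefficients are the digits of `x` in base four -/
def cs {M : Type} [AddCommGroup M] [Module (ZMod 3) M] (l : List IE) (x : ℕ) (f : IE → M) : M :=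
  ∑ i ∈ Finset.range l.length, cf (x / 4 ^ i % 4) • f (getL ie0 l i)

theorem getL_mem {α : Type} (d : α) {l : List α} {i : ℕ} (h : i < l.length) : getL d l i ∈ l := by
  rw [getL_eq, List.getD_eq_getElem _ _ h]
  exact List.getElem_mem h

section cs

variable {M : Type} [AddCommGroup M] [Module (ZMod 3) M] {l : List IE} {f g : IE → M}

theorem cs_congr (x : ℕ) (h : ∀ e ∈ l, f e = g e) : cs l x f = cs l x g :=
  Finset.sum_congr rfl fun i hi => by rw [h _ (getL_mem _ (Finset.mem_range.1 hi))]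

theorem cs_eq_zero (x : ℕ) (h : ∀ e ∈ l, f e = 0) : cs l x f = 0 :=
  Finset.sum_eq_zero fun i hi => by rw [h _ (getL_mem _ (Finset.mem_range.1 hi)), smul_zero]

theorem cs_append (l l' : List IE) (x : ℕ) (f : IE → M) :
    cs (l ++ l') x f = cs l x f + cs l' (x / 4 ^ l.length) f := by
  rw [cs, List.length_append, Finset.sum_range_add]
  congr 1
  · exact Finset.sum_congr rfl fun i hi => by
      rw [getL_eq, getL_eq, List.getD_append _ _ _ _ (Finset.mem_range.1 hi)]
  · exact Finset.sum_congr rfl fun i _ => by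
      rw [getL_eq, getL_eq, List.getD_append_right _ _ _ _ (Nat.le_add_right _ _),
        Nat.add_sub_cancel_left, pow_add, Nat.div_div_eq_div_mul]

theorem map_cs {M' : Type} [AddCommGroup M'] [Module (ZMod 3) M'] (φ : M →ₗ[ZMod 3] M')
    (l : List IE) (x : ℕ) (f : IE → M) : φ (cs l x f) = cs l x fun e => φ (f e) := by
  simp only [cs, map_sum, map_smul]

end cs

/-- the coefficient of the generator `i` in a field -/
def xval (ds : List ℕ) (c x i : ℕ) : W :=
  cs (inner c ds 0) x fun e => if e.i = i then monomial e.ex 1 else 0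

/-- the coordinates of the functional from the generator `x` to the generator `i` -/
def XF (T : ℕ) (ds : List ℕ) (x : XD) (i : ℕ) : Fn3 := fun F =>
  if F = kk (F 0) (F 1) (F 2) (F 3) ∧ x.c + F 0 + 4 * F 1 + 13 * F 2 + 40 * F 3 ≤ T then
    xval ds (x.c + F 0 + 4 * F 1 + 13 * F 2 + 40 * F 3) (fld T (wdI ds) (x.c + F 0 + 4 * F 1)
      (getL 0 (getL [] x.x (F 0)) (F 1)) (F 3) (F 2)) i else 0

theorem XF_kk {T : ℕ} (ds : List ℕ) (x : XD) (i : ℕ) {f1 f2 f3 f4 : ℕ}
    (h : x.c + f1 + 4 * f2 + 13 * f3 + 40 * f4 ≤ T) : XF T ds x i (kk f1 f2 f3 f4) =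
      xval ds (x.c + f1 + 4 * f2 + 13 * f3 + 40 * f4) (fld T (wdI ds) (x.c + f1 + 4 * f2)
        (getL 0 (getL [] x.x f1) f2) f4 f3) i := by
  have h0 : kk f1 f2 f3 f4 0 = f1 := by simp [kk]
  have h1 : kk f1 f2 f3 f4 1 = f2 := by simp [kk]
  have h2 : kk f1 f2 f3 f4 2 = f3 := by simp [kk]
  have h3 : kk f1 f2 f3 f4 3 = f4 := by simp [kk]
  rw [XF, h0, h1, h2, h3, if_pos ⟨rfl, h⟩]

theorem box_XF {T : ℕ} (hT : T < 108) (ds : List ℕ) (x : XD) (i : ℕ) :
    Box (XF T ds x i) 243 27 9 3 := fun F hF => by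
  rw [XF] at hF
  split_ifs at hF with h
  · exact ⟨_, by omega, _, by omega, _, by omega, _, by omega, h.1⟩
  · exact absurd rfl hF

theorem coeff_xval (ds : List ℕ) (c x i : ℕ) (α : ℕ →₀ ℕ) : coeff α (xval ds c x i) =
    cs (inner c ds 0) x fun e => if e.i = i ∧ e.ex = α then 1 else 0 :=
  (map_cs (lcoeff (ZMod 3) α) _ _ _).trans (cs_congr _ fun e _ => by
    simp only [lcoeff_apply, apply_ite (coeff α), coeff_monomial, coeff_zero, ite_and])

theorem fw_XF (T : ℕ) (ds : List ℕ) (x : XD) (i : ℕ) :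
    FW 3 (2 * getL 0 ds i - 2 * x.c) (XF T ds x i) := fun F α h => by
  rw [XF] at h
  split_ifs at h with h1
  · rw [coeff_xval] at h
    obtain ⟨e, he, h2⟩ : ∃ e ∈ inner _ ds 0, e.i = i ∧ e.ex = α := by
      by_contra! h'
      exact h (cs_eq_zero _ fun e he => if_neg fun h2 => h' e he h2.1 h2.2)
    have := (mem_inner e he).2.2.2
    rw [← h2.2, h1.1, IE.ex, wE_kk, wE_kk, ← h2.1]
    simp only [Nat.sub_zero] at this
    omega
  · exact absurd rfl h

/-! ### the resolution -/

/-- the data: the range, the degrees of the generators and the coordinates of the maps -/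
structure RD where
  /-- the range -/
  T : ℕ
  /-- the degrees of the generators of a stage -/
  ds : ℕ → List ℕ
  /-- the coordinates of the maps to the next stage, for every generator -/
  xs : ℕ → List XD

/-- a default value -/
def xd0 : XD := ⟨0, []⟩

/-- the conditions on the data -/
structure RD.Ok (D : RD) : Prop where
  T_lt : D.T < 108
  len : ∀ j, (D.ds j).length ≤ 64
  xc : ∀ j, ∀ i < (D.xs j).length, i < (D.ds j).length ∧ (getL xd0 (D.xs j) i).c = getL 0 (D.ds j) i
  ds0 : D.ds 0 = [0]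
  ds1 : ∀ d ∈ D.ds 1, 0 < d

/-- the maps -/
def RD.a (D : RD) (j i' i : ℕ) : Fn3 :=
  if i < (D.xs j).length ∧ i' < (D.ds (j + 1)).length then
    ofX (XF D.T (D.ds (j + 1)) (getL xd0 (D.xs j) i) i') else 0

theorem getL_lt {α : Type} (d d' : α) {l : List α} {i : ℕ} (h : i < l.length) :
    getL d l i = getL d' l i := by
  rw [getL_eq, getL_eq, List.getD_eq_getElem _ _ h, List.getD_eq_getElem _ _ h]

/-- **The small resolution.** -/
def mkRes (D : RD) (h : D.Ok) : Res 3 (Fin 64) where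
  deg j g := 2 * getL 1000 (D.ds j) g
  a j g' g := D.a j g' g
  g0 := 0
  hom j g' g := by
    rw [RD.a]
    split_ifs with h1
    · have := (fw_XF D.T (D.ds (j + 1)) (getL xd0 (D.xs j) g) g').ofX (box_XF h.T_lt _ _ _)
      rw [(h.xc j g h1.1).2, getL_lt 0 1000 h1.2, getL_lt 0 1000 (h.xc j g h1.1).1] at this
      exact_mod_cast this
    · exact fun _ _ h => absurd rfl h
  deg_zero g := by
    rw [h.ds0]
    obtain ⟨_ | g, hg⟩ := g <;> simp
  deg_one g := by
    by_cases h1 : (g : ℕ) < (D.ds 1).length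
    · exact Nat.mul_pos two_pos (h.ds1 _ (getL_mem _ h1))
    · rw [getL_of_le _ (not_lt.1 h1)]
      norm_num

theorem mkRes_deg (D : RD) (h : D.Ok) (j : ℕ) (g : Fin 64) :
    (mkRes D h).deg j g = 2 * getL 1000 (D.ds j) g := rfl

theorem mkRes_a (D : RD) (h : D.Ok) (j : ℕ) (g' g : Fin 64) :
    (mkRes D h).a j g' g = D.a j g' g := rfl

end Vale.Agent.P236C

end
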