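import Vale.Agent.P236C.Exec
import Vale.Agent.P236C.Tab
import Vale.Agent.P236N.Ex

/-!
# P236C: the evaluator of the claims `y · x = z` (the program)

The first rows of the table `ztab` are the values `t₁ ^ k · w` for the basis vectors `w`.
-/

noncomputable section

namespace Vale.Agent.P236C

open Vale.Agent.P236N

/-- linear combination; the coefficients are given by two bit planes -/
def cbP (z : RL) : Nat → Nat → Nat → Nat → Row :=
  RL.rec (fun _ _ a1 a2 => fin a1 a2) (fun c1 c2 _ ih p n a1 a2 =>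
    Nat.rec (Nat.rec (ih (Nat.shiftRight p (nat_lit 1)) (Nat.shiftRight n (nat_lit 1)) a1 a2)
        (fun _ _ => ih (Nat.shiftRight p (nat_lit 1)) (Nat.shiftRight n (nat_lit 1))
          (Nat.xor (Nat.lor a2 c1) (Nat.xor (Nat.lor a1 c1) (Nat.lor a2 c2)))
          (Nat.xor (Nat.lor a1 c2) (Nat.xor (Nat.lor a1 c1) (Nat.lor a2 c2))))
        (Nat.land n (nat_lit 1)))
      (fun _ _ => Nat.rec (ih (Nat.shiftRight p (nat_lit 1)) (Nat.shiftRight n (nat_lit 1))
          (Nat.xor (Nat.lor a2 c2) (Nat.xor (Nat.lor a1 c2) (Nat.lor a2 c1)))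
          (Nat.xor (Nat.lor a1 c1) (Nat.xor (Nat.lor a1 c2) (Nat.lor a2 c1))))
        (fun _ _ => ih (Nat.shiftRight p (nat_lit 1)) (Nat.shiftRight n (nat_lit 1)) a1 a2)
        (Nat.land n (nat_lit 1)))
      (Nat.land p (nat_lit 1))) z

/-- Horner scheme in `v₁` with `m` windows -/
def hor (t : PT) (rows : Nat → RL) (m : Nat) : Nat → Nat → Nat → Row :=
  Nat.rec (fun _ _ _ => Row.mk (nat_lit 0) (nat_lit 0)) (fun _ ih d p n =>
    Nat.rec (Row.mk (nat_lit 0) (nat_lit 0)) (fun _ _ =>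
      Nat.rec (cbP (rows (nat_lit 0)) p n (nat_lit 0) (nat_lit 0)) (fun d' _ =>
        Row.rec (fun a b => cbP (rows d) p n (t.f a b) (t.g a b)) (frc d' fun e =>
          ih e (Nat.shiftRight p (nat_lit 64)) (Nat.shiftRight n (nat_lit 64)))) d) (Nat.lor p n)) m

/-- the first rows of the arrays of the basis vectors of degree `e` -/
def rowsZ (zt : List (List (List A4))) (ds : List Nat) (e : Nat) : RL :=
  List.rec RL.nil (fun q _ ih =>
    unR (get2 (getL [] (getL [] (getL [] (getL [] zt q.1) q.2.2.2) q.2.2.1) q.2.1)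
      (nat_lit 0) (nat_lit 0)) fun a b _ => RL.cons a b ih) (sl0 ds e)

/-- the rows of the basis vectors of degree `e` of the target -/
def rowsU (ps : IE → Nat) (lo hi : Nat) (ds : List Nat) (e : Nat) : RL :=
  List.rec RL.nil (fun q _ ih => RL.cons (Bool.rec (nat_lit 0) (Bool.rec (nat_lit 0)
    (Nat.shiftLeft (nat_lit 1) (ps (IE.mk q.1 (nat_lit 0) q.2.1 q.2.2.1 q.2.2.2)))
      (Nat.blt q.1 hi)) (Nat.ble lo q.1)) (nat_lit 0) ih) (sl0 ds e)

/-- multiplication by `y` at `t₁ = 1` -/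
def mulY (pt : Nat → Nat → Nat → PT) (y : List Q4) (a b : Nat) : Row :=
  List.rec (Row.mk (nat_lit 0) (nat_lit 0)) (fun q _ ih => frc q.1 fun c => frc q.2.1 fun j =>
    frc q.2.2.1 fun e => Row.rec (fun s1 s2 => (fun c1 c2 => Row.mk (ad1 s1 s2 c1 c2)
      (ad2 s1 s2 c1 c2)) ((pt c j e).f a b) ((pt c j e).g a b)) ih) y

/-- the terms of `y` have degree `f` -/
def yOK (f : Nat) (y : List Q4) : Bool :=
  allL (fun q => (Nat.beq q.1 (nat_lit 1) || Nat.beq q.1 (nat_lit 2)) &&
    (Nat.ble q.2.1 (nat_lit 5) &&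
      Nat.beq (Nat.add (Nat.add q.2.1 (Nat.mul (nat_lit 4) q.2.2.1)) q.2.2.2) f)) y

/-- the positions of degree `D` with exponent of `v₁` less than `m` -/
def emask (C : Ctx) (g1 : Nat → Nat) (D m : Nat) : Nat :=
  Nat.land (Nat.xor (C.ge D) (C.ge (Nat.succ D))) (Nat.xor (g1 (nat_lit 0)) (g1 m))

/-- the check of one claim -/
def cmOK (C : Ctx) (g1 : Nat → Nat) (pt : Nat → Nat → Nat → PT) (rz ru : Nat → RL) (c : Cm) :
    Bool :=
  frc c.d fun d => frc (Nat.add d c.f) fun D => frc c.m fun m =>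
    Bool.rec false (Row.rec (fun a b => Row.rec (fun a1 b1 => Row.rec (fun a2 b2 =>
      Nat.beq (Nat.land (Nat.lor (Nat.xor a1 a2) (Nat.xor b1 b2)) (emask C g1 D m)) (nat_lit 0))
        (hor (pt (nat_lit 1) (nat_lit 1) (nat_lit 0)) ru m D c.z.1 c.z.2)) (mulY pt c.y a b))
      (hor (pt (nat_lit 1) (nat_lit 1) (nat_lit 0)) rz m d c.x.1 c.x.2))
      (Nat.ble D C.T && (Nat.ble m (nat_lit 6) && yOK c.f c.y))

/-- **The check of a list of claims** for the part `lo ≤ i < hi` of the generators of the target. -/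
def claimsOK (C : Ctx) (g1 : Nat → Nat) (ps : IE → Nat) (pt : Nat → Nat → Nat → PT)
    (lo hi : Nat) (ds ds1 : List Nat) (us : A4) (l : List Cm) : Bool :=
  allL (cmOK C g1 pt (rowsZ (ztab C ds us) ds) (rowsU ps lo hi ds1)) l

/-- the multipliers of a layout -/
def ptE (K : KP) (c j a : Nat) : PT :=
  ptK K c j a (nat_lit 0) (nat_lit 0) (nat_lit 0) (nat_lit 0) (nat_lit 0)

/-- **The check of a list of claims** in the layout `K`. -/
def evK (K : KP) (q b : List Nat) (lo hi : Nat) (ds ds1 : List Nat) (us : A4) (l : List Cm) :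
    Bool :=
  claimsOK (ctxK tb K) (g1K K) (posK K (getL (nat_lit 0) q) (getL (nat_lit 0) b)) (ptE K) lo hi
    ds ds1 us l

/-- drop -/
def dropL {α : Type} (n : Nat) : List α → List α :=
  Nat.rec (fun l => l) (fun _ ih l => List.rec [] (fun _ t _ => ih t) l) n

/-- take -/
def takeL {α : Type} (n : Nat) : List α → List α :=
  Nat.rec (fun _ => []) (fun _ ih l => List.rec [] (fun a t _ => a :: ih t) l) n

end Vale.Agent.P236C

end
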