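import Vale.Agent.P236C.Fin
import Vale.Agent.P236C.EvX
import Vale.Agent.P236N.Std
import Vale.Agent.P236N.Glue

/-!
# P236C: soundness of the evaluator of the claims `y · x = z`
-/

noncomputable section

namespace Vale.Agent.P236C

open Vale.Agent.P236B Vale.Agent.P236N MvPolynomial

/-! ### values -/

theorem tv_shift (p n i : ℕ) : tv (Nat.shiftRight p 1) (Nat.shiftRight n 1) i = tv p n (i + 1) := by
  rw [tv_shiftRight, shr_apply, add_comm]

theorem R1.cbP {z : RL} {y : ℕ → V} (h : R1 z y) (p n : ℕ) {a1 a2 : ℕ} (ha : wf a1 a2) :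
    wf (cbP z p n a1 a2).a (cbP z p n a1 a2).b ∧ tv (cbP z p n a1 a2).a (cbP z p n a1 a2).b =
      tv a1 a2 + ∑ i ∈ Finset.range z.len, tv p n i • y i := by
  induction z generalizing y p n a1 a2 with
  | nil =>
    have e : P236C.cbP .nil p n a1 a2 = ⟨a1, a2⟩ := fin_eq a1 a2
    rw [e]
    exact ⟨ha, by simp [RL.len]⟩
  | cons c1 c2 t ih =>
    have e : P236C.cbP (.cons c1 c2 t) p n a1 a2 =
        Nat.rec (Nat.rec (P236C.cbP t (Nat.shiftRight p 1) (Nat.shiftRight n 1) a1 a2)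
          (fun _ _ => P236C.cbP t (Nat.shiftRight p 1) (Nat.shiftRight n 1)
            (ad1 a1 a2 c2 c1) (ad2 a1 a2 c2 c1)) (Nat.land n 1))
          (fun _ _ => Nat.rec (P236C.cbP t (Nat.shiftRight p 1) (Nat.shiftRight n 1)
            (ad1 a1 a2 c1 c2) (ad2 a1 a2 c1 c2))
            (fun _ _ => P236C.cbP t (Nat.shiftRight p 1) (Nat.shiftRight n 1) a1 a2) (Nat.land n 1))
          (Nat.land p 1) := rfl
    have h3 : ∀ x, Nat.land x 1 = if x.testBit 0 then 1 else 0 := fun x => by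
      rw [Nat.land_eq, Nat.and_one_is_mod, Nat.testBit_zero]
      rcases Nat.mod_two_eq_zero_or_one x with h | h <;> simp [h]
    obtain ⟨wc, vc⟩ := h.head
    have h0 := ih h.tail (Nat.shiftRight p 1) (Nat.shiftRight n 1) ha
    have h1 := ih h.tail (Nat.shiftRight p 1) (Nat.shiftRight n 1) (wf_ad ha wc)
    have h2 := ih h.tail (Nat.shiftRight p 1) (Nat.shiftRight n 1) (wf_ad ha wc.symm)
    rw [tv_ad ha wc, vc] at h1
    rw [tv_ad ha wc.symm, tv_swap c1, vc] at h2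
    simp only [tv_shift] at h0 h1 h2
    rw [e, h3, h3, RL.len, Finset.sum_range_succ', show tv p n 0 =
      (if p.testBit 0 then 1 else 0) - (if n.testBit 0 then 1 else 0) from rfl]
    cases p.testBit 0 <;> cases n.testBit 0
    · exact ⟨h0.1, h0.2.trans (by simp)⟩
    · exact ⟨h2.1, h2.2.trans (by simp; abel)⟩
    · exact ⟨h1.1, h1.2.trans (by simp; abel)⟩
    · exact ⟨h0.1, h0.2.trans (by simp)⟩

/-- the generators -/
def genF (i : ℕ) : Fin 64 := Fin.ofNat 64 i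

theorem genF_val {i : ℕ} (h : i < 64) : (genF i : ℕ) = i := Nat.mod_eq_of_lt h

theorem genF_self (g : Fin 64) : genF g = g := Fin.ext (genF_val g.2)

/-- The values `v` in degree `D` are the coefficients of `w` modulo `v₁ ^ m`. -/
def LD.M0 (L : LD) (m D : ℕ) (v : V) (w : Fin 64 → A) : Prop :=
  ∀ e, L.ok e → e.j1 < m → L.D e = D → v (L.ps e) = coeff e.ex (w (genF e.i))

variable {L : LD} {tb : ℕ → ℕ → Pl} {m D : ℕ} {v v' : V} {w w' : Fin 64 → A}

theorem LD.M0.add (h : L.M0 m D v w) (h' : L.M0 m D v' w') : L.M0 m D (v + v') (w + w') :=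
  fun e he h1 h2 => by rw [Pi.add_apply, Pi.add_apply, coeff_add, h e he h1 h2, h' e he h1 h2]

theorem LD.M0.sum {ι : Type} {s : Finset ι} (r : ι → ZMod 3) {v : ι → V} {w : ι → Fin 64 → A}
    (h : ∀ i ∈ s, L.M0 m D (v i) (w i)) :
    L.M0 m D (∑ i ∈ s, r i • v i) (∑ i ∈ s, (MvPolynomial.C (r i) : A) • w i) := fun e he h1 h2 => by
  simp only [Finset.sum_apply, Pi.smul_apply, coeff_sum, smul_eq_mul, coeff_C_mul]
  exact Finset.sum_congr rfl fun i hi => by rw [h i hi e he h1 h2]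

theorem LD.M0.mul {c j a m' : ℕ} {φ : V →ₗ[ZMod 3] V} (hφ : L.Mul c j a 0 0 φ) (h : L.M0 m D v w)
    (hm : m' ≤ m + j) :
    L.M0 m' (D + j + 4 * a) (φ v) (((c : A) * monomial (kk j a 0 0) 1) • w) := fun e he h1 h2 => by
  rw [hφ e he, Pi.smul_apply, smul_eq_mul, coeff_term]
  refine if_ctx_congr Iff.rfl (fun h3 => ?_) fun _ => rfl
  rw [h _ (he.dv j a 0 0) (by simp only [IE.dv]; omega) (by
    simp only [LD.D, IE.dv, IE.wt] at h2 ⊢
    omega)]
  rfl

theorem hor_spec {G : Type} {F : Fam G} (Φ : (G → A) →+ (Fin 64 → A))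
    (hC : ∀ (r : F3) w, Φ ((C r : A) • w) = (C r : A) • Φ w)
    (hX : ∀ w, Φ ((X 0 : A) • w) = (X 0 : A) • Φ w) {t : PT} {φ : V →ₗ[ZMod 3] V}
    (ht : RM t.f t.g φ) (hφ : L.Mul 1 1 0 0 0 φ) {rows : ℕ → RL} {k m : ℕ} (hm : m ≤ 6) (d : ℕ)
    (hr : ∀ e ≤ d, (rows e).WF ∧ (rows e).len = F.n e ∧
      ∀ i < F.n e, L.M0 6 (e + k) ((rows e).val i) (Φ (F.vec e i))) (p n : ℕ) :
    wf (hor t rows m d p n).a (hor t rows m d p n).b ∧ L.M0 m (d + k)
      (tv (hor t rows m d p n).a (hor t rows m d p n).b) (Φ (F.den d (tv p n))) := by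
  have key : ∀ e ≤ d, ∀ p n, L.M0 6 (e + k) (∑ i ∈ Finset.range (rows e).len,
      tv p n i • (rows e).val i) (Φ (F.lay e (tv p n))) := fun e he p n => by
    rw [(hr e he).2.1, Fam.lay, map_sum]
    simp only [hC]
    exact LD.M0.sum _ fun i hi => (hr e he).2.2 i (Finset.mem_range.1 hi)
  induction m generalizing d p n with
  | zero => exact ⟨wf_zero, fun e _ h => absurd h (Nat.not_lt_zero _)⟩
  | succ m ih =>
    have e0 : hor t rows (m + 1) d p n = Nat.rec (Row.mk 0 0) (fun _ _ =>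
        Nat.rec (cbP (rows 0) p n 0 0) (fun d' _ => Row.rec (fun a b => cbP (rows d) p n (t.f a b)
          (t.g a b)) (frc d' fun e => hor t rows m e (Nat.shiftRight p 64) (Nat.shiftRight n 64))) d)
        (Nat.lor p n) := rfl
    cases h0 : Nat.lor p n with
    | zero =>
      obtain ⟨rfl, rfl⟩ := Nat.or_eq_zero_iff.1 h0
      rw [e0, h0, tv_zero, show F.den d 0 = 0 from Fam.den_zero d, map_zero]
      exact ⟨wf_zero, fun e _ _ _ => by simp⟩
    | succ r =>
    rw [h0] at e0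
    rcases d with _ | d
    · have h1 := R1.cbP ⟨(hr 0 le_rfl).1, rfl⟩ p n wf_zero
      rw [tv_zero, zero_add] at h1
      rw [show hor t rows (m + 1) 0 p n = cbP (rows 0) p n 0 0 from e0]
      exact ⟨h1.1, h1.2 ▸ fun e he h2 => key 0 le_rfl p n e he (by omega)⟩
    · have e : hor t rows (m + 1) (d + 1) p n = cbP (rows (d + 1)) p n
          (t.f (hor t rows m d (Nat.shiftRight p 64) (Nat.shiftRight n 64)).a
            (hor t rows m d (Nat.shiftRight p 64) (Nat.shiftRight n 64)).b)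
          (t.g (hor t rows m d (Nat.shiftRight p 64) (Nat.shiftRight n 64)).a
            (hor t rows m d (Nat.shiftRight p 64) (Nat.shiftRight n 64)).b) :=
        e0.trans (congrArg (fun r : Row => cbP (rows (d + 1)) p n (t.f r.a r.b) (t.g r.a r.b))
          (frc_eq d fun e => hor t rows m e (Nat.shiftRight p 64) (Nat.shiftRight n 64)))
      obtain ⟨h1, h2⟩ := ih (by omega) d (fun e he => hr e (by omega)) (Nat.shiftRight p 64)
        (Nat.shiftRight n 64) fun e he => key e (by omega)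
      have h3 := R1.cbP ⟨(hr _ le_rfl).1, rfl⟩ p n (ht _ _ h1).1
      have h4 := h2.mul hφ (le_refl (m + 1))
      rw [e]
      refine ⟨h3.1, ?_⟩
      rw [h3.2, (ht _ _ h1).2, Fam.den, map_add, hX, add_comm (Φ _)]
      rw [monomial_kk, tv_shiftRight p n] at h4
      simp only [Nat.cast_one, pow_zero, pow_one, mul_one, one_mul, mul_zero, add_zero] at h4
      refine LD.M0.add ?_ fun e he h5 => key _ le_rfl p n e he (by omega)
      rw [add_right_comm, show (fun k => tv p n (k + 64)) = shr 64 (tv p n) from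
        funext fun k => by rw [shr_apply, add_comm]]
      exact h4

theorem pol_cons (q : Q4) (y : List Q4) : pol (q :: y) =
    C ((q.1 : A) * monomial (kk q.2.1 q.2.2.1 0 0) 1) * X 0 ^ q.2.2.2 + pol y := by
  simp only [pol, List.map_cons, List.sum_cons, monomial_kk, pow_zero, mul_one, map_natCast,
    mul_assoc]

theorem yOK_cons {f : ℕ} {q : Q4} {y : List Q4} (h : yOK f (q :: y) = true) :
    ((q.1 = 1 ∨ q.1 = 2) ∧ q.2.1 ≤ 5 ∧ q.2.1 + 4 * q.2.2.1 + q.2.2.2 = f) ∧ yOK f y = true := by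
  rw [yOK, allL_cons] at h
  simp only [Bool.and_eq_true, Bool.or_eq_true, Nat.beq_eq, Nat.ble_eq] at h
  exact h

/-- `pt c j a` is the multiplication by `c v₁ ^ j v₂ ^ a`. -/
def LD.Pt (L : LD) (pt : ℕ → ℕ → ℕ → PT) : Prop := ∀ c, c = 1 ∨ c = 2 → ∀ j ≤ 5, ∀ a < 256,
  ∃ φ, RM (pt c j a).f (pt c j a).g φ ∧ L.Mul c j a 0 0 φ

theorem mulY_spec {pt : ℕ → ℕ → ℕ → PT} (hp : L.Pt pt) {R : Res 3 (Fin 64)} {s d f a b : ℕ}
    (hf : f < 256) (h : wf a b) {x : Fin 64 → A}
    (hx : ∀ k, L.M0 m (d + k) (tv a b) (ac R s (X 0 ^ k) x)) {y : List Q4} (hy : yOK f y = true) :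
    wf (mulY pt y a b).a (mulY pt y a b).b ∧
      L.M0 m (d + f) (tv (mulY pt y a b).a (mulY pt y a b).b) (ac R s (pol y) x) := by
  induction y with
  | nil =>
    refine ⟨wf_zero, fun e _ _ _ => ?_⟩
    simp [mulY, pol, ac]
  | cons q y ih =>
    obtain ⟨⟨h1, h2, h3⟩, h4⟩ := yOK_cons hy
    obtain ⟨h5, h6⟩ := ih h4
    obtain ⟨φ, h7, h8⟩ := hp _ h1 _ h2 q.2.2.1 (by omega)
    have e : mulY pt (q :: y) a b = ⟨ad1 (mulY pt y a b).a (mulY pt y a b).b
        ((pt q.1 q.2.1 q.2.2.1).f a b) ((pt q.1 q.2.1 q.2.2.1).g a b),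
        ad2 (mulY pt y a b).a (mulY pt y a b).b
        ((pt q.1 q.2.1 q.2.2.1).f a b) ((pt q.1 q.2.1 q.2.2.1).g a b)⟩ := by
      change (frc q.1 fun c => frc q.2.1 fun j => frc q.2.2.1 fun e => (⟨ad1 (mulY pt y a b).a
        (mulY pt y a b).b ((pt c j e).f a b) ((pt c j e).g a b), ad2 (mulY pt y a b).a
        (mulY pt y a b).b ((pt c j e).f a b) ((pt c j e).g a b)⟩ : Row)) = _
      simp only [frc_eq]
    rw [e]
    refine ⟨wf_ad h5 (h7 a b h).1, ?_⟩
    dsimp only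
    rw [tv_ad h5 (h7 a b h).1, (h7 a b h).2, pol_cons, ac_add_left, ac_C_mul, add_comm (tv _ _)]
    refine LD.M0.add ?_ h6
    rw [show d + f = d + q.2.2.2 + q.2.1 + 4 * q.2.2.1 by omega]
    exact (hx _).mul h8 (Nat.le_add_right _ _)

theorem rowsZ_spec {zt : List (List (List A4))} {Z : ℕ → ℕ → ℕ → S4}
    (hZ : ∀ i j4 j3, R4 (getL [] (getL [] (getL [] zt i) j4) j3) (Z i j4 j3)) (ds : List ℕ)
    (e : ℕ) : (rowsZ zt ds e).WF ∧ (rowsZ zt ds e).len = (sl0 ds e).length ∧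
      ∀ i < (sl0 ds e).length, (rowsZ zt ds e).val i = Z ((sl0 ds e).getD i 0).1
        ((sl0 ds e).getD i 0).2.2.2 ((sl0 ds e).getD i 0).2.2.1 ((sl0 ds e).getD i 0).2.1 0 0 0 := by
  rw [rowsZ]
  induction sl0 ds e with
  | nil => exact ⟨trivial, rfl, fun i hi => by simp at hi⟩
  | cons q l ih =>
    obtain ⟨a, b, t, h1, h2, h3, -⟩ := (hZ q.1 q.2.2.2 q.2.2.1 q.2.1 0 0).unR
      fun a b _ => RL.cons a b (List.rec RL.nil (fun q _ ih =>
        unR (get2 (getL [] (getL [] (getL [] (getL [] zt q.1) q.2.2.2) q.2.2.1) q.2.1) 0 0)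
          fun a b _ => RL.cons a b ih) l)
    refine (congrArg (fun r : RL => r.WF ∧ r.len = (q :: l).length ∧ ∀ i < (q :: l).length,
      r.val i = Z ((q :: l).getD i 0).1 ((q :: l).getD i 0).2.2.2 ((q :: l).getD i 0).2.2.1
        ((q :: l).getD i 0).2.1 0 0 0) h1).mpr ⟨⟨h2, ih.1⟩, congrArg (· + 1) ih.2.1, fun i hi => ?_⟩
    cases i with
    | zero => exact h3
    | succ i => exact ih.2.2 i (by simpa using hi)

/-- the monomial of a basis vector -/
def ieQ (q : Q4) : IE := ⟨q.1, 0, q.2.1, q.2.2.1, q.2.2.2⟩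

theorem ieQ_ex (q : Q4) : (ieQ q).ex = q.ex := by
  simp only [ieQ, IE.ex, kk, Q4.ex, Finsupp.single_zero, add_zero]
  abel

theorem rowsU_spec (ps : IE → ℕ) (lo hi : ℕ) (ds : List ℕ) (e : ℕ) :
    (rowsU ps lo hi ds e).WF ∧ (rowsU ps lo hi ds e).len = (sl0 ds e).length ∧
      ∀ i < (sl0 ds e).length, (rowsU ps lo hi ds e).val i =
        if lo ≤ ((sl0 ds e).getD i 0).1 ∧ ((sl0 ds e).getD i 0).1 < hi then
          Pi.single (ps (ieQ ((sl0 ds e).getD i 0))) 1 else 0 := by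
  rw [rowsU]
  induction sl0 ds e with
  | nil => exact ⟨trivial, rfl, fun i hi => by simp at hi⟩
  | cons q l ih =>
    refine ⟨⟨wf_zero_right _, ih.1⟩, congrArg (· + 1) ih.2.1, fun i h0 => ?_⟩
    cases i with
    | succ i => exact ih.2.2 i (by simpa using h0)
    | zero =>
      change tv (Bool.rec 0 (Bool.rec 0 (Nat.shiftLeft 1 (ps (ieQ q))) (Nat.blt q.1 hi))
        (Nat.ble lo q.1)) 0 = if lo ≤ q.1 ∧ q.1 < hi then Pi.single (ps (ieQ q)) 1 else 0
      cases h1 : Nat.ble lo q.1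
      · rw [if_neg fun h => by simp [Nat.ble_eq_true_of_le h.1] at h1]
        exact tv_zero
      · cases h2 : Nat.blt q.1 hi
        · rw [if_neg fun h => by simp [Nat.blt_eq.symm ▸ h.2] at h2]
          exact tv_zero
        · rw [if_pos ⟨Nat.le_of_ble_eq_true h1, Nat.blt_eq ▸ h2⟩]
          exact tv_single _

/-! ### homogeneity -/

theorem ac_eq_zf {G : Type} [Fintype G] (R : Res 3 G) (s k : ℕ) (x : G → A) (g' : G) :
    ac R s (X 0 ^ k) x g' = ∑ g, zf (R.a s g' g) (x g) (kk k 0 0 0) :=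
  Finset.sum_congr rfl fun g _ => by
    rw [← vl_univ (zf _ _), vl_eq, act_zf, monomial_kk, mul_comm]
    simp only [pow_zero, mul_one]
    rfl

theorem homW_ac {G : Type} [Fintype G] {R : Res 3 G} {s d f : ℕ} {x : G → A}
    (hx : HomW R s (2 * d) x) {y : List Q4} (hy : yOK f y = true) :
    HomW R (s + 1) (2 * (d + f)) (ac R s (pol y) x) := by
  induction y with
  | nil => exact fun g α h => absurd (by simp [pol, ac]) h
  | cons q y ih =>
    obtain ⟨⟨-, -, h3⟩, h4⟩ := yOK_cons hy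
    rw [pol_cons, ac_add_left, ac_C_mul]
    refine HomW.add (fun g' α h => ?_) (ih h4)
    rw [Pi.smul_apply, smul_eq_mul, mul_assoc, ← map_natCast (C : F3 →+* A), coeff_C_mul,
      coeff_monomial_mul', ac_eq_zf, ← Finset.sum_apply] at h
    have h5 := right_ne_zero_of_mul h
    split_ifs at h5 with h6
    swap
    · exact absurd rfl h5
    have h7 : FW 3 ((R.deg (s + 1) g' : ℤ) - 2 * d) (∑ g, zf (R.a s g' g) (x g)) :=
      FW.sum fun g _ => by
        have := (R.hom s g' g).conv 3 (FW.smul (e := (R.deg s g : ℤ) - 2 * d) (c := x g)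
          (fun β hβ => by have := hx g β hβ; simp only [wE, map_zero] at *; omega) (FW.dl 0))
        rwa [sub_add_sub_cancel] at this
    have h8 := h7 _ _ (right_ne_zero_of_mul h5)
    have h9 : wE 3 α = wE 3 (kk q.2.1 q.2.2.1 0 0) + wE 3 (α - kk q.2.1 q.2.2.1 0 0) := by
      rw [wE, wE, wE, ← map_add, add_tsub_cancel_of_le h6]
    rw [wE_kk] at h8 h9
    omega

/-! ### soundness -/

variable {D : RD}

theorem dg_mkRes (hD : D.Ok) (s : ℕ) : Dg (mkRes D hD) genF s (D.ds s) where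
  inj i hi j hj h := by
    have := hD.len s
    rw [← genF_val (i := i) (by omega), h, genF_val (by omega)]
  deg i hi := by rw [mkRes_deg, genF_val (hi.trans_le (hD.len s)), getL_lt 1000 0 hi, getL_eq]
  all g hg := ⟨g, not_le.1 fun h => by
    rw [mkRes_deg, getL_of_le _ h] at hg
    omega, genF_self g⟩

/-- the claim `c` for the generators `lo ≤ i < hi` of the target -/
def RD.CP (D : RD) (hD : D.Ok) (s lo hi : ℕ) (c : Cm) : Prop :=
  c.d + c.f ≤ D.T ∧ yOK c.f c.y = true ∧ ∀ e : IE, lo ≤ e.i → e.i < hi → e.j1 < c.m →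
    getL 0 (D.ds (s + 1)) e.i + e.wt = c.d + c.f →
      coeff e.ex (ac (mkRes D hD) s (pol c.y) ((std genF (D.ds s)).den c.d c.x.val) (genF e.i)) =
        coeff e.ex ((std genF (D.ds (s + 1))).den (c.d + c.f) c.z.val (genF e.i))

theorem RD.CP.trans {hD : D.Ok} {s a b c : ℕ} {x : Cm} (h : D.CP hD s a b x)
    (h' : D.CP hD s b c x) : D.CP hD s a c x := ⟨h.1, h.2.1, fun e h1 h2 =>
  (lt_or_ge e.i b).elim (h.2.2 e h1) fun h3 => h'.2.2 e h3 h2⟩

/-- **The claim.** -/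
theorem RD.CP.ok {hD : D.Ok} {s n : ℕ} {c : Cm} (h : D.CP hD s 0 n c)
    (hn : (D.ds (s + 1)).length ≤ n) : c.Ok (mkRes D hD) genF D.ds s := fun g => by
  have hT := hD.T_lt
  have h0 := h.1
  have h1 := (homW_ac (Fam.den_hom (dg_mkRes hD s).hom c.d c.x.val) h.2.1).sub
    (Fam.den_hom (dg_mkRes hD (s + 1)).hom (c.d + c.f) c.z.val) g
  rw [← Ideal.mem_span_singleton, X_pow_eq_monomial,
    ← Set.image_singleton (f := fun s => monomial s 1), mem_ideal_span_monomial_image]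
  intro α hα
  refine ⟨_, rfl, Finsupp.single_le_iff.2 (not_lt.1 fun h2 => mem_support_iff.1 hα ?_)⟩
  have h3 := h1 α (mem_support_iff.1 hα)
  rw [mkRes_deg] at h3
  have h4 : (g : ℕ) < (D.ds (s + 1)).length := not_le.1 fun h => by
    rw [getL_of_le _ h] at h3
    omega
  have h5 := exists_kk (E := α) (by omega)
  rw [getL_lt 1000 0 h4, h5, wE_kk] at h3
  have h6 := h.2.2 ⟨g, α 0, α 1, α 2, α 3⟩ (Nat.zero_le _) (h4.trans_le hn) h2
    (by simp only [IE.wt]; omega)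
  rw [IE.ex, genF_self, ← h5] at h6
  rw [Pi.sub_apply, coeff_sub, h6, sub_self]

/-- **The check of the claims for one part of the generators.** -/
theorem cp_of_chk (hD : D.Ok) (hL : L.Good tb) (ht : TbOK tb) {pt : ℕ → ℕ → ℕ → PT}
    (hpt : L.Pt pt) {s : ℕ} {d0 dp : List ℕ} (hp : L.Part D.T (D.ds (s + 1)) d0 dp) {us : A4}
    (hU : UOK D L s us) {l : List Cm}
    (h : claimsOK L.C L.g1 L.ps pt L.lo L.hi (D.ds s) (D.ds (s + 1)) us l = true) :
    ∀ c ∈ l, D.CP hD s L.lo L.hi c := by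
  intro c hc
  have h1 := (allL_iff _ _).1 h c hc
  simp only [cmOK, frc_eq] at h1
  have hT := hL.T_lt
  have hT' := hp.T_eq
  have hhi := hp.hi_le.trans (hD.len _)
  cases h2 : Nat.ble (Nat.add c.d c.f) L.C.T && (Nat.ble c.m 6 && yOK c.f c.y)
  · rw [h2] at h1
    cases h1
  rw [h2] at h1
  simp only [Bool.and_eq_true, Nat.ble_eq, Nat.add_eq] at h2
  obtain ⟨hd, hm, hy⟩ := h2
  obtain ⟨φ, hφ1, hφ2⟩ := hpt 1 (.inl rfl) 1 (by norm_num) 0 (by norm_num)
  choose E e1 e2 using fun n => hL.tm 5 (max n 1) (if n = 0 then 3 else 1)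
  have e3 := ht.2.2
  have hx (k : ℕ) := hor_spec (L := L) (F := std genF (D.ds s)) (k := k)
    (AddMonoidHom.mk' (ac (mkRes D hD) s (X 0 ^ k)) (ac_add s _))
    (fun r w => ac_smul (eta_C r) s _ w) (fun w => ac_smul clFacts.eta_v1 s _ w) hφ1 hφ2 hm c.d
    (rows := rowsZ (ztab L.C (D.ds s) us) (D.ds s)) (fun e he => by
      obtain ⟨h3, h4, h5⟩ := rowsZ_spec
        ((wf4_sound hU.1).ztab L.C (e1 0) (e1 1) (e1 2) (e1 3) (D.ds s)) (D.ds s) e
      refine ⟨h3, h4, fun i hi z hz _ h6 => ?_⟩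
      obtain ⟨-, h7, h8⟩ := mem_sl0.1 (getD_mem_sl0 hi)
      rw [h5 i hi]
      change _ = coeff z.ex (ac _ s _ (stv genF ((sl0 (D.ds s) e).getD i 0)) _)
      generalize (sl0 (D.ds s) e).getD i 0 = q at *
      rw [← getL_eq] at h8
      have h9 := (((hU.2 _ h7).itr hL (n := 3) (by norm_num)
        (e3 3 (by norm_num) (by norm_num) ▸ e2 3) q.2.2.2).itr hL (n := 2) (by norm_num)
        (e3 2 (by norm_num) (by norm_num) ▸ e2 2) q.2.2.1).z0S hL (E := E)
        (e3 1 (by norm_num) (by norm_num) ▸ e2 0) (e3 1 (by norm_num) (by norm_num) ▸ e2 1) q.2.1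
        z hz k 0 0 0 (by simp only [wn]; omega)
      rw [ztabS, if_pos h7, ztS, if_pos (by omega)]
      refine h9.trans ?_
      beta_reduce
      rw [ac_eq_zf, Finset.sum_eq_single (genF q.1) (fun g _ hg => by
        rw [stv, Pi.single_eq_of_ne hg, zf_zero, Pi.zero_apply]) (by simp), stv, Pi.single_eq_same,
        mkRes_a, genF_val (hz.2.1.trans_le hhi), genF_val (h7.trans_le (hD.len s)),
        show q.ex = kk 0 q.2.1 q.2.2.1 q.2.2.2 from (ieQ_ex q).symm, monomial_kk, zf_zf, zf_zf]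
      exact congrArg (fun u => coeff z.ex (zf (D.a s z.i q.1) u (kk k 0 0 0))) (by ring))
    c.x.1 c.x.2
  have hz := hor_spec (L := L) (F := std genF (D.ds (s + 1))) (k := 0) (AddMonoidHom.id _)
    (fun _ _ => rfl) (fun _ => rfl) hφ1 hφ2 hm (c.d + c.f)
    (rows := rowsU L.ps L.lo L.hi (D.ds (s + 1))) (fun e he => by
      obtain ⟨h3, h4, h5⟩ := rowsU_spec L.ps L.lo L.hi (D.ds (s + 1)) e
      refine ⟨h3, h4, fun i hi z hz _ h6 => ?_⟩
      obtain ⟨-, h7, h8⟩ := mem_sl0.1 (getD_mem_sl0 hi)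
      rw [h5 i hi]
      change _ = coeff z.ex (stv genF ((sl0 (D.ds (s + 1)) e).getD i 0) _)
      generalize (sl0 (D.ds (s + 1)) e).getD i 0 = q at *
      have h9 : genF z.i = genF q.1 ∧ z.ex = q.ex ↔ z = ieQ q := by
        rw [IE.eq_iff, ieQ_ex, Fin.ext_iff, genF_val (hz.2.1.trans_le hhi),
          genF_val (h7.trans_le (hD.len _))]
        rfl
      rw [coeff_stv]
      by_cases h10 : L.lo ≤ q.1 ∧ q.1 < L.hi
      · rw [if_pos h10, Pi.single_apply]
        refine if_congr (Iff.trans ⟨hL.inj _ _ hz ⟨h10.1, h10.2, by simp [ieQ], ?_⟩, congrArg _⟩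
          h9.symm) rfl rfl
        rw [LD.D, show (ieQ q).i = q.1 from rfl, hp.gd_eq _ h10.1 h10.2, getL_eq]
        simp only [ieQ, IE.wt]
        omega
      · rw [if_neg h10, if_neg fun h => h10 (by
          have h11 : z.i = q.1 := congrArg IE.i (h9.1 h)
          exact h11 ▸ ⟨hz.1, hz.2.1⟩)]
        rfl) c.z.1 c.z.2
  have hw := mulY_spec hpt (by omega) (hx 0).1 (fun k => (hx k).2) hy
  refine ⟨by omega, hy, fun e h3 h4 h5 h6 => ?_⟩
  have h7 : L.D e = c.d + c.f := by rw [LD.D, hp.gd_eq _ h3 h4, h6]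
  have he : L.ok e := ⟨h3, h4, by omega, by omega⟩
  refine (hw.2 e he h5 h7).symm.trans (Eq.trans ?_ (hz.2 e he h5 h7))
  have h8 := congrArg (·.testBit (L.ps e)) (Nat.eq_of_beq_eq_true h1)
  have h9 : (emask L.C L.g1 (c.d + c.f) c.m).testBit (L.ps e) = true := by
    simp only [emask, Nat.land_eq, Nat.xor_eq, Nat.testBit_and, Nat.testBit_xor]
    rw [(hL.ge e he _).2 h7.ge, (hL.g1 e he _).2 (Nat.zero_le _),
      Bool.eq_false_iff.2 fun h => absurd ((hL.ge e he (c.d + c.f).succ).1 h) (by omega),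
      Bool.eq_false_iff.2 fun h => absurd ((hL.g1 e he c.m).1 h) (by omega)]
    rfl
  simp only [Nat.land_eq, Nat.lor_eq, Nat.xor_eq, Nat.testBit_and, Nat.testBit_or,
    Nat.testBit_xor, Nat.zero_testBit, Nat.add_eq, h9, Bool.and_true, Bool.or_eq_false_iff,
    bne_eq_false_iff_eq] at h8
  rw [tv, tv, h8.1, h8.2]

/-- The multipliers of a layout which passes the test. -/
theorem pt_of {K : KP} {q b gd : List ℕ} {lo hi : ℕ} (tb : ℕ → ℕ → Pl)
    (h : layOK K q b gd lo hi = true) :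
    (LD.mk (ctxK tb K) (g1K K) (posK K (getL 0 q) (getL 0 b)) (getL 0 gd) lo hi).Pt (ptE K) := by
  intro c hc j hj a ha
  obtain ⟨us, h1, h2⟩ := (good_of (fun _ _ => [(c, j + 256 * a)]) (by simpa using hc) h).tm 0 0 1
  have d0 : dg 0 (j + 256 * a) = j := by simp only [dg]; omega
  have d1 : dg 1 (j + 256 * a) = a := by simp only [dg]; omega
  have d2 : ∀ i, dg (i + 2) (j + 256 * a) = 0 := fun i => by
    rw [dg, Nat.div_eq_of_lt (lt_of_lt_of_le (by omega)
      (Nat.pow_le_pow_right (by norm_num) (Nat.le_add_left 2 i)))]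
  have e : (ctxK (fun _ _ => [(c, j + 256 * a)]) K).tm 0 0 1 = [ptE K c j a] := by
    simp only [ctxK, prepK, frc_eq, kd_eq, one_mul, d0, d1, d2 0, d2 1, d2 3, d2 4, d2 6,
      Nat.ble_eq_true_of_le hj]
    rfl
  rw [e] at h1
  cases h2 with
  | cons h3 _ =>
    simp only [one_mul, d0, d1, d2 0, d2 1] at h3
    exact ⟨_, (List.forall₂_cons.1 h1).1.1, h3⟩
  | drop h3 _ =>
    simp only [d0] at h3
    omega

/-- the claims for one part, with explicit data -/
theorem cp_K (hD : D.Ok) (s : ℕ) {K : KP} {q b d0 dp ds0 ds1 : List ℕ} {T lo hi : ℕ} {us : A4}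
    {l : List Cm} (e : D.T = T) (e0 : D.ds s = ds0) (e1 : D.ds (s + 1) = ds1)
    (hp : partOK T K q b ds1 d0 dp lo hi = true) (hU : UOK D (ldK K q b ds1 lo hi) s us)
    (h : evK K q b lo hi ds0 ds1 us l = true) : ∀ c ∈ l, D.CP hD s lo hi c := by
  subst e e0 e1
  exact cp_of_chk hD (part_of hp).1 tbOK (pt_of _ (Bool.and_eq_true_iff.1 hp).1) (part_of hp).2 hU h

theorem takeL_append_dropL {α : Type} (n : ℕ) (l : List α) : takeL n l ++ dropL n l = l := by
  induction n generalizing l with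
  | zero => rfl
  | succ n ih =>
    cases l with
    | nil => rfl
    | cons a t => exact congrArg (a :: ·) (ih t)

/-- The check may be split. -/
theorem evK_cut {K : KP} {q b ds ds1 : List ℕ} {lo hi : ℕ} {us : A4} {l : List Cm} (n : ℕ)
    (h : evK K q b lo hi ds ds1 us (takeL n l) = true)
    (h' : evK K q b lo hi ds ds1 us (dropL n l) = true) : evK K q b lo hi ds ds1 us l = true :=
  (allL_iff _ _).2 fun c hc => by
    rw [← takeL_append_dropL n l, List.mem_append] at hc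
    exact hc.elim ((allL_iff _ _).1 h c) ((allL_iff _ _).1 h' c)

end Vale.Agent.P236C

end
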