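/-!
# P236C: the executable part of the kernel check (no proofs, no imports)

A row is a pair of bit planes (`a`: the digit is `1`, `b`: the digit is `-1`).  `RL` is a vector of
rows (index `K₂`), `A3` an array (indices `K₄, K₃, K₂`), `A4` a list of arrays (index `N`).
All degrees are measured in units in which `t₁` has degree one.
-/

noncomputable section

namespace Vale.Agent.P236C

/-- two bit planes -/
structure Row where
  /-- the digits `1` -/
  a : Nat
  /-- the digits `-1` -/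
  b : Nat

/-- vectors of rows -/
inductive RL where
  | nil : RL
  | cons : Nat → Nat → RL → RL

/-- arrays -/
abbrev A3 : Type := List (List RL)

/-- lists of arrays -/
abbrev A4 : Type := List A3

/-- evaluate a small number -/
def frc {β : Type} (a : Nat) (k : Nat → β) : β :=
  Nat.rec (k (nat_lit 0)) (fun n _ => k (Nat.succ n)) a

/-- lookup with a default -/
def getL {α : Type} (d : α) (l : List α) : Nat → α :=
  List.rec (fun _ => d) (fun a _ ih i => Nat.rec a (fun j _ => ih j) i) l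

/-- `f 0 (f 1 (… (f (n - 1) b)))` -/
def foldN {β : Type} (n : Nat) (f : Nat → β → β) : β → β :=
  Nat.rec (fun b => b) (fun i ih b => ih (f i b)) n

/-- `[f 0, …, f (n - 1)]` -/
def tabN {α : Type} (n : Nat) (f : Nat → α) : List α :=
  Nat.rec (motive := fun _ => List α → List α) (fun l => l) (fun i ih l => ih (f i :: l)) n []

/-- `f 0 ∧ … ∧ f (n - 1)` -/
def allN (n : Nat) (f : Nat → Bool) : Bool :=
  Nat.rec true (fun i ih => Bool.rec false ih (f i)) n

/-- the number of `i` with `c + d * i ≤ T` -/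
def cnt (T d c : Nat) : Nat := Nat.div (Nat.sub (Nat.add T d) c) d

/-- tail -/
def tlR (l : RL) : RL := RL.rec RL.nil (fun _ _ t _ => t) l

/-- drop -/
def dropR (n : Nat) : RL → RL := Nat.rec (fun l => l) (fun _ ih l => ih (tlR l)) n

/-- head and tail -/
def unR {β : Type} (l : RL) (k : Nat → Nat → RL → β) : β :=
  RL.rec (k (nat_lit 0) (nat_lit 0) RL.nil) (fun a b t _ => k a b t) l

/-- a vector of an array -/
def get2 (a : A3) (k4 k3 : Nat) : RL := getL RL.nil (getL [] a k4) k3

/-- first plane -/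
def idF (a _b : Nat) : Nat := a

/-- second plane -/
def swF (_a b : Nat) : Nat := b

/-- first plane of a sum -/
def ad1 (a1 a2 c1 c2 : Nat) : Nat :=
  Nat.xor (Nat.lor a2 c2) (Nat.xor (Nat.lor a1 c2) (Nat.lor a2 c1))

/-- second plane of a sum -/
def ad2 (a1 a2 c1 c2 : Nat) : Nat :=
  Nat.xor (Nat.lor a1 c1) (Nat.xor (Nat.lor a1 c2) (Nat.lor a2 c1))

/-- apply a map of rows -/
def vmap (f g : Nat → Nat → Nat) (s : RL) : RL :=
  RL.rec RL.nil (fun b1 b2 _ ih => RL.cons (f b1 b2) (g b1 b2) ih) s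

/-- `acc + (f, g) s` -/
def vz (f g : Nat → Nat → Nat) (acc : RL) : RL → RL :=
  RL.rec (fun s => vmap f g s) (fun a1 a2 t ih s => RL.rec (RL.cons a1 a2 t) (fun b1 b2 u _ =>
    (fun c1 c2 => RL.cons
      (Nat.xor (Nat.lor a2 c2) (Nat.xor (Nat.lor a1 c2) (Nat.lor a2 c1)))
      (Nat.xor (Nat.lor a1 c1) (Nat.xor (Nat.lor a1 c2) (Nat.lor a2 c1))) (ih u))
      (f b1 b2) (g b1 b2)) s) acc

/-- `acc + s` -/
def vad (acc : RL) : RL → RL :=
  RL.rec (fun s => s) (fun a1 a2 t ih s => RL.rec (RL.cons a1 a2 t) (fun c1 c2 u _ => RL.cons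
    (Nat.xor (Nat.lor a2 c2) (Nat.xor (Nat.lor a1 c2) (Nat.lor a2 c1)))
    (Nat.xor (Nat.lor a1 c1) (Nat.xor (Nat.lor a1 c2) (Nat.lor a2 c1))) (ih u)) s) acc

/-- `acc - s` -/
def vsb (acc : RL) : RL → RL :=
  RL.rec (fun s => vmap swF idF s) (fun a1 a2 t ih s => RL.rec (RL.cons a1 a2 t)
    (fun c2 c1 u _ => RL.cons
      (Nat.xor (Nat.lor a2 c2) (Nat.xor (Nat.lor a1 c2) (Nat.lor a2 c1)))
      (Nat.xor (Nat.lor a1 c1) (Nat.xor (Nat.lor a1 c2) (Nat.lor a2 c1))) (ih u)) s) acc

/-- multiply by a list of masks, and evaluate -/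
def vtr (ms : List Nat) : RL → RL :=
  List.rec (fun _ => RL.nil) (fun m _ ih s => RL.rec RL.nil (fun a b u _ =>
    (fun r1 r2 => Bool.rec (RL.cons r1 r2 (ih u)) (RL.cons r1 r1 (ih u)) (Nat.beq r1 r2))
      (Nat.land a m) (Nat.land b m)) s) ms

/-- a prepared term: a map of rows and the exponents of `x`, `t₂`, `t₃` -/
structure PT where
  /-- first plane -/
  f : Nat → Nat → Nat
  /-- second plane -/
  g : Nat → Nat → Nat
  /-- exponent of `x` -/
  e : Nat
  /-- exponent of `t₂` -/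
  g2 : Nat
  /-- exponent of `t₃` -/
  g3 : Nat

/-- the data of a layout -/
structure Ctx where
  /-- the range -/
  T : Nat
  /-- the positions of degree at least `c` -/
  ge : Nat → Nat
  /-- a bound for the positions of degree at least `c` -/
  ln : Nat → Nat
  /-- `tm i n q`: the prepared terms of `r(i, n) ^ q` -/
  tm : Nat → Nat → Nat → List PT

/-- `[f c, f (c + 4), …]` -/
def str4 (T : Nat) (f : Nat → Nat) (c : Nat) : List Nat :=
  Nat.rec (motive := fun _ => Nat → List Nat) (fun _ => [])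
    (fun _ ih x => f x :: frc (Nat.add x (nat_lit 4)) ih) (cnt T (nat_lit 4) c) c

/-- masks along a vector -/
def sG (C : Ctx) (c : Nat) : List Nat := str4 C.T C.ge c

/-- lengths along a vector -/
def sL (C : Ctx) (c : Nat) : List Nat := str4 C.T C.ln c

/-- the positions of degree `u ≥ c` with `(u - c) / q % 3 = k` -/
def dm (C : Ctx) (q k c : Nat) : Nat :=
  frc (Nat.add c (Nat.mul q k)) (Nat.rec (motive := fun _ => Nat → Nat) (fun _ => nat_lit 0)
    (fun _ ih x => frc (Nat.add x q) fun y => Nat.lor (Nat.xor (C.ge x) (C.ge y))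
      (frc (Nat.add x (Nat.mul (nat_lit 3) q)) ih)) (cnt C.T (Nat.mul (nat_lit 3) q) c))

/-- tabulate an array -/
def tab3 (T c : Nat) (f : Nat → Nat → Nat → RL) : A3 :=
  tabN (cnt T (nat_lit 40) c) fun k4 => frc (Nat.add c (Nat.mul (nat_lit 40) k4)) fun c4 =>
    tabN (cnt T (nat_lit 13) c4) fun k3 =>
      frc (Nat.add c4 (Nat.mul (nat_lit 13) k3)) (f k4 k3)

/-- the sum over the terms, for one vector -/
def sumT (ts : List PT) (src : A4) (k4 k3 : Nat) : RL :=
  List.rec RL.nil (fun t _ ih => PT.rec (fun f g e g2 g3 =>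
    vz f g ih (dropR g2 (get2 (getL [] src e) k4 (Nat.add k3 g3)))) t) ts

/-- head and tail -/
def unL {α β : Type} (z : α) (l : List α) (k : α → List α → β) : β :=
  List.rec (k z []) (fun x t _ => k x t) l

/-- boxes; a boxed function is computed only once -/
abbrev Bx (α : Type) : Type := Quot fun _ _ : α => False

theorem hB {α β : Type} (f : α → β) (a b : α) (h : False) : f a = f b := h.elim

namespace M3

/-- drop which shares the tails -/
def dropT (n : Nat) (l : RL) : RL := Nat.rec l (fun _ ih => tlR ih) n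

/-- one more term in the program of a group -/
def gs1 (f g : Nat → Nat → Nat) (g2 : Nat) (r : RL → RL → RL) : Bx (RL → RL → RL) :=
  (fun (m1 : RL → RL) (m2 : Nat → Nat → RL → (RL → RL) → RL → RL) => Nat.rec
    (Quot.mk _ fun v acc => r v (RL.rec (motive := fun _ => RL → RL) m1 m2 acc v))
    (fun _ _ => Quot.mk _ fun v acc =>
      r v (RL.rec (motive := fun _ => RL → RL) m1 m2 acc (dropT g2 v))) g2)
    (fun s => RL.rec RL.nil (fun b1 b2 _ ih => RL.cons (f b1 b2) (g b1 b2) ih) s)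
    (fun a1 a2 t ih s => RL.rec (RL.cons a1 a2 t) (fun b1 b2 u _ =>
      (fun c1 c2 => RL.cons
        (Nat.xor (Nat.lor a2 c2) (Nat.xor (Nat.lor a1 c2) (Nat.lor a2 c1)))
        (Nat.xor (Nat.lor a1 c1) (Nat.xor (Nat.lor a1 c2) (Nat.lor a2 c1))) (ih u))
        (f b1 b2) (g b1 b2)) s)

/-- the program of a group of terms with the same exponents of `x` and `t₃` -/
def gsum (G : List PT) : Bx (RL → RL → RL) :=
  List.rec (Quot.mk _ fun _ acc => acc) (fun t _ ih =>
    PT.rec (fun f g _ g2 _ => Quot.lift (gs1 f g g2) (hB (gs1 f g g2)) ih) t) G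

/-- programs for the vectors -/
abbrev AS : Type := Nat → Nat → RL → RL

/-- one more group in the program of an exponent of `x` -/
def pe1 (g3 : Nat) (r : A3 → AS → AS) (s : RL → RL → RL) : Bx (A3 → AS → AS) :=
  Nat.rec (Quot.mk _ fun a A k4 k3 acc => (fun v => RL.rec (r a A k4 k3 acc)
      (fun _ _ _ _ => r a A k4 k3 (s v acc)) v) (get2 a k4 k3))
    (fun _ _ => Quot.mk _ fun a A k4 k3 acc => (fun v => RL.rec (r a A k4 k3 acc)
      (fun _ _ _ _ => r a A k4 k3 (s v acc)) v) (get2 a k4 (Nat.add k3 g3))) g3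

/-- the program of the groups with the same exponent of `x` -/
def progE (E : List (Nat × List PT)) : Bx (A3 → AS → AS) :=
  List.rec (Quot.mk _ fun _ A => A) (fun p _ ih => Prod.rec (fun g3 G =>
    Quot.lift (fun r => Quot.lift (pe1 g3 r) (hB (pe1 g3 r)) (gsum G))
      (hB fun r => Quot.lift (pe1 g3 r) (hB (pe1 g3 r)) (gsum G)) ih) p) E

/-- tabulations -/
abbrev XX : Type := AS → A3

/-- one more exponent of `x`; `X` is the tabulation to be used, `Y` the one for a non-zero sum -/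
def pp1 (r : A4 → AS → XX → XX → A3) (s : A3 → AS → AS) : Bx (A4 → AS → XX → XX → A3) :=
  Quot.mk _ fun src A X Y => List.rec (X A) (fun a t _ =>
    List.rec (r t A X Y) (fun _ _ _ => r t (s a A) Y Y) a) src

/-- an exponent of `x` without terms -/
def pp0 (r : A4 → AS → XX → XX → A3) : Bx (A4 → AS → XX → XX → A3) :=
  Quot.mk _ fun src A X Y => List.rec (X A) (fun _ t _ => r t A X Y) src

/-- the program of all terms -/
def progP (P : List (List (Nat × List PT))) : Bx (A4 → AS → XX → XX → A3) :=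
  List.rec (Quot.mk _ fun _ A X _ => X A) (fun E _ ih => List.rec (Quot.lift pp0 (hB pp0) ih)
    (fun _ _ _ => Quot.lift (fun r => Quot.lift (pp1 r) (hB (pp1 r)) (progE E))
      (hB fun r => Quot.lift (pp1 r) (hB (pp1 r)) (progE E)) ih) E) P

/-- insert a term into the groups of its exponent of `x` -/
def insE (t : PT) (E : List (Nat × List PT)) : List (Nat × List PT) :=
  List.rec [(t.g3, [t])] (fun p tl ih => Prod.rec (fun g3 G =>
    Bool.rec (p :: ih) ((g3, t :: G) :: tl) (Nat.beq g3 t.g3)) p) E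

/-- insert a term -/
def insP (t : PT) (e : Nat) : List (List (Nat × List PT)) → List (List (Nat × List PT)) :=
  Nat.rec (fun P => unL [] P fun E tl => insE t E :: tl)
    (fun _ ih P => unL [] P fun E tl => E :: ih tl) e

/-- group the terms -/
def grp (ts : List PT) : List (List (Nat × List PT)) :=
  List.rec [] (fun t _ ih => insP t t.e ih) ts

/-- one more mask -/
def vt1 (m : Nat) (r : RL → RL) : Bx (RL → RL) :=
  Quot.mk _ fun s => RL.rec RL.nil (fun a b u _ =>
    (fun r1 r2 => Bool.rec (RL.cons r1 r2 (r u)) (RL.cons r1 r1 (r u)) (Nat.beq r1 r2))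
      (Nat.land a m) (Nat.land b m)) s

/-- the program of `vtr` -/
def vtrB (ms : List Nat) : Bx (RL → RL) :=
  List.rec (Quot.mk _ fun _ => RL.nil) (fun m _ ih => Quot.lift (vt1 m) (hB (vt1 m)) ih) ms

/-- one more element -/
def tb1 {α : Type} (r : AS → List α) (q : AS → α) : Bx (AS → List α) :=
  Quot.mk _ fun A => q A :: r A

/-- tabulate programs -/
def tabB {α : Type} (n : Nat) (p : Nat → Bx (AS → α)) : Bx (AS → List α) :=
  foldN n (fun i ih => Quot.lift (fun r => Quot.lift (tb1 r) (hB (tb1 r)) (p i))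
    (hB fun r => Quot.lift (tb1 r) (hB (tb1 r)) (p i)) ih) (Quot.mk _ fun _ => [])

/-- the program of one vector -/
def sh1 (k4 k3 : Nat) (r : RL → RL) : Bx (AS → RL) := Quot.mk _ fun A => r (A k4 k3 RL.nil)

/-- the tabulation of an array of degree `c` -/
def shape (C : Ctx) (c : Nat) : Bx XX :=
  tabB (cnt C.T (nat_lit 40) c) fun k4 => frc (Nat.add c (Nat.mul (nat_lit 40) k4)) fun c4 =>
    tabB (cnt C.T (nat_lit 13) c4) fun k3 => frc (Nat.add c4 (Nat.mul (nat_lit 13) k3)) fun c3 =>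
      Quot.lift (sh1 k4 k3) (hB (sh1 k4 k3)) (vtrB (sG C c3))

/-- the program of a polynomial -/
def progT (ts : List PT) : Bx (A4 → AS → XX → XX → A3) := progP (grp ts)

end M3

open M3 in
/-- multiplication by a polynomial, for one array -/
def mul3 (C : Ctx) (ts : List PT) (c : Nat) (src : A4) : A3 :=
  Quot.lift (fun f : A4 → AS → XX → XX → A3 => f) (hB fun f => f) (progT ts) src
    (fun _ _ acc => acc) (fun _ => [])
    (Quot.lift (fun f : XX => f) (hB fun f => f) (shape C c))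

/-- multiplication by a polynomial -/
def mulR (C : Ctx) (ts : List PT) (d : Nat) (src : A4) : Nat → A4 :=
  List.rec (fun _ => []) (fun a t ih c =>
    Bool.rec [] (mul3 C ts c (a :: t) :: frc (Nat.add c d) ih) (Nat.ble c C.T)) src

/-- patterns for the digit steps -/
inductive Pat where
  | nil : Pat
  | a : Pat → Pat
  | b : Pat → Pat
  | c : Pat → Pat
  | d : Pat → Pat
  | e : Pat → Pat

/-- the pattern for the last digit in base three -/
def pat1 : Pat := .a (.b (.c (.d (.e (.c (.d (.e (.c (.d (.e (.c (.d (.e (.c (.d (.e (.c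
  (.d (.e (.c (.d (.e (.c (.d (.e (.c .nil))))))))))))))))))))))))))

/-- the pattern for the second digit in base three -/
def pat3 : Pat := .a (.a (.a (.b (.b (.b (.c (.c (.c (.d (.d (.d (.e (.e (.e (.c (.c (.c
  (.d (.d (.d (.e (.e (.e (.c (.c (.c .nil))))))))))))))))))))))))))

/-- the pattern for the third digit in base three -/
def pat9 : Pat := .a (.a (.a (.a (.a (.a (.a (.a (.a (.b (.b (.b (.b (.b (.b (.b (.b (.b
  (.c (.c (.c (.c (.c (.c (.c (.c (.c .nil))))))))))))))))))))))))))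

/-- copy the first row -/
def cpR (v : RL) (k : RL → RL) : RL :=
  RL.rec (RL.cons (nat_lit 0) (nat_lit 0) (k RL.nil)) (fun a1 a2 t _ => RL.cons a1 a2 (k t)) v

/-- add a row to the first row -/
def adR (v : RL) (c1 c2 : Nat) (k : RL → RL) : RL :=
  RL.rec (RL.cons c1 c2 (k RL.nil)) (fun a1 a2 t _ => RL.cons
    (Nat.xor (Nat.lor a2 c2) (Nat.xor (Nat.lor a1 c2) (Nat.lor a2 c1)))
    (Nat.xor (Nat.lor a1 c1) (Nat.xor (Nat.lor a1 c2) (Nat.lor a2 c1))) (k t)) v

/-- digit step for one vector -/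
def cmbP (p : Pat) : RL → RL → RL → RL :=
  Pat.rec (fun v0 _ _ => v0)
    (fun _ ih v0 v1 v2 => RL.rec (RL.cons (nat_lit 0) (nat_lit 0) (ih RL.nil v1 v2))
      (fun a1 a2 t _ => RL.cons a1 a2 (ih t v1 v2)) v0)
    (fun _ ih v0 v1 v2 => RL.rec (RL.rec v0 (fun _ _ _ _ => cpR v0 fun t => ih t RL.nil v2) v2)
      (fun c1 c2 u _ => RL.rec (RL.cons c1 c2 (ih RL.nil u v2)) (fun a1 a2 t _ => RL.cons
        (Nat.xor (Nat.lor a2 c2) (Nat.xor (Nat.lor a1 c2) (Nat.lor a2 c1)))
        (Nat.xor (Nat.lor a1 c1) (Nat.xor (Nat.lor a1 c2) (Nat.lor a2 c1))) (ih t u v2)) v0) v1)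
    (fun _ ih v0 v1 v2 => RL.rec
      (RL.rec v0 (fun c1 c2 w _ => adR v0 c1 c2 fun t => ih t RL.nil w) v2)
      (fun b1 b2 u _ => RL.rec (adR v0 b2 b1 fun t => ih t u RL.nil) (fun c1 c2 w _ => adR v0
        (Nat.xor (Nat.lor b1 c2) (Nat.xor (Nat.lor b2 c2) (Nat.lor b1 c1)))
        (Nat.xor (Nat.lor b2 c1) (Nat.xor (Nat.lor b2 c2) (Nat.lor b1 c1)))
        fun t => ih t u w) v2) v1)
    (fun _ ih v0 v1 v2 => RL.rec (RL.rec v0 (fun _ _ w _ => cpR v0 fun t => ih t RL.nil w) v2)
      (fun _ _ u _ => (fun w => RL.rec (RL.cons (nat_lit 0) (nat_lit 0) (ih RL.nil u w))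
        (fun a1 a2 t _ => RL.cons a1 a2 (ih t u w)) v0)
        (RL.rec RL.nil (fun _ _ w _ => w) v2)) v1)
    (fun _ ih v0 v1 v2 => RL.rec (RL.rec v0 (fun _ _ w _ => cpR v0 fun t => ih t RL.nil w) v2)
      (fun c1 c2 u _ => (fun w => RL.rec (RL.cons c1 c2 (ih RL.nil u w)) (fun a1 a2 t _ => RL.cons
        (Nat.xor (Nat.lor a2 c2) (Nat.xor (Nat.lor a1 c2) (Nat.lor a2 c1)))
        (Nat.xor (Nat.lor a1 c1) (Nat.xor (Nat.lor a1 c2) (Nat.lor a2 c1))) (ih t u w)) v0)
        (RL.rec RL.nil (fun _ _ w _ => w) v2)) v1) p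

/-- digit step for one vector -/
def cmbV (p : Pat) (v0 v1 v2 : RL) : RL :=
  RL.rec (RL.rec v0 (fun _ _ _ _ => cmbP p v0 v1 v2) v2) (fun _ _ _ _ => cmbP p v0 v1 v2) v1

/-- digit step for lists -/
def cmbQ {α : Type} (z : α) (ad sb : α → α → α) (p : Pat) : List α → List α → List α → List α :=
  Pat.rec (fun l0 _ _ => l0)
    (fun _ ih l0 l1 l2 => List.rec (z :: ih [] l1 l2) (fun x t _ => x :: ih t l1 l2) l0)
    (fun _ ih l0 l1 l2 => List.rec
      (List.rec l0 (fun _ _ _ => unL z l0 fun x t => x :: ih t [] l2) l2)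
      (fun y u _ => List.rec (y :: ih [] u l2) (fun x t _ => ad x y :: ih t u l2) l0) l1)
    (fun _ ih l0 l1 l2 => List.rec
      (List.rec l0 (fun w v _ => unL z l0 fun x t => ad x w :: ih t [] v) l2)
      (fun y u _ => List.rec (unL z l0 fun x t => sb x y :: ih t u [])
        (fun w v _ => List.rec (sb w y :: ih [] u v)
          (fun x t _ => ad (sb x y) w :: ih t u v) l0) l2) l1)
    (fun _ ih l0 l1 l2 => List.rec
      (List.rec l0 (fun _ v _ => unL z l0 fun x t => x :: ih t [] v) l2)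
      (fun _ u _ => (fun v => List.rec (z :: ih [] u v) (fun x t _ => x :: ih t u v) l0)
        (List.rec [] (fun _ v _ => v) l2)) l1)
    (fun _ ih l0 l1 l2 => List.rec
      (List.rec l0 (fun _ v _ => unL z l0 fun x t => x :: ih t [] v) l2)
      (fun y u _ => (fun v => List.rec (y :: ih [] u v) (fun x t _ => ad x y :: ih t u v) l0)
        (List.rec [] (fun _ v _ => v) l2)) l1) p

/-- digit step for lists -/
def cmbL {α : Type} (z : α) (ad sb : α → α → α) (p : Pat) (l0 l1 l2 : List α) : List α :=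
  List.rec (List.rec l0 (fun _ _ _ => cmbQ z ad sb p l0 l1 l2) l2)
    (fun _ _ _ => cmbQ z ad sb p l0 l1 l2) l1

/-- combine two lists -/
def zp2 {α : Type} (z : α) (f : Nat → α → α → α) (d : Nat) (a : List α) : List α → Nat → List α :=
  List.rec (fun b => List.rec (fun _ => []) (fun y _ ih c => f c z y :: ih (Nat.add c d)) b)
    (fun x _ ih b c => List.rec (f c x z :: ih [] (Nat.add c d))
      (fun y u _ => f c x y :: ih u (Nat.add c d)) b) a

/-- combine three lists -/
def zp3 {α : Type} (z : α) (f : Nat → α → α → α → α) (d : Nat) (a : List α) :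
    List α → List α → Nat → List α :=
  List.rec (zp2 z (fun c => f c z) d) (fun x t ih l1 l2 c => List.rec
    (List.rec (x :: t) (fun w v _ => f c x z w :: ih [] v (Nat.add c d)) l2)
    (fun y u _ => List.rec (f c x y z :: ih u [] (Nat.add c d))
      (fun w v _ => f c x y w :: ih u v (Nat.add c d)) l2) l1) a

/-- sum of lists of vectors -/
def lad (a : List RL) : List RL → List RL :=
  List.rec (fun b => b) (fun x t ih b => List.rec (x :: t) (fun y u _ => vad x y :: ih u) b) a

/-- difference of lists of vectors -/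
def lsb (a : List RL) : List RL → List RL :=
  List.rec (fun b => List.rec [] (fun y _ ih => vsb RL.nil y :: ih) b)
    (fun x t ih b => List.rec (x :: t) (fun y u _ => vsb x y :: ih u) b) a

/-- digit step for `t₄` -/
def cmb4 (p : Pat) (_c : Nat) (a0 a1 a2 : A3) : A3 := cmbL [] lad lsb p a0 a1 a2

/-- digit step for `t₃` -/
def cmb3 (p : Pat) (c : Nat) (a0 a1 a2 : A3) : A3 :=
  zp3 [] (fun _ => cmbL RL.nil vad vsb p) (nat_lit 0) a0 a1 a2 c

/-- digit step for `t₂` -/
def cmb2 (p : Pat) (c : Nat) (a0 a1 a2 : A3) : A3 :=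
  zp3 [] (fun c4 l0 l1 l2 => zp3 RL.nil (fun _ => cmbV p) (nat_lit 0) l0 l1 l2 c4) (nat_lit 0)
    a0 a1 a2 c

/-- pairs of disjoint digit masks along a vector -/
def sM (C : Ctx) (q c : Nat) : RL :=
  Nat.rec (motive := fun _ => Nat → RL) (fun _ => RL.nil) (fun _ ih x =>
    RL.cons (dm C q (nat_lit 1) x) (Nat.xor (dm C q (nat_lit 2) x)
      (Nat.land (dm C q (nat_lit 2) x) (dm C q (nat_lit 1) x))) (frc (Nat.add x (nat_lit 4)) ih))
    (cnt C.T (nat_lit 4) c) c

/-- digit step for `t₁`, one vector -/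
def cmbW (ms : RL) : RL → RL → RL → RL :=
  RL.rec (fun v0 _ _ => v0) (fun m1 m2 _ ih v0 v1 v2 => RL.rec
    (RL.rec v0 (fun c1 c2 w _ => adR v0 (Nat.land c1 m2) (Nat.land c2 m2) fun t => ih t RL.nil w) v2)
    (fun b1 b2 u _ => RL.rec
      (adR v0 (Nat.lor (Nat.land b1 m1) (Nat.land b2 m2)) (Nat.lor (Nat.land b2 m1) (Nat.land b1 m2))
        fun t => ih t u RL.nil)
      (fun c1 c2 w _ => adR v0
        (Nat.lor (Nat.land b1 m1) (Nat.land
          (Nat.xor (Nat.lor b1 c2) (Nat.xor (Nat.lor b2 c2) (Nat.lor b1 c1))) m2))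
        (Nat.lor (Nat.land b2 m1) (Nat.land
          (Nat.xor (Nat.lor b2 c1) (Nat.xor (Nat.lor b2 c2) (Nat.lor b1 c1))) m2))
        fun t => ih t u w) v2) v1) ms

/-- digit step for `t₁` -/
def cmb1 (C : Ctx) (q c : Nat) (a0 a1 a2 : A3) : A3 :=
  zp3 [] (fun c4 l0 l1 l2 => zp3 RL.nil (fun c3 v0 v1 v2 => frc c3 fun x => cmbW (sM C q x) v0 v1 v2)
    (nat_lit 13) l0 l1 l2 c4) (nat_lit 40) a0 a1 a2 c

/-- head -/
def hdL (l : A4) : A3 := List.rec [] (fun a _ _ => a) l

/-- tail -/
def tlL (l : A4) : A4 := List.rec [] (fun _ t _ => t) l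

/-- the substitution `t ^ q ↦ t ^ q + r ^ q` in one digit; `w` is the degree of `t ^ q` -/
def step (C : Ctx) (f : Nat → A3 → A3 → A3 → A3) (w : Nat) (ts : List PT) (d c : Nat) (a : A4) :
    A4 :=
  Bool.rec a (frc (Nat.add c w) fun c1 => (fun y1 => zp3 [] f d a y1
    (frc (Nat.add c1 w) (mulR C ts d y1)) c) (mulR C ts d a c1)) (Nat.ble (Nat.add c w) C.T)

/-- the substitution `t ^ q ↦ t ^ q + x ^ q` in one digit; `d` is the degree of `x ^ (3 * q)` -/
def ctr (f : Nat → A3 → A3 → A3 → A3) (d c : Nat) (a : A4) : A4 :=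
  List.rec (motive := fun _ => A4 → Nat → A4) (fun _ _ => []) (fun _ _ ih l c =>
    List.rec [] (fun a0 t _ => List.rec [a0] (fun a1 u _ => List.rec [f c a0 a1 []]
      (fun a2 v _ => f c a0 a1 a2 :: ih v (Nat.add c d)) u) t) l) a a c

/-- the steps for `t₄` -/
def st4 (C : Ctx) (i d c : Nat) (a : A4) : A4 :=
  step C (cmb4 pat1) (nat_lit 40) (C.tm i (nat_lit 3) (nat_lit 1)) d c a

/-- the steps for `t₃` -/
def st3 (C : Ctx) (i d c : Nat) (a : A4) : A4 :=
  step C (cmb3 pat3) (nat_lit 39) (C.tm i (nat_lit 2) (nat_lit 3)) d c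
    (step C (cmb3 pat1) (nat_lit 13) (C.tm i (nat_lit 2) (nat_lit 1)) d c a)

/-- the steps for `t₂` -/
def st2 (C : Ctx) (i d c : Nat) (a : A4) : A4 :=
  step C (cmb2 pat9) (nat_lit 36) (C.tm i (nat_lit 1) (nat_lit 9)) d c
    (step C (cmb2 pat3) (nat_lit 12) (C.tm i (nat_lit 1) (nat_lit 3)) d c
      (step C (cmb2 pat1) (nat_lit 4) (C.tm i (nat_lit 1) (nat_lit 1)) d c a))

/-- contraction of the exponent of `x₄` -/
def rho4 (c : Nat) (a : A4) : A3 := hdL (ctr (cmb4 pat1) (nat_lit 120) c a)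

/-- contraction of the exponent of `x₃` -/
def rho3 (C : Ctx) (c : Nat) (a : A4) : A3 :=
  hdL (ctr (cmb3 pat3) (nat_lit 117) c (ctr (cmb3 pat1) (nat_lit 39) c
    (st4 C (nat_lit 2) (nat_lit 13) c a)))

/-- contraction of the exponent of `x₂` -/
def rho2 (C : Ctx) (c : Nat) (a : A4) : A3 :=
  hdL (ctr (cmb2 pat9) (nat_lit 108) c (ctr (cmb2 pat3) (nat_lit 36) c
    (ctr (cmb2 pat1) (nat_lit 12) c
      (st3 C (nat_lit 1) (nat_lit 4) c (st4 C (nat_lit 1) (nat_lit 4) c a)))))

/-- contraction of the exponent of `x₁` -/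
def rho1 (C : Ctx) (c : Nat) (a : A4) : A3 :=
  hdL (ctr (cmb1 C (nat_lit 81)) (nat_lit 243) c (ctr (cmb1 C (nat_lit 27)) (nat_lit 81) c
    (ctr (cmb1 C (nat_lit 9)) (nat_lit 27) c (ctr (cmb1 C (nat_lit 3)) (nat_lit 9) c
      (ctr (cmb1 C (nat_lit 1)) (nat_lit 3) c (st2 C (nat_lit 0) (nat_lit 1) c
        (st3 C (nat_lit 0) (nat_lit 1) c (st4 C (nat_lit 0) (nat_lit 1) c a))))))))

/-- evaluate a vector -/
def walkV (l : RL) : Bool := RL.rec true (fun a b _ ih => Bool.rec ih ih (Nat.beq a b)) l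

/-- evaluate a list -/
def walkL {α : Type} (f : α → Bool) (l : List α) : Bool :=
  List.rec true (fun a _ ih => Bool.rec ih ih (f a)) l

/-- evaluate a list of arrays and continue -/
def bar (k : A4 → A3) (a : A4) : A3 := Bool.rec (k a) (k a) (walkL (walkL (walkL walkV)) a)

/-! ### packed arrays -/

/-- `2 ^ l - 1` -/
def ones (l : Nat) : Nat := Nat.sub (Nat.shiftLeft (nat_lit 1) l) (nat_lit 1)

/-- `∑ i < n, f i` -/
def sumN (n : Nat) (f : Nat → Nat) : Nat := Nat.rec (nat_lit 0) (fun i ih => Nat.add ih (f i)) n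

/-- concatenation of `f 0, …, f (n - 1)` with lengths `l 0, …` -/
def catN (n : Nat) (l f : Nat → Nat) : Nat :=
  foldN n (fun i x => Nat.lor (f i) (Nat.shiftLeft x (l i))) (nat_lit 0)

/-- the length of a packed vector -/
def tot2 (C : Ctx) (c : Nat) : Nat :=
  sumN (cnt C.T (nat_lit 4) c) fun i => C.ln (Nat.add c (Nat.mul (nat_lit 4) i))

/-- the lengths of the packed vectors -/
def len3 (C : Ctx) (c k3 : Nat) : Nat := frc (Nat.add c (Nat.mul (nat_lit 13) k3)) (tot2 C)

/-- the length of a packed list of vectors -/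
def tot3 (C : Ctx) (c : Nat) : Nat := sumN (cnt C.T (nat_lit 13) c) (len3 C c)

/-- the lengths of the packed lists of vectors -/
def len4 (C : Ctx) (c k4 : Nat) : Nat := frc (Nat.add c (Nat.mul (nat_lit 40) k4)) (tot3 C)

/-- pack one plane of a vector -/
def catV (s : Nat → Nat → Nat) (ls : List Nat) : RL → Nat :=
  List.rec (fun _ => nat_lit 0) (fun l _ ih v => RL.rec (nat_lit 0) (fun a b t _ =>
    Nat.lor (Nat.land (s a b) (ones l)) (Nat.shiftLeft (ih t) l)) v) ls

/-- pack one plane of an array in the layout of degree `c` -/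
def pack1 (C : Ctx) (s : Nat → Nat → Nat) (c : Nat) (a : A3) : Nat :=
  catN (cnt C.T (nat_lit 40) c) (len4 C c) fun k4 =>
    frc (Nat.add c (Nat.mul (nat_lit 40) k4)) fun c4 =>
      catN (cnt C.T (nat_lit 13) c4) (len3 C c4) fun k3 =>
        frc (Nat.add c4 (Nat.mul (nat_lit 13) k3)) fun c3 => catV s (sL C c3) (get2 a k4 k3)

/-- the offset of a packed vector -/
def off3 (C : Ctx) (c k4 k3 : Nat) : Nat :=
  Nat.add (sumN k4 (len4 C c))
    (frc (Nat.add c (Nat.mul (nat_lit 40) k4)) fun c4 => sumN k3 (len3 C c4))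

/-- unpack a vector -/
def cutV (ms : List Nat) : List Nat → Nat → Nat → RL :=
  List.rec (fun _ _ _ => RL.nil) (fun m _ ih ls a b => List.rec RL.nil (fun l t _ =>
    RL.cons (Nat.land a m) (Nat.land b m) (ih t (Nat.shiftRight a l) (Nat.shiftRight b l))) ls) ms

/-- a function of two planes which is prepared once -/
structure UB (α : Type) where
  /-- the function -/
  f : Nat → Nat → α

/-- unpack a vector (prepared) -/
def cutB (ms : List Nat) : List Nat → UB RL :=
  List.rec (fun _ => UB.mk fun _ _ => RL.nil) (fun m _ ih ls => List.rec (UB.mk fun _ _ => RL.nil)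
    (fun l t _ => (fun r : UB RL => UB.mk fun a b => RL.cons (Nat.land a m) (Nat.land b m)
      (r.f (Nat.shiftRight a l) (Nat.shiftRight b l))) (ih t)) ls) ms

/-- a list of prepared functions -/
def lstB {α : Type} (n : Nat) (p : Nat → UB α) : UB (List α) :=
  foldN n (fun i ih => (fun q : UB α => UB.mk fun a b => q.f a b :: ih.f a b) (p i))
    (UB.mk fun _ _ => [])

/-- unpack an array (prepared) -/
def unpB (C : Ctx) (c0 c : Nat) : UB A3 :=
  lstB (cnt C.T (nat_lit 40) c) fun k4 => frc (Nat.add c (Nat.mul (nat_lit 40) k4)) fun c4 =>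
    lstB (cnt C.T (nat_lit 13) c4) fun k3 => frc (Nat.add c4 (Nat.mul (nat_lit 13) k3)) fun c3 =>
      frc (Nat.sub (Nat.add c3 c0) c) fun e => (fun o m (r : UB RL) => Nat.rec
        (UB.mk fun a b => r.f (Nat.land a m) (Nat.land b m))
        (fun _ _ => UB.mk fun a b =>
          r.f (Nat.land (Nat.shiftRight a o) m) (Nat.land (Nat.shiftRight b o) m)) o)
        (off3 C c0 k4 k3) (ones (tot2 C e)) (cutB (sG C c3) (sL C e))

/-- unpack an array of degree `c` from the layout of degree `c0 ≤ c` -/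
def unpack (C : Ctx) (c0 c a b : Nat) : A3 := (unpB C c0 c).f a b

/-- a packing function which is prepared once -/
structure PB (α : Type) where
  /-- the function -/
  f : α → Row

/-- the zero row -/
def row0 : Row := Row.mk (nat_lit 0) (nat_lit 0)

/-- pack both planes of a vector, two rows in a step; second component: one more row in front -/
def pkP (ls : List Nat) : PB RL × (Nat → PB RL) :=
  List.rec (PB.mk fun _ => row0, fun l => (fun m => PB.mk fun v =>
      RL.rec row0 (fun a b _ _ => Row.mk (Nat.land a m) (Nat.land b m)) v) (ones l))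
    (fun l' _ ih => (ih.2 l', fun l => (fun m m' l2 (r : PB RL) => PB.mk fun v =>
      RL.rec row0 (fun a b t _ => RL.rec (Row.mk (Nat.land a m) (Nat.land b m)) (fun a' b' t' _ =>
        Row.mk (Nat.lor (Nat.lor (Nat.land a m) (Nat.shiftLeft (Nat.land a' m') l))
            (Nat.shiftLeft (r.f t').a l2))
          (Nat.lor (Nat.lor (Nat.land b m) (Nat.shiftLeft (Nat.land b' m') l))
            (Nat.shiftLeft (r.f t').b l2))) t) v) (ones l) (ones l') (Nat.add l l') ih.1)) ls

/-- pack a list -/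
def pkL {α : Type} (n : Nat) (l : Nat → Nat) (p : Nat → PB α) : PB (List α) :=
  Nat.rec (PB.mk fun _ => row0) (fun m _ => foldN m (fun i ih => (fun (q : PB α) li =>
    PB.mk fun v => List.rec row0 (fun a t _ =>
      Row.mk (Nat.lor (q.f a).a (Nat.shiftLeft (ih.f t).a li))
        (Nat.lor (q.f a).b (Nat.shiftLeft (ih.f t).b li))) v) (p i) (l i))
    ((fun q : PB α => PB.mk fun v => List.rec row0 (fun a _ _ => q.f a) v) (p m))) n

/-- pack both planes of an array in the layout of degree `c` -/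
def pkA (C : Ctx) (c : Nat) : PB A3 :=
  pkL (cnt C.T (nat_lit 40) c) (len4 C c) fun k4 =>
    frc (Nat.add c (Nat.mul (nat_lit 40) k4)) fun c4 =>
      pkL (cnt C.T (nat_lit 13) c4) (len3 C c4) fun k3 =>
        frc (Nat.add c4 (Nat.mul (nat_lit 13) k3)) fun c3 => (pkP (sL C c3)).1

/-- lookup which shares the tails -/
def getT (l : A4) (j : Nat) : A3 := hdL (Nat.rec l (fun _ ih => tlL ih) j)

/-- evaluate a row -/
def fin (a b : Nat) : Row := Bool.rec (Row.mk a b) (Row.mk a a) (Nat.beq a b)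

/-- continuations; the arguments are the planes of the non-zero digits and of the digits `-1` -/
abbrev KK : Type := Nat → Nat → Row

/-- the action of a digit -/
def dsel {β : Type} (d : Nat) (k : (Nat → Nat → KK → KK) → β) : β :=
  Nat.rec (k fun _ _ K => K) (fun j _ => Nat.rec
    (k fun c1 c2 K n m => K (Nat.lor (Nat.xor m c1) (Nat.xor m (Nat.xor n c2)))
      (Nat.land (Nat.xor n c2) (Nat.lor c2 (Nat.xor m c1))))
    (fun _ _ => k fun c2 c1 K n m => K (Nat.lor (Nat.xor m c1) (Nat.xor m (Nat.xor n c2)))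
      (Nat.land (Nat.xor n c2) (Nat.lor c2 (Nat.xor m c1)))) j) d

/-- a digit of `x + 1` in base four -/
def dg4 (x i : Nat) : Nat := Nat.land (Nat.shiftRight (Nat.succ x) i) (nat_lit 3)

/-- programs for six rows -/
abbrev P6 : Type :=
  Nat → Nat → Nat → Nat → Nat → Nat → Nat → Nat → Nat → Nat → Nat → Nat → KK → KK

/-- the program for the six digits of `b + 1` -/
def tbl6 (b : Nat) : Bx P6 :=
  dsel (dg4 b (nat_lit 0)) fun g0 => dsel (dg4 b (nat_lit 2)) fun g1 =>
    dsel (dg4 b (nat_lit 4)) fun g2 => dsel (dg4 b (nat_lit 6)) fun g3 =>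
      dsel (dg4 b (nat_lit 8)) fun g4 => dsel (dg4 b (nat_lit 10)) fun g5 =>
        Quot.mk _ fun a0 b0 a1 b1 a2 b2 a3 b3 a4 b4 a5 b5 K n m =>
          g0 a0 b0 (g1 a1 b1 (g2 a2 b2 (g3 a3 b3 (g4 a4 b4 (g5 a5 b5 K))))) n m

/-- the program of the empty vector -/
def cel0 : Bx (Nat → KK) := Quot.mk _ fun _ n m => fin (Nat.xor n m) m

/-- the program of six more rows -/
def cel6 (a0 b0 a1 b1 a2 b2 a3 b3 a4 b4 a5 b5 : Nat) (nx : Nat → KK) : Bx (Nat → KK) :=
  Quot.mk _ fun x n m => Nat.rec (motive := fun _ => Row)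
    (nx (Nat.shiftRight x (nat_lit 12)) n m) (fun b _ =>
      Quot.lift (fun f : P6 => f a0 b0 a1 b1 a2 b2 a3 b3 a4 b4 a5 b5)
        (hB fun f : P6 => f a0 b0 a1 b1 a2 b2 a3 b3 a4 b4 a5 b5) (tbl6 b)
        (nx (Nat.shiftRight x (nat_lit 12))) n m) (Nat.land x (nat_lit 4095))

/-- the program of a vector; `fu` bounds the number of steps -/
def cells (fu : RL) : RL → Bx (Nat → KK) :=
  RL.rec (fun _ => cel0) (fun _ _ _ ih l => RL.rec cel0 (fun a0 b0 t0 _ =>
    unR t0 fun a1 b1 t1 => unR t1 fun a2 b2 t2 => unR t2 fun a3 b3 t3 => unR t3 fun a4 b4 t4 =>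
      unR t4 fun a5 b5 t5 =>
        Quot.lift (cel6 a0 b0 a1 b1 a2 b2 a3 b3 a4 b4 a5 b5)
          (hB (cel6 a0 b0 a1 b1 a2 b2 a3 b3 a4 b4 a5 b5)) (ih t5)) l) fu

/-- linear combination; the coefficients are the digits of `x` in base four -/
def comb (z : RL) (x a1 a2 : Nat) : Row :=
  Bool.rec (Quot.lift (fun f : Nat → KK => f) (hB fun f => f) (cells z z) x (Nat.lor a1 a2) a2)
    (Row.mk a1 a2) (Nat.beq x (nat_lit 0))

/-- the layout used in degree `c` -/
def bnd (c : Nat) : Nat := Nat.sub c (Nat.mod c (nat_lit 8))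

/-- the array of a node -/
def node (C : Ctx) (zl : Nat → RL) (c x : Nat) : A3 :=
  Nat.rec [] (fun _ _ => Row.rec (fun a b => frc (bnd c) fun c0 => unpack C c0 c a b)
    (comb (zl c) x (nat_lit 0) (nat_lit 0))) x

/-- `w c + w (c + 13) + …` with `n` terms -/
def fsum (w : Nat → Nat) (c n : Nat) : Nat :=
  sumN n fun j => w (Nat.add c (Nat.mul (nat_lit 13) j))

/-- the offset of a field -/
def foff (T : Nat) (w : Nat → Nat) (c f4 f3 : Nat) : Nat :=
  Nat.add (sumN f4 fun k => frc (Nat.add c (Nat.mul (nat_lit 40) k)) fun c4 =>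
      fsum w c4 (cnt T (nat_lit 13) c4))
    (frc (Nat.add c (Nat.mul (nat_lit 40) f4)) fun c4 => fsum w c4 f3)

/-- the mask of a field -/
def fmsk (w : Nat → Nat) (c f4 f3 : Nat) : Nat :=
  ones (w (Nat.add (Nat.add c (Nat.mul (nat_lit 40) f4)) (Nat.mul (nat_lit 13) f3)))

/-- the field `(f4, f3)`; the field of degree `c` has width `w c` -/
def fld (T : Nat) (w : Nat → Nat) (c x f4 f3 : Nat) : Nat :=
  Nat.land (Nat.shiftRight x (foff T w c f4 f3)) (fmsk w c f4 f3)

/-- the sum over `F₄` -/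
def lev3 (C : Ctx) (nd : Nat → Nat → A3) (x : Nat → Nat → Nat) (f3 c : Nat) : A3 :=
  Bool.rec (nd c (x (nat_lit 0) f3)) (rho4 c (tabN (cnt C.T (nat_lit 40) c) fun f4 =>
    frc (Nat.add c (Nat.mul (nat_lit 40) f4)) fun c1 => nd c1 (x f4 f3)))
    (Nat.ble (Nat.add c (nat_lit 40)) C.T)

/-- the sum over `F₃, F₄` -/
def lev2 (C : Ctx) (nd : Nat → Nat → A3) (w : Nat → Nat) (x c : Nat) : A3 :=
  Bool.rec (bar (rho3 C c) (tabN (cnt C.T (nat_lit 13) c) fun f3 =>
    frc (Nat.add c (Nat.mul (nat_lit 13) f3)) (lev3 C nd (fld C.T w c x) f3))) []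
    (Nat.beq x (nat_lit 0))

/-- the sum over `F₂, F₃, F₄` -/
def lev1 (C : Ctx) (nd : Nat → Nat → A3) (w : Nat → Nat) (x : List Nat) (c : Nat) : A3 :=
  List.rec [] (fun _ _ _ => bar (rho2 C c) (tabN (cnt C.T (nat_lit 4) c) fun f2 =>
    frc (Nat.add c (Nat.mul (nat_lit 4) f2)) (lev2 C nd w (getL (nat_lit 0) x f2)))) x

/-- the sum over all `F` -/
def lev0 (C : Ctx) (nd : Nat → Nat → A3) (w : Nat → Nat) (x : List (List Nat)) (c : Nat) : A3 :=
  bar (rho1 C c) (tabN (cnt C.T (nat_lit 1) c) fun f1 =>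
    frc (Nat.add c f1) (lev1 C nd w (getL [] x f1)))

/-- compare two vectors on the masks -/
def chkV (ms : List Nat) : RL → RL → Bool :=
  List.rec (fun _ _ => true) (fun m _ ih v w => unR v fun a b t => unR w fun a' b' t' =>
    Bool.rec false (ih t t')
      (Nat.beq (Nat.land (Nat.lor (Nat.xor a a') (Nat.xor b b')) m) (nat_lit 0))) ms

/-- compare two arrays -/
def chk3 (C : Ctx) (c : Nat) (a e : A3) : Bool :=
  allN (cnt C.T (nat_lit 40) c) fun k4 => frc (Nat.add c (Nat.mul (nat_lit 40) k4)) fun c4 =>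
    allN (cnt C.T (nat_lit 13) c4) fun k3 => frc (Nat.add c4 (Nat.mul (nat_lit 13) k3)) fun c3 =>
      chkV (sG C c3) (get2 a k4 k3) (get2 e k4 k3)

/-! ### the monomials `v ^ J g` of a given degree -/

/-- the generator `i` and the exponents of `v₁, …, v₄` -/
structure IE where
  /-- the generator -/
  i : Nat
  /-- exponent of `v₁` -/
  j1 : Nat
  /-- exponent of `v₂` -/
  j2 : Nat
  /-- exponent of `v₃` -/
  j3 : Nat
  /-- exponent of `v₄` -/
  j4 : Nat

/-- the monomials in `v₁, v₂` of degree `m` modulo `v₁ ^ 6` -/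
def inn1 (i j4 j3 m : Nat) (l : List IE) : List IE :=
  frc (Nat.mod m (nat_lit 4)) fun r => frc (Nat.div m (nat_lit 4)) fun k =>
    IE.mk i r k j3 j4 :: Bool.rec l
      (Nat.rec l (fun k' _ => frc (Nat.add r (nat_lit 4)) fun r' =>
        frc k' fun k'' => IE.mk i r' k'' j3 j4 :: l) k) (Nat.ble r (nat_lit 1))

/-- the monomials `v ^ J g` of degree `c`, for one generator of degree `d` -/
def innG (c i d : Nat) (l : List IE) : List IE :=
  foldN (cnt c (nat_lit 40) d) (fun j4 l4 => frc (Nat.add d (Nat.mul (nat_lit 40) j4)) fun d4 =>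
    foldN (cnt c (nat_lit 13) d4) (fun j3 l3 =>
      inn1 i j4 j3 (Nat.sub c (Nat.add d4 (Nat.mul (nat_lit 13) j3))) l3) l4) l

/-- `inn1` as functions of the generator -/
def mon1 (j4 j3 m : Nat) (l : List (Nat → IE)) : List (Nat → IE) :=
  frc (Nat.mod m (nat_lit 4)) fun r => frc (Nat.div m (nat_lit 4)) fun k =>
    (fun i => IE.mk i r k j3 j4) :: Bool.rec l
      (Nat.rec l (fun k' _ => frc (Nat.add r (nat_lit 4)) fun r' =>
        frc k' fun k'' => (fun i => IE.mk i r' k'' j3 j4) :: l) k) (Nat.ble r (nat_lit 1))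

/-- the monomials `v ^ J` of degree `m` -/
def mon (m : Nat) : List (Nat → IE) :=
  foldN (Nat.succ (Nat.div m (nat_lit 40))) (fun j4 l4 =>
    frc (Nat.sub m (Nat.mul (nat_lit 40) j4)) fun m4 =>
      foldN (Nat.succ (Nat.div m4 (nat_lit 13))) (fun j3 l3 =>
        mon1 j4 j3 (Nat.sub m4 (Nat.mul (nat_lit 13) j3)) l3) l4) []

/-- the monomials `v ^ J g` of degree `c` for the generators `i, i + 1, …` with degrees `ds` -/
def inner (c : Nat) (ds : List Nat) : Nat → List IE :=
  List.rec (fun _ => []) (fun d _ ih i => Nat.rec (ih (Nat.succ i)) (fun m _ =>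
    List.rec (ih (Nat.succ i)) (fun g _ l => g i :: l) (mon m)) (Nat.sub (Nat.succ c) d)) ds

/-- iterated multiplication -/
def chn {α : Type} (n : Nat) (f : Nat → A3 → A3) (d : Nat) (g : Nat → A3 → α) :
    Nat → A3 → List α :=
  Nat.rec (fun _ _ => []) (fun _ ih c a => g c a :: frc (Nat.add c d) fun c1 => ih c1 (f c1 a)) n

/-- multiplication by `η v_(n+1)` -/
def mulE (C : Ctx) (n c : Nat) (a : A3) : A3 := mul3 C (C.tm (nat_lit 5) n (nat_lit 1)) c [a]

/-- `a₀, a₁, a₂` and their multiples by the powers of `η v₂ ^ 3` -/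
def chn3 (C : Ctx) (n : Nat) : Nat → A3 → A3 → A3 → A4 :=
  Nat.rec (fun _ _ _ _ => []) (fun _ ih c a0 a1 a2 => a0 :: frc (Nat.add c (nat_lit 4)) fun c1 =>
    ih c1 a1 a2 (frc (Nat.add c (nat_lit 12)) fun c3 =>
      mul3 C (C.tm (nat_lit 5) (nat_lit 1) (nat_lit 3)) c3 [a0])) n

/-- the arrays `a * v₂ ^ j₂` -/
def zt0 (C : Ctx) (c : Nat) (a : A3) : A4 :=
  (fun a1 => chn3 C (cnt C.T (nat_lit 4) c) c a a1
    (frc (Nat.add c (nat_lit 8)) fun c2 => mulE C (nat_lit 1) c2 a1))
    (frc (Nat.add c (nat_lit 4)) fun c1 => mulE C (nat_lit 1) c1 a)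

/-- the arrays `u * v₄ ^ j₄ * v₃ ^ j₃ * v₂ ^ j₂` -/
def zt1 (C : Ctx) (c : Nat) (u : A3) : List (List A4) :=
  chn (cnt C.T (nat_lit 40) c) (mulE C (nat_lit 3)) (nat_lit 40) (fun c4 a4 =>
    chn (cnt C.T (nat_lit 13) c4) (mulE C (nat_lit 2)) (nat_lit 13) (zt0 C) c4 a4) c u

/-- the table for all generators -/
def ztab (C : Ctx) (ds : List Nat) (us : A4) : List (List (List A4)) :=
  List.rec (motive := fun _ => A4 → List (List (List A4))) (fun _ => [])
    (fun d _ ih us => zt1 C d (hdL us) :: ih (tlL us)) ds us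

/-- a packed entry of the table -/
def zp (C : Ctx) (zt : List (List (List A4))) (i j4 j3 j2 c0 : Nat) : Row :=
  (fun z : Row => fin z.a z.b) ((pkA C c0).f (getT (getL [] (getL [] (getL [] zt i) j4) j3) j2))

/-- the packed mask for `v₁ ^ j` -/
def pm (C : Ctx) (g1 : Nat → Nat) (j c0 : Nat) : Nat :=
  ((pkA C c0).f (tab3 C.T c0 fun _ _ c3 =>
    foldN (cnt C.T (nat_lit 4) c3) (fun _ l => RL.cons (g1 j) (nat_lit 0) l) RL.nil)).a

/-- the packed arrays of degree `c`; `g1 j` are the positions with exponent of `v₁` at least `j` -/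
def zlist (C : Ctx) (g1 : Nat → Nat) (ds : List Nat) (zt : List (List (List A4))) (c : Nat) : RL :=
  frc (bnd c) fun c0 => List.rec RL.nil (fun e _ ih => IE.rec (fun i j1 j2 j3 j4 =>
    (fun a b => Nat.rec (RL.cons a b ih) (fun _ _ =>
      RL.cons (Nat.land (Nat.shiftLeft a j1) (pm C g1 j1 c0))
        (Nat.land (Nat.shiftLeft b j1) (pm C g1 j1 c0)) ih) j1) (zp C zt i j4 j3 j2 c0).1
          (zp C zt i j4 j3 j2 c0).2) e) (inner c ds (nat_lit 0))

/-- the coefficients of one generator: degree and fields -/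
structure XD where
  /-- the degree -/
  c : Nat
  /-- the fields -/
  x : List (List Nat)

/-- twice the length of a list -/
def len2 {α : Type} (l : List α) : Nat := List.rec (nat_lit 0) (fun _ _ ih => Nat.add ih (nat_lit 2)) l

/-- twice the number of monomials of degree `c` for the generators with degrees `ds` -/
def offI (ds : List Nat) (c : Nat) : Nat :=
  List.rec (nat_lit 0) (fun d _ ih => Nat.rec ih (fun m _ => Nat.add ih (len2 (mon m)))
    (Nat.sub (Nat.succ c) d)) ds

/-- the widths of the fields -/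
def wdI (ds : List Nat) (c : Nat) : Nat := frc c (offI ds)

/-- **The check that the composite vanishes.** -/
def chkQ (C : Ctx) (g1 : Nat → Nat) (ds : List Nat) (us : A4) (xs : List XD) : Bool :=
  (fun zl => List.rec true (fun x _ ih => Bool.rec false ih
    (chk3 C x.c (lev0 C (node C zl) (wdI ds) x.x x.c) [])) xs) (zlist C g1 ds (ztab C ds us))

/-- the planes of all rows are disjoint -/
def wfV (l : RL) : Bool :=
  RL.rec true (fun a b _ ih => Bool.rec false ih (Nat.beq (Nat.land a b) (nat_lit 0))) l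

/-- all elements pass the test -/
def allL {α : Type} (f : α → Bool) (l : List α) : Bool :=
  List.rec true (fun a _ ih => Bool.rec false ih (f a)) l

/-- the planes of all rows are disjoint -/
def wf4 (us : A4) : Bool := allL (allL (allL wfV)) us

/-- the sum of two arrays -/
def add3 (C : Ctx) (c : Nat) (a b : A3) : A3 :=
  tab3 C.T c fun k4 k3 _ => vad (get2 a k4 k3) (get2 b k4 k3)

/-- the sum over all `F` with `lo ≤ F₁ < hi` -/
def levP (C : Ctx) (nd : Nat → Nat → A3) (w : Nat → Nat) (x : List (List Nat)) (lo hi c : Nat) :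
    A3 :=
  bar (rho1 C c) (tabN hi fun f1 =>
    Bool.rec [] (frc (Nat.add c f1) (lev1 C nd w (getL [] x f1))) (Nat.ble lo f1))

/-- a piece of the check: the partial sums before and after the terms with `lo ≤ F₁ < hi` -/
structure Job where
  /-- the generator -/
  x : XD
  /-- the first exponent -/
  lo : Nat
  /-- the bound for the exponents -/
  hi : Nat
  /-- the sum of the terms with `F₁ < lo` -/
  ei : A3
  /-- the sum of the terms with `F₁ < hi` -/
  eo : A3

/-- the check of a piece -/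
def chk1 (C : Ctx) (nd : Nat → Nat → A3) (w : Nat → Nat) (j : Job) : Bool :=
  Bool.rec false (chk3 C j.x.c (add3 C j.x.c j.ei (levP C nd w j.x.x j.lo j.hi j.x.c)) j.eo)
    (Bool.rec false (wf4 [j.eo]) (Nat.ble j.lo j.hi))

/-- **The check of a list of pieces.** -/
def chkJ (C : Ctx) (g1 : Nat → Nat) (ds : List Nat) (us : A4) (js : List Job) : Bool :=
  allL (chk1 C (node C (zlist C g1 ds (ztab C ds us))) (wdI ds)) js

/-- the pieces of one generator for a list of cuts and partial sums -/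
def jobs1 (T : Nat) (x : XD) (cs : List (Nat × A3)) (tl : List Job) : Nat → A3 → List Job :=
  List.rec (fun lo e => Job.mk x lo (cnt T (nat_lit 1) x.c) e [] :: tl)
    (fun p _ ih lo e => Job.mk x lo p.1 e p.2 :: ih p.1 p.2) cs

/-- the pieces of all generators -/
def jobsA (T : Nat) (xs : List XD) : List (List (Nat × A3)) → List Job :=
  List.rec (fun _ => []) (fun x _ ih cs =>
    jobs1 T x (getL [] cs (nat_lit 0)) (ih (List.rec [] (fun _ t _ => t) cs)) (nat_lit 0) []) xs

/-- a default value -/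
def job0 : Job := Job.mk (XD.mk (nat_lit 0) []) (nat_lit 0) (nat_lit 0) [] []

/-- the pieces with the given numbers -/
def pick (js : List Job) (is : List Nat) : List Job :=
  List.rec [] (fun i _ ih => getL job0 js i :: ih) is

/-- the rows of the monomials -/
def zid (ps : IE → Nat) (ds : List Nat) (lo c : Nat) : RL :=
  List.rec RL.nil (fun e _ ih => RL.cons (Nat.shiftLeft (nat_lit 1) (ps e)) (nat_lit 0) ih)
    (inner c ds lo)

/-- the coefficients as an array -/
def xarr (C : Ctx) (zl : Nat → RL) (w o : Nat → Nat) (x : XD) : A3 :=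
  tab3 C.T x.c fun k4 k3 c3 => foldN (cnt C.T (nat_lit 4) c3) (fun k2 l =>
    frc (Nat.add c3 (Nat.mul (nat_lit 4) k2)) fun c2 =>
      Row.rec (fun a b => RL.cons a b l) (foldN (cnt C.T (nat_lit 1) c2) (fun k1 r =>
        Row.rec (fun a b => frc (Nat.add c2 k1) fun c1 => comb (zl c1) (Nat.shiftRight
          (fld C.T w (Nat.add (Nat.add x.c k1) (Nat.mul (nat_lit 4) k2))
            (getL (nat_lit 0) (getL [] x.x k1) k2) k4 k3) (o c1)) a b) r)
        (Row.mk (nat_lit 0) (nat_lit 0)))) RL.nil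

/-- **The check of the values on the monomials**: the generators of the part have degrees `dp` and
start at `lo`, the ones before have degrees `d0`, and `ds` are all degrees. -/
def chkU (C : Ctx) (ps : IE → Nat) (ds d0 dp : List Nat) (lo : Nat) (xs : List XD) : A4 → Bool :=
  List.rec (fun _ => true) (fun x _ ih us => Bool.rec false (ih (tlL us))
    (chk3 C x.c (hdL (st3 C (nat_lit 4) (nat_lit 1) x.c (st4 C (nat_lit 4) (nat_lit 1) x.c
      [xarr C (zid ps dp lo) (wdI ds) (offI d0) x]))) (hdL us))) xs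

/-! ### the layout of the monomials `v ^ E g` modulo `v₁ ^ 6` -/

/-- a slot: `β = deg + 4 q + e₃`, `γ = q + 1 - 3 e₃ - 10 e₄`, `e₃`, `e₄`, `q = (T - deg) / 4` -/
structure SI where
  /-- the degree of the first position in layer zero -/
  be : Nat
  /-- the number of layers -/
  ga : Nat
  /-- exponent of `v₃` -/
  e3 : Nat
  /-- exponent of `v₄` -/
  e4 : Nat

/-- the parameters of a layout -/
structure KP where
  /-- the range -/
  T : Nat
  /-- the number of layers -/
  W : Nat
  /-- the number of bits of a layer -/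
  M : Nat
  /-- the distance of the slots of `g` and `v₄ g` -/
  S4 : Nat
  /-- a bound for the degrees in layer zero -/
  B : Nat
  /-- the slots -/
  sl : List SI

/-- a layer -/
def layer (P : SI → Nat) (sl : List SI) : Nat :=
  List.rec (nat_lit 0) (fun s _ ih => Nat.lor (P s) (Nat.shiftLeft ih (nat_lit 6))) sl

/-- all layers -/
def stack (K : KP) (f : Nat → Nat) : Nat := catN K.W (fun _ => K.M) f

/-- `63` or `0` -/
def full (b : Bool) : Nat := Bool.rec (nat_lit 0) (nat_lit 63) b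

/-- the positions in layer zero of degree at least `x` -/
def layG (K : KP) (x : Nat) : Nat :=
  layer (fun s => Nat.land (Nat.shiftLeft (nat_lit 63) (Nat.sub x s.be)) (nat_lit 63)) K.sl

/-- the positions of degree at least `r` -/
def geG (K : KP) (r : Nat) : Nat :=
  catN (cnt K.B (nat_lit 4) r) (fun _ => K.M) fun k =>
    (fun x => frc (Nat.add x (Nat.sub K.T (Nat.add x (nat_lit 3)))) fun y =>
      Nat.lor (layG K y) (nat_lit 0)) (Nat.add r (Nat.mul (nat_lit 4) k))

/-- the positions of degree at least `c` -/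
def geA (K : KP) (c : Nat) : Nat :=
  frc (Nat.mod c (nat_lit 4)) fun r =>
    Nat.shiftRight (geG K r) (Nat.mul (Nat.div c (nat_lit 4)) K.M)

/-- the cells with a non-negative exponent of `v₂` -/
def val2 (K : KP) : Nat := stack K fun k => layer (fun s => full (Nat.blt k s.ga)) K.sl

/-- the valid positions -/
def valid (K : KP) : Nat :=
  Nat.land (val2 K) (Nat.xor (geA K (nat_lit 0)) (geA K (Nat.succ K.T)))

/-- the valid positions of degree at least `c` -/
def geK (K : KP) (c : Nat) : Nat := Nat.land (geA K c) (valid K)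

/-- a bound for the positions of degree at least `c` -/
def lnK (K : KP) (c : Nat) : Nat :=
  (fun n => Nat.mul K.M (Bool.rec n K.W (Nat.ble K.W n))) (cnt K.B (nat_lit 4) c)

/-- exponent of `v₁` at least `j` -/
def g1K (K : KP) (j : Nat) : Nat :=
  (fun x => stack K fun _ => x)
    (layer (fun _ => Nat.land (Nat.shiftLeft (nat_lit 63) j) (nat_lit 63)) K.sl)

/-- exponent of `v₃` at least `j` -/
def g3K (K : KP) (j : Nat) : Nat :=
  (fun x => stack K fun _ => x) (layer (fun s => full (Nat.ble j s.e3)) K.sl)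

/-- exponent of `v₄` at least `j` -/
def g4K (K : KP) (j : Nat) : Nat :=
  (fun x => stack K fun _ => x) (layer (fun s => full (Nat.ble j s.e4)) K.sl)

/-- the positions with exponents at least `j₁, …, j₄` -/
def mskK (K : KP) (j1 j2 j3 j4 : Nat) : Nat :=
  Nat.land (Nat.land (g1K K j1) (Nat.shiftRight (val2 K) (Nat.mul j2 K.M)))
    (Nat.land (g3K K j3) (g4K K j4))

/-- `q` times the digit `i` of a key -/
def kd (q k i : Nat) : Nat :=
  Nat.mul q (Nat.land (Nat.shiftRight k (Nat.mul (nat_lit 8) i)) (nat_lit 255))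

/-- a term without `v` -/
def pt0 (c e g2 g3 : Nat) : PT :=
  Bool.rec (PT.mk (fun _ b => b) (fun a _ => a) e g2 g3) (PT.mk (fun a _ => a) (fun _ b => b) e g2 g3)
    (Nat.beq c (nat_lit 1))

/-- a term with a shift to the left -/
def ptL (c s m e g2 g3 : Nat) : PT :=
  Bool.rec (PT.mk (fun _ b => Nat.land (Nat.shiftLeft b s) m)
      (fun a _ => Nat.land (Nat.shiftLeft a s) m) e g2 g3)
    (PT.mk (fun a _ => Nat.land (Nat.shiftLeft a s) m)
      (fun _ b => Nat.land (Nat.shiftLeft b s) m) e g2 g3) (Nat.beq c (nat_lit 1))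

/-- a term with a shift to the right -/
def ptR (c s m e g2 g3 : Nat) : PT :=
  Bool.rec (PT.mk (fun _ b => Nat.land (Nat.shiftRight b s) m)
      (fun a _ => Nat.land (Nat.shiftRight a s) m) e g2 g3)
    (PT.mk (fun a _ => Nat.land (Nat.shiftRight a s) m)
      (fun _ b => Nat.land (Nat.shiftRight b s) m) e g2 g3) (Nat.beq c (nat_lit 1))

/-- the prepared term `± v ^ J x ^ e t₂ ^ g₂ t₃ ^ g₃` -/
def ptK (K : KP) (c j1 j2 j3 j4 e g2 g3 : Nat) : PT :=
  (fun l r => Bool.rec
    (frc (Nat.sub r l) fun s => ptR c s (mskK K j1 j2 j3 j4) e g2 g3)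
    (Nat.rec (pt0 c e g2 g3) (fun _ _ =>
      frc (Nat.sub l r) fun s => ptL c s (mskK K j1 j2 j3 j4) e g2 g3) l) (Nat.ble r l))
    (Nat.add (Nat.mul (nat_lit 6) (Nat.add j3 (Nat.mul j4 K.S4))) j1)
    (Nat.mul (Nat.add (Nat.add j2 (Nat.mul (nat_lit 3) j3)) (Nat.mul (nat_lit 10) j4)) K.M)

/-- prepare a list of terms (coefficient `1` or `2`, key) raised to the power `q` -/
def prepK (K : KP) (q : Nat) (l : List (Nat × Nat)) : List PT :=
  List.rec [] (fun t _ ih => Prod.rec (fun c k => frc (kd q k (nat_lit 0)) fun j1 =>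
    Bool.rec ih (frc (kd q k (nat_lit 1)) fun j2 => frc (kd q k (nat_lit 2)) fun j3 =>
      frc (kd q k (nat_lit 3)) fun j4 => frc (kd q k (nat_lit 8)) fun e =>
        frc (kd q k (nat_lit 5)) fun g2 => frc (kd q k (nat_lit 6)) fun g3 =>
          ptK K c j1 j2 j3 j4 e g2 g3 :: ih) (Nat.ble j1 (nat_lit 5))) t) l

/-- the context of a layout; `tb i n` are the lists of terms -/
def ctxK (tb : Nat → Nat → List (Nat × Nat)) (K : KP) : Ctx :=
  Ctx.mk K.T (fun c => frc c (geK K)) (fun c => frc c (lnK K)) fun i n q => prepK K q (tb i n)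

/-- the position of a monomial; `qb i` is the pair (`q`, first slot) of the generator `i` -/
def posK (K : KP) (q b : Nat → Nat) (e : IE) : Nat :=
  Nat.add (Nat.mul (Nat.sub (q e.i) (Nat.add (Nat.add e.j2 (Nat.mul (nat_lit 3) e.j3))
    (Nat.mul (nat_lit 10) e.j4))) K.M)
    (Nat.add (Nat.mul (nat_lit 6) (Nat.add (Nat.add (Nat.mul e.j4 K.S4) (b e.i)) e.j3)) e.j1)

end Vale.Agent.P236C

end
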