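import Vale.Agent.P236C.LayX

/-!
# P236C: selections from the data
-/

noncomputable section

namespace Vale.Agent.P236C

/-- the generators with the given numbers -/
def pickX (xs : List XD) (is : List Nat) : List XD :=
  List.rec [] (fun i _ ih => getL (XD.mk (nat_lit 0) []) xs i :: ih) is

/-- the arrays with the given numbers -/
def pickU (us : A4) (is : List Nat) : A4 := List.rec [] (fun i _ ih => getL [] us i :: ih) is

/-- membership -/
def memN (i : Nat) (is : List Nat) : Bool :=
  List.rec false (fun j _ ih => Bool.rec ih true (Nat.beq i j)) is

/-- all numbers below `n` occur -/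
def cov (n : Nat) (is : List Nat) : Bool := allN n fun i => memN i is

/-- the test of a part -/
def partOK (T : Nat) (K : KP) (q b ds d0 dp : List Nat) (lo hi : Nat) : Bool :=
  layOK K q b ds lo hi && (Nat.beq K.T T && ((d0 ++ dp).isPrefixOf ds &&
    (Nat.beq lo d0.length && Nat.beq hi (d0.length + dp.length))))

/-- the test of the data -/
def okL (T : Nat) (dl : List (List Nat)) (xl : List (List XD)) : Bool :=
  Nat.blt T 108 && (allL (fun l => Nat.ble l.length 64) dl && (getL [] dl 0 == [0] &&
    (allL (allL (Nat.blt 0)) dl.tail && allN xl.length fun j =>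
      (getL [] xl j).map XD.c == getL [] dl j)))

end Vale.Agent.P236C

end
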