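import Vale.Agent.P236C.Exec

/-!
# P236C: the test of a layout (no proofs)
-/

noncomputable section

namespace Vale.Agent.P236C

/-- the empty slot -/
def si0 : SI := SI.mk (nat_lit 0) (nat_lit 0) (nat_lit 0) (nat_lit 0)

/-- the test for the slot of `v₃ ^ j₃ v₄ ^ j₄ g` -/
def slotOK (K : KP) (q b d j3 j4 : Nat) : Bool :=
  SI.rec (fun be ga e3 e4 => Nat.beq be (Nat.add (Nat.add d (Nat.mul (nat_lit 4) q)) j3) &&
    (Nat.beq (Nat.add (Nat.add ga (Nat.mul (nat_lit 3) j3)) (Nat.mul (nat_lit 10) j4))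
      (Nat.succ q) && (Nat.beq e3 j3 && Nat.beq e4 j4)))
    (getL si0 K.sl (Nat.add (Nat.add (Nat.mul j4 K.S4) b) j3))

/-- the test for one generator -/
def genOK (K : KP) (q b d : Nat) : Bool :=
  Nat.blt K.T (Nat.add (Nat.add d (Nat.mul (nat_lit 4) q)) (nat_lit 4)) &&
    allN (cnt K.T (nat_lit 40) d) fun j4 =>
      allN (cnt K.T (nat_lit 13) (Nat.add d (Nat.mul (nat_lit 40) j4))) fun j3 =>
        slotOK K q b d j3 j4

/-- **The test of a layout.** -/
def layOK (K : KP) (q b gd : List Nat) (lo hi : Nat) : Bool :=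
  Nat.blt K.T (nat_lit 108) && (Nat.beq K.M (Nat.mul (nat_lit 6) K.sl.length) &&
    (allL (fun s => Nat.ble s.ga K.W &&
      (Nat.beq s.ga (nat_lit 0) || Nat.ble (Nat.add s.be (nat_lit 5)) K.B)) K.sl &&
    allN (Nat.sub hi lo) fun n => frc (Nat.add lo n) fun i =>
      allN n (fun m => !Nat.beq (getL (nat_lit 0) b (Nat.add lo m)) (getL (nat_lit 0) b i)) &&
      genOK K (getL (nat_lit 0) q i) (getL (nat_lit 0) b i) (getL (nat_lit 0) gd i)))

end Vale.Agent.P236C

end
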