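import Vale.Agent.P236C.Lay
import Vale.Agent.P236C.LayX

/-!
# P236C: the layout which is given by a list of slots
-/

noncomputable section

namespace Vale.Agent.P236C

open Vale.Agent.P236B

namespace LayK

/-- what the test gives -/
structure Ok (K : KP) (q b gd : ℕ → ℕ) (lo hi : ℕ) : Prop where
  T_lt : K.T < 108
  M_eq : K.M = 6 * K.sl.length
  sl : ∀ σ, (getL si0 K.sl σ).ga ≤ K.W ∧
    ((getL si0 K.sl σ).ga = 0 ∨ (getL si0 K.sl σ).be + 5 ≤ K.B)
  b_ne : ∀ i i', lo ≤ i → i < i' → i' < hi → b i ≠ b i'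
  q_ge : ∀ i, lo ≤ i → i < hi → K.T < gd i + 4 * q i + 4
  slot : ∀ i, lo ≤ i → i < hi → ∀ j3 j4, gd i + 40 * j4 + 13 * j3 ≤ K.T →
    ∀ s, s = getL si0 K.sl (j4 * K.S4 + b i + j3) → s.be = gd i + 4 * q i + j3 ∧
      s.ga + 3 * j3 + 10 * j4 = q i + 1 ∧ s.e3 = j3 ∧ s.e4 = j4

theorem ok_of {K : KP} {q b gd : List ℕ} {lo hi : ℕ} (h : layOK K q b gd lo hi = true) :
    Ok K (getL 0 q) (getL 0 b) (getL 0 gd) lo hi := by
  simp only [layOK, genOK, Bool.and_eq_true, allN_iff, frc_eq, Nat.blt_eq, Nat.beq_eq] at h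
  obtain ⟨h1, h2, h3, h4⟩ := h
  have h5 := fun i (h : lo ≤ i) (h' : i < hi) =>
    (show Nat.add lo (i - lo) = i from Nat.add_sub_of_le h) ▸
      (h4 (i - lo) (Nat.sub_lt_sub_right h h')).2
  refine ⟨h1, h2, fun σ => ?_, fun i i' h h' h'' => ?_, fun i h h' => ?_,
    fun i h h' j3 j4 hj s hs => ?_⟩
  · simpa only [Bool.and_eq_true, Bool.or_eq_true, Nat.beq_eq, Nat.ble_eq] using
      allL_getL h3 (d := si0) rfl σ
  · have := (h4 (i' - lo) (Nat.sub_lt_sub_right (by omega) h'')).1 (i - lo) (by omega)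
    rw [show Nat.add lo (i - lo) = i from Nat.add_sub_of_le h,
      show Nat.add lo (i' - lo) = i' from Nat.add_sub_of_le (by omega)] at this
    exact Nat.ne_of_beq_eq_false (by simpa using this)
  · exact (h5 i h h').1
  · have := (h5 i h h').2 j4 ((lt_cnt (by decide)).2 (le_trans (Nat.le_add_right _ _) hj)) j3
      ((lt_cnt (by decide)).2 hj)
    rw [slotOK, show getL si0 K.sl (Nat.add (Nat.add (Nat.mul j4 K.S4) _) j3) = s from hs.symm]
      at this
    cases s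
    simp only [Bool.and_eq_true, Nat.beq_eq] at this
    exact this

theorem layer_cons (P : SI → ℕ) (s : SI) (l : List SI) :
    layer P (s :: l) = Nat.lor (P s) (Nat.shiftLeft (layer P l) 6) := rfl

theorem bd_layer {P : SI → ℕ} (hP : ∀ s, Bd (P s) 6) (l : List SI) :
    Bd (layer P l) (6 * l.length) := by
  induction l with
  | nil => exact bd_zero _
  | cons s l ih => exact ((hP s).cat ih).mono (by simp only [List.length_cons]; omega)

theorem testBit_layer {P : SI → ℕ} (hP : ∀ s, Bd (P s) 6) {l : List SI} {σ j : ℕ}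
    (hσ : σ < l.length) (hj : j < 6) :
    (layer P l).testBit (6 * σ + j) = (P (getL si0 l σ)).testBit j := by
  induction l generalizing σ with
  | nil => cases hσ
  | cons s l ih =>
    rw [layer_cons, testBit_cat (hP s)]
    cases σ with
    | zero => rw [if_pos (by omega), mul_zero, zero_add, getL_zero]
    | succ σ =>
      rw [if_neg (by omega), show 6 * (σ + 1) + j - 6 = 6 * σ + j by omega, getL_succ]
      exact ih (by simpa using hσ)

theorem bit_ge (x j : ℕ) :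
    (Nat.land (Nat.shiftLeft 63 x) 63).testBit j = true ↔ x ≤ j ∧ j < 6 := by
  have h : ∀ k, Nat.testBit 63 k = decide (k < 6) := Nat.testBit_two_pow_sub_one 6
  simp only [Nat.land_eq, Nat.shiftLeft_eq', Nat.testBit_and, Nat.testBit_shiftLeft, h,
    Bool.and_eq_true, decide_eq_true_eq]
  omega

theorem bit_full (b : Bool) (j : ℕ) : (full b).testBit j = true ↔ b = true ∧ j < 6 := by
  cases b
  · simp [full]
  · exact (Bool.eq_iff_iff.1 (Nat.testBit_two_pow_sub_one 6 j)).trans (by simp)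

theorem bd_ge (x : ℕ) : Bd (Nat.land (Nat.shiftLeft 63 x) 63) 6 := fun j h => ((bit_ge x j).1 h).2

theorem bd_full (b : Bool) : Bd (full b) 6 := fun j h => ((bit_full b j).1 h).2

variable {K : KP} (hM : K.M = 6 * K.sl.length) {F : ℕ → SI → ℕ} {k σ j : ℕ}
include hM

theorem bd_stack (hF : ∀ k s, Bd (F k s) 6) :
    Bd (stack K fun k => layer (F k) K.sl) (K.W * K.M) := by
  simpa [stack] using bd_catN (n := K.W) (l := fun _ => K.M) fun k _ => hM ▸ bd_layer (hF k) K.sl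

theorem bit_cell (hF : ∀ k s, Bd (F k s) 6) (hσ : σ < K.sl.length) (hj : j < 6) :
    (stack K fun k => layer (F k) K.sl).testBit (k * K.M + (6 * σ + j)) = true ↔
      k < K.W ∧ (F k (getL si0 K.sl σ)).testBit j = true := by
  by_cases hk : k < K.W
  · have h := testBit_catN (n := K.W) (l := fun _ => K.M)
      (fun k _ => hM ▸ bd_layer (hF k) K.sl) hk (show 6 * σ + j < K.M by omega)
    rw [Finset.sum_const, Finset.card_range, smul_eq_mul, testBit_layer (hF k) hσ hj] at h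
    rw [stack, h, and_iff_right hk]
  · refine iff_of_false (fun h => ?_) fun h => hk h.1
    have h1 := bd_stack hM hF _ h
    have h2 := Nat.mul_le_mul_right K.M (not_lt.1 hk)
    omega

theorem exists_cell {p : ℕ} (h : p < K.W * K.M) :
    ∃ k σ j, σ < K.sl.length ∧ j < 6 ∧ p = k * K.M + (6 * σ + j) := by
  have h0 : 0 < K.M := Nat.pos_of_mul_pos_left (Nat.zero_lt_of_lt h)
  have h1 := Nat.mod_lt p h0
  have h2 := Nat.div_add_mod' p K.M
  exact ⟨p / K.M, p % K.M / 6, p % K.M % 6, by omega, by omega, by omega⟩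

omit hM in
theorem geG_eq (r : ℕ) : geG K r = stack { K with W := cnt K.B 4 r } fun k =>
    layer (fun s => Nat.land (Nat.shiftLeft 63 (r + 4 * k + (K.T - (r + 4 * k + 3)) - s.be)) 63)
      K.sl := by
  simp only [geG, frc_eq, Nat.lor_eq]
  exact congrArg _ (funext fun k => Nat.or_zero _)

variable (hσ : σ < K.sl.length) (hj : j < 6)
include hσ hj

theorem bit_geA (c : ℕ) : (geA K c).testBit (k * K.M + (6 * σ + j)) = true ↔
    c + 4 * k ≤ K.B ∧ c + 4 * k ≤ (getL si0 K.sl σ).be + j ∧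
      K.T ≤ (getL si0 K.sl σ).be + j + 3 := by
  have h := bit_cell (K := { K with W := cnt K.B 4 (c % 4) }) (k := c / 4 + k) hM
    (F := fun k s => Nat.land (Nat.shiftLeft 63
      (c % 4 + 4 * k + (K.T - (c % 4 + 4 * k + 3)) - s.be)) 63) (fun _ _ => bd_ge _) hσ hj
  rw [← geG_eq, bit_ge, lt_cnt (by decide), add_mul, add_assoc] at h
  rw [geA, frc_eq, Nat.shiftRight_eq, Nat.testBit_shiftRight]
  refine h.trans ?_
  change _ ∧ _ - (getL si0 K.sl σ).be ≤ j ∧ _ ↔ _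
  omega

theorem bit_val2 : (val2 K).testBit (k * K.M + (6 * σ + j)) = true ↔
    k < K.W ∧ k < (getL si0 K.sl σ).ga := by
  rw [val2, bit_cell hM (fun _ _ => bd_full _) hσ hj, bit_full, Nat.blt_eq, and_iff_left hj]

theorem bit_g1K (a : ℕ) : (g1K K a).testBit (k * K.M + (6 * σ + j)) = true ↔ k < K.W ∧ a ≤ j :=
  (bit_cell hM (F := fun _ _ => Nat.land (Nat.shiftLeft 63 a) 63) (fun _ _ => bd_ge _) hσ hj).trans
    (by rw [bit_ge, and_iff_left hj])

theorem bit_g3K (a : ℕ) : (g3K K a).testBit (k * K.M + (6 * σ + j)) = true ↔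
    k < K.W ∧ a ≤ (getL si0 K.sl σ).e3 :=
  (bit_cell hM (F := fun _ s => full (Nat.ble a s.e3)) (fun _ _ => bd_full _) hσ hj).trans
    (by rw [bit_full, Nat.ble_eq, and_iff_left hj])

theorem bit_g4K (a : ℕ) : (g4K K a).testBit (k * K.M + (6 * σ + j)) = true ↔
    k < K.W ∧ a ≤ (getL si0 K.sl σ).e4 :=
  (bit_cell hM (F := fun _ s => full (Nat.ble a s.e4)) (fun _ _ => bd_full _) hσ hj).trans
    (by rw [bit_full, Nat.ble_eq, and_iff_left hj])

theorem bit_geK (c : ℕ) : (geK K c).testBit (k * K.M + (6 * σ + j)) = true ↔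
    (c + 4 * k ≤ K.B ∧ c + 4 * k ≤ (getL si0 K.sl σ).be + j ∧
      K.T ≤ (getL si0 K.sl σ).be + j + 3) ∧ (k < K.W ∧ k < (getL si0 K.sl σ).ga) ∧
      (K.B ≤ K.T + 4 * k ∨ (getL si0 K.sl σ).be + j ≤ K.T + 4 * k) := by
  have h : ∀ a b : Bool, (a ^^ b) = true ↔ ¬(a = true ↔ b = true) := by decide
  simp only [geK, valid, Nat.land_eq, Nat.xor_eq, Nat.testBit_and, Nat.testBit_xor,
    Bool.and_eq_true, h, bit_geA hM hσ hj, bit_val2 hM hσ hj]
  omega

theorem bit_mskK (j1 j2 j3 j4 : ℕ) :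
    (mskK K j1 j2 j3 j4).testBit (k * K.M + (6 * σ + j)) = true ↔
      k + j2 < K.W ∧ j1 ≤ j ∧ k + j2 < (getL si0 K.sl σ).ga ∧ j3 ≤ (getL si0 K.sl σ).e3 ∧
        j4 ≤ (getL si0 K.sl σ).e4 := by
  have h : j2 * K.M + (k * K.M + (6 * σ + j)) = (k + j2) * K.M + (6 * σ + j) := by ring
  simp only [mskK, Nat.land_eq, Nat.shiftRight_eq, Nat.testBit_and, Nat.testBit_shiftRight,
    Bool.and_eq_true, Nat.mul_eq, h, bit_g1K hM hσ hj, bit_g3K hM hσ hj, bit_g4K hM hσ hj,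
    bit_val2 hM hσ hj]
  omega

omit hM hσ hj

theorem posK_eq (K : KP) (q b : ℕ → ℕ) (e : IE) : posK K q b e =
    (q e.i - (e.j2 + 3 * e.j3 + 10 * e.j4)) * K.M + (6 * (e.j4 * K.S4 + b e.i + e.j3) + e.j1) := rfl

theorem rt_neg {f g : ℕ → ℕ → ℕ} {φ : V →ₗ[ZMod 3] V} (h : RM f g φ) {c : ℕ} (hc : c = 1 ∨ c = 2)
    (e g2 g3 : ℕ) : RT (Bool.rec (PT.mk g f e g2 g3) (PT.mk f g e g2 g3) (Nat.beq c 1))
      ⟨(c : ZMod 3) • φ, e, g2, g3⟩ := by
  rcases hc with rfl | rfl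
  · exact ⟨by simpa using h, rfl, rfl, rfl⟩
  · rw [show ((2 : ℕ) : ZMod 3) • φ = -φ from neg_one_smul (ZMod 3) φ]
    exact ⟨h.neg, rfl, rfl, rfl⟩

/-- the value of a prepared term -/
theorem rt_ptK (K : KP) {c : ℕ} (hc : c = 1 ∨ c = 2) (j1 j2 j3 j4 e g2 g3 : ℕ) {l r : ℕ}
    (hl : l = 6 * (j3 + j4 * K.S4) + j1) (hr : r = (j2 + 3 * j3 + 10 * j4) * K.M) :
    ∃ φ, RT (ptK K c j1 j2 j3 j4 e g2 g3) ⟨φ, e, g2, g3⟩ ∧ ∀ x p,
      (l = 0 ∧ r = 0 ∧ φ x p = c * x p) ∨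
      (((mskK K j1 j2 j3 j4).testBit p = true → ∀ p', p' + l = p + r → φ x p = c * x p') ∧
        (¬(mskK K j1 j2 j3 j4).testBit p = true → φ x p = 0)) := by
  have h : ptK K c j1 j2 j3 j4 e g2 g3 = Bool.rec (ptR c (r - l) (mskK K j1 j2 j3 j4) e g2 g3)
      (Nat.rec (pt0 c e g2 g3) (fun _ _ => ptL c (l - r) (mskK K j1 j2 j3 j4) e g2 g3) l)
      (Nat.ble r l) := by
    subst hl hr
    simp only [ptK, frc_eq]
    rfl
  rw [h]
  clear h hl hr
  cases hb : Nat.ble r l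
  · have h1 : l < r := Nat.lt_of_not_le fun h => by
      rw [Nat.ble_eq_true_of_le h] at hb
      cases hb
    refine ⟨_, rt_neg (rm_shr _ _) hc e g2 g3, fun x p => Or.inr ⟨fun hp p' hp' => ?_, fun hp => ?_⟩⟩
    · simp [mk_apply, shr_apply, hp, show r - l + p = p' by omega]
    · simp [mk_apply, hp]
  · have h1 := Nat.le_of_ble_eq_true hb
    cases l with
    | zero => exact ⟨_, rt_neg rm_id hc e g2 g3, fun x p => Or.inl ⟨rfl, by omega, rfl⟩⟩
    | succ l =>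
      refine ⟨_, rt_neg (rm_shl _ _) hc e g2 g3, fun x p =>
        Or.inr ⟨fun hp p' hp' => ?_, fun hp => ?_⟩⟩
      · simp [mk_apply, shl_apply, hp, show l + 1 - r ≤ p by omega,
          show p - (l + 1 - r) = p' by omega]
      · simp [mk_apply, hp]

theorem Ok.cell {q b gd : ℕ → ℕ} {lo hi : ℕ} (h : Ok K q b gd lo hi) {e : IE} (h1 : lo ≤ e.i)
    (h2 : e.i < hi) (h3 : gd e.i + (e.j1 + 4 * e.j2 + 13 * e.j3 + 40 * e.j4) ≤ K.T) :
    ∃ k σ s, posK K q b e = k * K.M + (6 * σ + e.j1) ∧ s = getL si0 K.sl σ ∧ σ < K.sl.length ∧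
      σ = e.j4 * K.S4 + b e.i + e.j3 ∧ k + (e.j2 + 3 * e.j3 + 10 * e.j4) = q e.i ∧
      s.be = gd e.i + 4 * q e.i + e.j3 ∧ s.ga = k + e.j2 + 1 ∧ s.ga ≤ K.W ∧ s.e3 = e.j3 ∧
      s.e4 = e.j4 := by
  have h4 := h.q_ge _ h1 h2
  obtain ⟨h5, h6, h7, h8⟩ := h.slot _ h1 h2 e.j3 e.j4 (by omega) _ rfl
  refine ⟨_, _, _, posK_eq K q b e, rfl, lt_of_not_ge fun h9 => ?_, rfl, by omega, h5, by omega,
    (h.sl _).1, h7, h8⟩
  rw [getL_of_le _ h9, show si0.ga = 0 from rfl] at h6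
  omega

end LayK

open LayK in
/-- **A layout which passes the test is good.** -/
theorem good_of {K : KP} {q b gd : List ℕ} {lo hi : ℕ} (tb : ℕ → ℕ → Pl)
    (htb : ∀ i n, ∀ u ∈ tb i n, u.1 = 1 ∨ u.1 = 2) (h : layOK K q b gd lo hi = true) :
    (LD.mk (ctxK tb K) (g1K K) (posK K (getL 0 q) (getL 0 b)) (getL 0 gd) lo hi).Good tb := by
  have h := ok_of h
  have hM := h.M_eq
  generalize getL 0 q = q, getL 0 b = b, getL 0 gd = gd at h
  have hge : ∀ c, (ctxK tb K).ge c = geK K c := fun c => frc_eq _ _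
  refine ⟨h.T_lt, fun e he c => ?_, fun e c p hc hT hp => ?_, fun e he j => ?_, fun j _ p hp => ?_,
    fun e he j hj => ?_, fun e e' he he' hp => ?_, fun i n a => tm_prepK _ K ?_ a (htb i n)⟩
  · obtain ⟨k, σ, s, h1, rfl, h2, -, h3⟩ := h.cell he.1 he.2.1 he.2.2.2
    have h4 : gd e.i + e.wt ≤ K.T := he.2.2.2
    have h5 := (h.sl σ).2
    have h6 := h.q_ge _ he.1 he.2.1
    have h7 := he.2.2.1
    change ((ctxK tb K).ge c).testBit (posK K q b e) = true ↔ c ≤ gd e.i + e.wt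
    rw [hge, h1, bit_geK hM h2 he.2.2.1]
    unfold IE.wt at *
    omega
  · rw [hge] at hp
    have h1 : (val2 K).testBit p = true := by
      simp only [geK, valid, Nat.land_eq, Nat.testBit_and, Bool.and_eq_true] at hp
      exact hp.2.1
    obtain ⟨k, σ, j, h2, h3, rfl⟩ := exists_cell hM (bd_stack hM (fun _ _ => bd_full _) p h1)
    rw [bit_geK hM h2 h3] at hp
    have h5 : k < cnt K.B 4 e := (lt_cnt (by decide)).2 (by omega)
    have h6 : k + 1 ≤ (Bool.rec (cnt K.B 4 e) K.W (Nat.ble K.W (cnt K.B 4 e)) : ℕ) := by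
      cases Nat.ble K.W (cnt K.B 4 e)
      exacts [h5, hp.2.1.1]
    refine lt_of_lt_of_le ?_ ((Nat.mul_le_mul_left K.M h6).trans_eq (frc_eq e (lnK K)).symm)
    rw [mul_add, mul_comm]
    omega
  · obtain ⟨k, σ, s, h1, rfl, h2, -, h3⟩ := h.cell he.1 he.2.1 he.2.2.2
    change (g1K K j).testBit (posK K q b e) = true ↔ _
    rw [h1, bit_g1K hM h2 he.2.2.1]
    omega
  · obtain ⟨k, σ, j', h2, h3, rfl⟩ := exists_cell hM (bd_stack hM
      (F := fun _ _ => Nat.land (Nat.shiftLeft 63 j) 63) (fun _ _ => bd_ge _) p hp)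
    have := (bit_g1K hM h2 h3 j).1 hp
    omega
  · change posK K q b _ + j = posK K q b e
    simp only [posK_eq, IE.dv, Nat.sub_zero]
    omega
  · obtain ⟨k, σ, s, h1, rfl, h2, h3, h4⟩ := h.cell he.1 he.2.1 he.2.2.2
    obtain ⟨k', σ', s', h1', rfl, h2', h3', h4'⟩ := h.cell he'.1 he'.2.1 he'.2.2.2
    have h5 := he.2.2.1
    have h5' := he'.2.2.1
    have h6 : k * K.M + (6 * σ + e.j1) = k' * K.M + (6 * σ' + e'.j1) := h1.symm.trans (hp.trans h1')
    have h7 := congrArg (· % K.M) h6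
    simp only [Nat.mul_add_mod_self_right] at h7
    rw [Nat.mod_eq_of_lt (by omega), Nat.mod_eq_of_lt (by omega)] at h7
    obtain rfl : k = k' := Nat.eq_of_mul_eq_mul_right (show 0 < K.M by omega) (by omega)
    obtain rfl : σ = σ' := by omega
    have h8 : e.j4 = e'.j4 := by omega
    rw [h8] at h3
    have h9 : e.i = e'.i := by
      rcases lt_trichotomy e.i e'.i with h9 | h9 | h9
      · have := h.b_ne _ _ he.1 h9 he'.2.1
        omega
      · exact h9
      · have := h.b_ne _ _ he'.1 h9 he.2.1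
        omega
    cases e
    cases e'
    simp only [IE.mk.injEq] at *
    omega
  · intro c hc j1 _ j2 j3 j4 g g2 g3
    obtain ⟨φ, h1, h2⟩ := rt_ptK K hc j1 j2 j3 j4 g g2 g3 rfl rfl
    refine ⟨φ, h1, fun e he x => ?_⟩
    obtain ⟨k, σ, s, h3, rfl, h4, h5, h6⟩ := h.cell he.1 he.2.1 he.2.2.2
    change φ x (posK K q b e) = if _ then _ * x (posK K q b _) else 0
    rcases h2 x (posK K q b e) with ⟨h7, h8, h9⟩ | ⟨h7, h8⟩
    · have := (Nat.mul_eq_zero.1 h8).resolve_right (by omega)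
      obtain ⟨rfl, rfl, rfl, rfl⟩ : j1 = 0 ∧ j2 = 0 ∧ j3 = 0 ∧ j4 = 0 := by omega
      rw [h9, if_pos (by omega)]
      rfl
    · rw [h3, bit_mskK hM h4 he.2.2.1] at h7 h8
      rw [h3]
      split_ifs with h9
      · refine h7 (by omega) _ ?_
        obtain ⟨n, hn⟩ := Nat.exists_eq_add_of_le h9.2.2.2
        simp only [posK_eq, IE.dv]
        rw [show q e.i - (e.j2 - j2 + 3 * (e.j3 - j3) + 10 * (e.j4 - j4)) =
          k + (j2 + 3 * j3 + 10 * j4) by omega, add_mul k, show e.j4 - j4 = n by omega]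
        rw [hn, add_mul] at h5
        omega
      · exact h8 (by omega)

end Vale.Agent.P236C

end
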