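import Vale.Agent.P236C.Rep
import Vale.Agent.P236C.LayK
import Vale.Agent.P236C.Tab
import Vale.Agent.P236C.Exec2
import Vale.Agent.P236B.Cmp

/-!
# P236C: assembling the checks
-/

noncomputable section

namespace Vale.Agent.P236C

open Vale.Agent.P236B

theorem tbOK : TbOK tb := by decide +kernel

theorem tb_coef (i n : ℕ) : ∀ u ∈ tb i n, u.1 = 1 ∨ u.1 = 2 := by
  unfold tb
  split <;> decide +kernel

/-- the layout of a part -/
def ldK (K : KP) (q b ds : List ℕ) (lo hi : ℕ) : LD :=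
  LD.mk (ctxK tb K) (g1K K) (posK K (getL 0 q) (getL 0 b)) (getL 0 ds) lo hi

theorem part_of {T : ℕ} {K : KP} {q b ds d0 dp : List ℕ} {lo hi : ℕ}
    (h : partOK T K q b ds d0 dp lo hi = true) :
    (ldK K q b ds lo hi).Good tb ∧ (ldK K q b ds lo hi).Part T ds d0 dp := by
  simp only [partOK, Bool.and_eq_true, Nat.beq_eq, List.isPrefixOf_iff_prefix] at h
  obtain ⟨h1, h2, ⟨d2, h3⟩, h4, h5⟩ := h
  exact ⟨good_of tb tb_coef h1, h2, ⟨d2, h3.symm⟩, h4, h5, fun _ _ _ => rfl⟩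

theorem cov_sound {n : ℕ} {is : List ℕ} (h : cov n is = true) {i : ℕ} (hi : i < n) : i ∈ is := by
  have h1 := (allN_iff _ _).1 h i hi
  clear h
  induction is with
  | nil => cases h1
  | cons j is ih =>
    change (Bool.rec (memN i is) true (Nat.beq i j) : Bool) = true at h1
    cases e : Nat.beq i j
    · rw [e] at h1
      exact List.mem_cons_of_mem _ (ih h1)
    · exact Nat.eq_of_beq_eq_true e ▸ List.mem_cons_self

/-! ### the values on the monomials -/

theorem chkU_cons (C : Ctx) (ps : IE → ℕ) (ds d0 dp : List ℕ) (lo : ℕ) (x : XD) (xs : List XD)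
    (us : A4) : chkU C ps ds d0 dp lo (x :: xs) us = true ↔
      chkU C ps ds d0 dp lo [x] [hdL us] = true ∧ chkU C ps ds d0 dp lo xs (tlL us) = true := by
  change (Bool.rec false (chkU C ps ds d0 dp lo xs (tlL us)) _ : Bool) = true ↔
    (Bool.rec false true _ : Bool) = true ∧ _
  change _ ↔ (Bool.rec false true (chk3 _ _ _ (hdL us)) : Bool) = true ∧ _
  cases chk3 _ _ _ (hdL us) <;> simp

/-- The arrays with the numbers `is` are checked. -/
def UC (C : Ctx) (ps : IE → ℕ) (ds d0 dp : List ℕ) (lo : ℕ) (xs : List XD) (us : A4)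
    (is : List ℕ) : Prop :=
  ∀ i ∈ is, chkU C ps ds d0 dp lo [getL xd0 xs i] [getL [] us i] = true

section

variable {C : Ctx} {ps : IE → ℕ} {ds d0 dp : List ℕ} {lo : ℕ} {xs : List XD} {us : A4}
  {is is' : List ℕ}

theorem UC.of_chk (h : chkU C ps ds d0 dp lo (pickX xs is) (pickU us is) = true) :
    UC C ps ds d0 dp lo xs us is := by
  induction is with
  | nil => exact fun _ hi => nomatch hi
  | cons i is ih =>
    have := (chkU_cons _ _ _ _ _ _ _ _ _).1 h
    exact List.forall_mem_cons.2 ⟨this.1, ih this.2⟩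

theorem UC.append (h : UC C ps ds d0 dp lo xs us is) (h' : UC C ps ds d0 dp lo xs us is') :
    UC C ps ds d0 dp lo xs us (is ++ is') := fun i hi => (List.mem_append.1 hi).elim (h i) (h' i)

theorem UC.chk (h : UC C ps ds d0 dp lo xs us is) (hc : cov xs.length is = true) :
    chkU C ps ds d0 dp lo xs us = true := by
  have h1 : ∀ i < xs.length, chkU C ps ds d0 dp lo [getL xd0 xs i] [getL [] us i] = true :=
    fun i hi => h i (cov_sound hc hi)
  clear h hc
  induction xs generalizing us with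
  | nil => rfl
  | cons x xs ih =>
    refine (chkU_cons _ _ _ _ _ _ _ _ _).2 ⟨hdL_eq us ▸ h1 0 (Nat.succ_pos _), ih fun i hi => ?_⟩
    rw [getL_tlL]
    exact h1 (i + 1) (Nat.succ_lt_succ hi)

end

variable {D : RD} {L : LD} {tb : ℕ → ℕ → Pl}

/-- The arrays `us` represent the maps from stage `j` to the generators of the layout `L`. -/
def UOK (D : RD) (L : LD) (j : ℕ) (us : A4) : Prop := wf4 us = true ∧
  ∀ i < (D.ds j).length, L.M3 (val4 us i) (getL 0 (D.ds j) i) fun g => D.a j g i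

theorem uok_of (hD : D.Ok) (hL : L.Good tb) (ht : TbOK tb) {j : ℕ} {d0 dp : List ℕ}
    (hp : L.Part D.T (D.ds (j + 1)) d0 dp) {us : A4} (hw : wf4 us = true)
    (hl : (D.ds j).length ≤ (D.xs j).length) {is : List ℕ}
    (h : UC L.C L.ps (D.ds (j + 1)) d0 dp L.lo (D.xs j) us is)
    (hc : cov (D.xs j).length is = true) : UOK D L j us :=
  ⟨hw, fun _ hi => m3_a hD hL ht hp hw (h.chk hc) (hi.trans_le hl)⟩

/-! ### the check in pieces -/

/-- The pieces with the numbers `is` are checked. -/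
def JOk (C : Ctx) (g1 : ℕ → ℕ) (ds : List ℕ) (us : A4) (J : List Job) (is : List ℕ) : Prop :=
  ∀ i ∈ is, chk1 C (node C (zlist C g1 ds (ztab C ds us))) (wdI ds) (getL job0 J i) = true

section

variable {C : Ctx} {g1 : ℕ → ℕ} {ds : List ℕ} {us : A4} {J : List Job} {is is' : List ℕ}

theorem JOk.of_chk (h : chkJ C g1 ds us (pick J is) = true) : JOk C g1 ds us J is := by
  induction is with
  | nil => exact fun _ hi => nomatch hi
  | cons i is ih =>
    have := (allL_cons _ _ _).1 h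
    exact List.forall_mem_cons.2 ⟨this.1, ih this.2⟩

theorem JOk.append (h : JOk C g1 ds us J is) (h' : JOk C g1 ds us J is') :
    JOk C g1 ds us J (is ++ is') := fun i hi => (List.mem_append.1 hi).elim (h i) (h' i)

theorem JOk.all (h : JOk C g1 ds us J is) (hc : cov J.length is = true) :
    ∀ j ∈ J, chk1 C (node C (zlist C g1 ds (ztab C ds us))) (wdI ds) j = true := fun j hj => by
  obtain ⟨i, hi, rfl⟩ := List.getElem_of_mem hj
  have := h i (cov_sound hc hi)
  rwa [getL_eq, List.getD_eq_getElem _ _ hi] at this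

end

theorem p4_tab {c d n : ℕ} {f : ℕ → A3} {y : ℕ → ℕ → Fn3}
    (h : ∀ N < n, L.P3 (f N) (c + d * N) fun g => y g N) :
    L.P4 (tabN n f) c d fun g N E => if N < n then y g N E else 0 := by
  choose! x h1 h2 using h
  refine ⟨_, r4_tabN (x := x) h1, fun N e he k1 k2 k3 k4 hD => ?_⟩
  beta_reduce
  split_ifs with h
  · exact h2 N h e he k1 k2 k3 k4 hD
  · rfl

theorem LD.P3.add3 {a b : A3} {c : ℕ} {y z : ℕ → Fn3} (h : L.P3 a c y) (h' : L.P3 b c z) :
    L.P3 (add3 L.C c a b) c fun g => y g + z g := by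
  obtain ⟨x, h1, h2⟩ := h
  obtain ⟨x', h3, h4⟩ := h'
  refine ⟨_, r3_tab3 fun k4 k3 _ => (h1 k4 k3).vad (h3 k4 k3), fun e he k1 k2 k3 k4 hD => ?_⟩
  have := he.2.2.2
  beta_reduce
  rw [if_pos (by omega), Pi.add_apply, Pi.add_apply, MvPolynomial.coeff_add,
    h2 e he k1 k2 k3 k4 hD, h4 e he k1 k2 k3 k4 hD]

section

variable (hL : L.Good tb) (ht : TbOK tb) {nd : ℕ → ℕ → A3} {w : ℕ → ℕ} {x : XD}
  {G : ℕ → ℕ → Fn3} (hG : ∀ f1, L.P3 (lev1 L.C nd w (getL [] x.x f1) (x.c + f1)) (x.c + f1) (G f1))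

include hL ht hG

theorem p3_chk1 {lo hi : ℕ} {ei eo : A3} (h : chk1 L.C nd w ⟨x, lo, hi, ei, eo⟩ = true)
    (hi' : L.P3 ei x.c fun g => P236B.ctr 0 lo fun f1 => G f1 g) :
    L.P3 eo x.c fun g => P236B.ctr 0 hi fun f1 => G f1 g := by
  change (Bool.rec false (chk3 L.C x.c (add3 L.C x.c ei (levP L.C nd w x.x lo hi x.c)) eo)
    (Bool.rec false (wf4 [eo]) (Nat.ble lo hi) : Bool) : Bool) = true at h
  cases h1 : Nat.ble lo hi
  · rw [h1] at h
    cases h
  cases h2 : wf4 [eo]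
  · rw [h1, h2] at h
    cases h
  rw [h1, h2] at h
  have h3 : L.P3 (levP L.C nd w x.x lo hi x.c) x.c
      fun g => P236B.ctr 0 hi fun f1 => if lo ≤ f1 then G f1 g else 0 := by
    rw [levP, bar_eq]
    refine ((p4_tab fun f1 _ => ?_).rho1 hL ht).contr hL (by norm_num)
    rw [frc_eq, one_mul]
    by_cases h : lo ≤ f1
    · simp only [Nat.ble_eq_true_of_le h, if_pos h]
      exact hG f1
    · simp only [Bool.eq_false_iff.2 fun e => h (Nat.le_of_ble_eq_true e), if_neg h]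
      exact ⟨_, r3_nil, fun _ _ _ _ _ _ _ => rfl⟩
  obtain ⟨z, h4, h5⟩ := hi'.add3 h3
  refine ⟨_, wf4_sound h2 0, (h5.of_cut hL (chk3_sound _ _ h4 (wf4_sound h2 0) h)).of_eq rfl
    fun g => ?_⟩
  have h6 := Nat.le_of_ble_eq_true h1
  have h7 (f : ℕ) (y z : Fn3) : conv 3 (if lo ≤ f then y else 0) z =
      if lo ≤ f then conv 3 y z else 0 := by
    split_ifs
    · rfl
    · exact zero_conv z
  simp only [P236B.ctr, h7]
  rw [← Finset.sum_filter, ← Finset.sum_range_add_sum_Ico _ h6]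
  congr 2
  ext f
  simp [and_comm]

theorem p3_jobs1 {T : ℕ} {tl : List Job} (cs : List (ℕ × A3)) {lo : ℕ} {e : A3}
    (h : ∀ j ∈ jobs1 T x cs tl lo e, chk1 L.C nd w j = true)
    (he : L.P3 e x.c fun g => P236B.ctr 0 lo fun f1 => G f1 g) :
    L.P3 [] x.c fun g => P236B.ctr 0 (cnt T 1 x.c) fun f1 => G f1 g := by
  induction cs generalizing lo e with
  | nil => exact p3_chk1 hL ht hG (h _ List.mem_cons_self) he
  | cons p cs ih =>
    exact ih (fun j hj => h j (List.mem_cons_of_mem _ hj))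
      (p3_chk1 hL ht hG (h _ List.mem_cons_self) he)

end

theorem jobs1_tl {T : ℕ} {x : XD} {tl : List Job} (cs : List (ℕ × A3)) (lo : ℕ) (e : A3) :
    tl ⊆ jobs1 T x cs tl lo e := by
  induction cs generalizing lo e with
  | nil => exact List.subset_cons_self _ _
  | cons p cs ih => exact List.subset_cons_of_subset _ (ih _ _)

theorem exists_jobs1 {T : ℕ} {xs : List XD} (cs : List (List (ℕ × A3))) {x : XD} (hx : x ∈ xs) :
    ∃ c tl, jobs1 T x c tl 0 [] ⊆ jobsA T xs cs := by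
  induction xs generalizing cs with
  | nil => cases hx
  | cons y xs ih =>
    rcases List.mem_cons.1 hx with rfl | hx
    · exact ⟨_, _, List.Subset.refl _⟩
    · obtain ⟨c, tl, h⟩ := ih _ hx
      exact ⟨c, tl, List.Subset.trans h (jobs1_tl _ _ _)⟩

theorem box_XF' {T : ℕ} (hT : T < 108) (ds : List ℕ) (x : XD) (i : ℕ) :
    Box (XF T ds x i) (cnt T 1 x.c) 27 9 3 := fun F hF => by
  rw [XF] at hF
  split_ifs at hF with h
  · exact ⟨_, (lt_cnt one_pos).2 (by omega), _, by omega, _, by omega, _, by omega, h.1⟩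
  · exact absurd rfl hF

/-- **The check in pieces for one part of the generators.** -/
theorem qp_of_jobs (hD : D.Ok) (hL : L.Good tb) (ht : TbOK tb) {j : ℕ} {d0 dp : List ℕ}
    (hp : L.Part D.T (D.ds (j + 2)) d0 dp) {us : A4} (hU : UOK D L (j + 1) us)
    {cs : List (List (ℕ × A3))} {is : List ℕ}
    (hJ : JOk L.C L.g1 (D.ds (j + 1)) us (jobsA D.T (D.xs j) cs) is)
    (hc : cov (jobsA D.T (D.xs j) cs).length is = true) : D.QP hD j L.lo L.hi :=
  qp_of_m3 hD hp fun x hx => by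
    obtain ⟨c, tl, h1⟩ := exists_jobs1 (T := D.T) cs hx
    obtain ⟨z, h2, h3⟩ := p3_jobs1 hL ht (fun f1 => p3_lev1 hL ht (fun _ => rfl)
      (R := fun f2 f3 f4 g => ∑ i ∈ Finset.range (D.ds (j + 1)).length,
        zf (D.a (j + 1) g i) (XF L.C.T (D.ds (j + 1)) x i (kk f1 f2 f3 f4))) fun f2 f3 f4 hf => by
          simp only [XF_kk _ x _ hf]
          exact p3_node hL ht (wf4_sound hU.1) hU.2 _ _) c (fun J hJ' => hJ.all hc J (h1 hJ'))
      ⟨_, r3_nil, fun _ _ _ _ _ _ _ => rfl⟩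
    rw [h2.nil_eq, ← hp.T_eq] at h3
    exact h3.of_eq rfl fun g => sum_conv_ofX _ _ _ fun i _ => box_XF' hL.T_lt _ x i

theorem q_of_nil (hD : D.Ok) {j : ℕ} (h : D.xs (j + 1) = []) (N e : ℕ) :
    (mkRes D hD).Q N j e := fun g'' g E _ => by
  rw [Finset.sum_eq_zero fun g' _ => by
    rw [mkRes_a D hD (j + 1), D.a_neg fun h' => by simp [h] at h', zero_conv, Pi.zero_apply]]
  exact zero_mem _

/-- the arrays of one part, with explicit data -/
theorem uok_K (hD : D.Ok) (j : ℕ) {K : KP} {q b d0 dp ds0 ds1 : List ℕ} {T lo hi : ℕ} {us : A4}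
    {xs : List XD} {is : List ℕ} (e : D.T = T) (e0 : D.ds j = ds0) (e1 : D.ds (j + 1) = ds1)
    (f : D.xs j = xs) (hp : partOK T K q b ds1 d0 dp lo hi = true) (hw : wf4 us = true)
    (h : UC (ctxK P236C.tb K) (posK K (getL 0 q) (getL 0 b)) ds1 d0 dp lo xs us is)
    (hc : (Nat.ble ds0.length xs.length && cov xs.length is) = true) :
    UOK D (ldK K q b ds1 lo hi) j us := by
  subst e e0 e1 f
  obtain ⟨h1, h2⟩ := Bool.and_eq_true_iff.1 hc
  exact uok_of hD (part_of hp).1 tbOK (part_of hp).2 hw (Nat.le_of_ble_eq_true h1) h h2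

/-- the check of one part, with explicit data -/
theorem qp_K (hD : D.Ok) (j : ℕ) {K : KP} {q b d0 dp ds1 ds2 : List ℕ} {T lo hi : ℕ} {us : A4}
    {xs : List XD} {cs : List (List (ℕ × A3))} {is : List ℕ} (e : D.T = T)
    (e1 : D.ds (j + 1) = ds1) (e2 : D.ds (j + 2) = ds2) (f : D.xs j = xs)
    (hp : partOK T K q b ds2 d0 dp lo hi = true) (hU : UOK D (ldK K q b ds2 lo hi) (j + 1) us)
    (hJ : JOk (ctxK P236C.tb K) (g1K K) ds1 us (jobsA T xs cs) is)
    (hc : cov (jobsA T xs cs).length is = true) : D.QP hD j lo hi := by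
  subst e e1 e2 f
  exact qp_of_jobs hD (part_of hp).1 tbOK (part_of hp).2 hU hJ hc

/-! ### the data -/

/-- the data given by lists -/
def RD.ofL (T : ℕ) (dl : List (List ℕ)) (xl : List (List XD)) : RD := ⟨T, getL [] dl, getL [] xl⟩

theorem ok_of {T : ℕ} {dl : List (List ℕ)} {xl : List (List XD)} (h : okL T dl xl = true) :
    (RD.ofL T dl xl).Ok ∧ ∀ j, ∀ d ∈ (RD.ofL T dl xl).ds (j + 1), 0 < d := by
  simp only [okL, Bool.and_eq_true, Nat.blt_eq, beq_iff_eq, allN_iff] at h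
  obtain ⟨h1, h2, h3, h4, h5⟩ := h
  have h6 (j : ℕ) : ∀ d ∈ getL [] dl (j + 1), 0 < d := fun d hd => by
    have := allL_getL h4 (d := []) rfl j
    rw [show getL [] dl.tail j = getL [] dl (j + 1) by cases dl <;> rfl, allL_iff] at this
    exact Nat.blt_eq ▸ this d hd
  refine ⟨⟨h1, fun j => Nat.le_of_ble_eq_true (allL_getL h2 (d := []) rfl j), fun j i hi => ?_, h3,
    h6 0⟩, h6⟩
  change i < (getL [] xl j).length at hi
  change i < (getL [] dl j).length ∧ (getL xd0 (getL [] xl j) i).c = getL 0 (getL [] dl j) i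
  rw [← h5 j (not_le.1 fun hj => by simp [getL_of_le _ hj] at hi), List.length_map, getL_eq xd0,
    getL_eq 0, List.getD_eq_getElem _ _ hi, List.getD_eq_getElem _ _ (by simpa using hi),
    List.getElem_map]
  exact ⟨hi, rfl⟩

/-- **The comparison in the range of the checks.** -/
theorem cmp_mkRes (hD : D.Ok) (h0 : ∀ j, ∀ d ∈ D.ds (j + 1), 0 < d) {S : ℕ}
    (hQ : ∀ j ≤ S, (mkRes D hD).Q 6 j (2 * D.T))
    (hX : ∀ j ≤ S, ∀ e ≤ 2 * D.T, (mkRes D hD).Xc j e) :
    Nonempty (P236N.Cmp (mkRes D hD) 6 fun s => if s ≤ S then 2 * D.T else 0) :=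
  cmp_of_ok _ _ _ fun s => by
    split_ifs with h
    · exact fun j hj => ⟨hQ j (hj.trans h), hX j (hj.trans h)⟩
    · refine Res.okU_zero (fun j g => ?_) 6 s
      rw [mkRes_deg]
      by_cases h1 : (g : ℕ) < (D.ds (j + 1)).length
      · exact Nat.mul_pos two_pos (h0 j _ (getL_mem _ h1))
      · rw [getL_of_le _ (not_lt.1 h1)]
        norm_num

end Vale.Agent.P236C

end
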