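import Vale.Agent.P236C.Val2
import Vale.Agent.P236B.Step

/-!
# P236C: what is used about the layout of the monomials `v ^ E g` in a row
-/

noncomputable section

namespace Vale.Agent.P236C

open Vale.Agent.P236B

/-- the degree of the monomial in the `v_i` -/
def IE.wt (e : IE) : ℕ := e.j1 + 4 * e.j2 + 13 * e.j3 + 40 * e.j4

/-- division by a monomial -/
def IE.dv (e : IE) (j1 j2 j3 j4 : ℕ) : IE := ⟨e.i, e.j1 - j1, e.j2 - j2, e.j3 - j3, e.j4 - j4⟩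

/-- the data of a layout: the generators `lo ≤ i < hi` have the degrees `gd i` -/
structure LD where
  /-- the context -/
  C : Ctx
  /-- the positions with exponent of `v₁` at least `j` -/
  g1 : ℕ → ℕ
  /-- the position of a monomial -/
  ps : IE → ℕ
  /-- the degrees of the generators -/
  gd : ℕ → ℕ
  /-- the first generator -/
  lo : ℕ
  /-- the bound for the generators -/
  hi : ℕ

/-- the degree of a monomial -/
def LD.D (L : LD) (e : IE) : ℕ := L.gd e.i + e.wt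

/-- the monomials which have a position -/
def LD.ok (L : LD) (e : IE) : Prop := L.lo ≤ e.i ∧ e.i < L.hi ∧ e.j1 < 6 ∧ L.D e ≤ L.C.T

/-- `φ` is the multiplication by `c v₁ ^ j₁ v₂ ^ j₂ v₃ ^ j₃ v₄ ^ j₄`. -/
def LD.Mul (L : LD) (c j1 j2 j3 j4 : ℕ) (φ : V →ₗ[ZMod 3] V) : Prop :=
  ∀ e, L.ok e → ∀ x, φ x (L.ps e) = if j1 ≤ e.j1 ∧ j2 ≤ e.j2 ∧ j3 ≤ e.j3 ∧ j4 ≤ e.j4 then
    (c : ZMod 3) * x (L.ps (e.dv j1 j2 j3 j4)) else 0

/-- the values of the prepared terms of `P ^ q` modulo `v₁ ^ 6` -/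
inductive LD.TS (L : LD) (q : ℕ) : Pl → List ST → Prop
  | nil : TS L q [] []
  | cons {u : ℕ × ℕ} {φ : V →ₗ[ZMod 3] V} {P : Pl} {us : List ST} :
      L.Mul u.1 (q * dg 0 u.2) (q * dg 1 u.2) (q * dg 2 u.2) (q * dg 3 u.2) φ → TS L q P us →
        TS L q (u :: P) (⟨φ, q * dg 8 u.2, q * dg 5 u.2, q * dg 6 u.2⟩ :: us)
  | drop {u : ℕ × ℕ} {P : Pl} {us : List ST} : 6 ≤ q * dg 0 u.2 → TS L q P us → TS L q (u :: P) us

/-- **The properties of a layout.** -/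
structure LD.Good (L : LD) (tb : ℕ → ℕ → Pl) : Prop where
  T_lt : L.C.T < 108
  ge : ∀ e, L.ok e → ∀ c, (L.C.ge c).testBit (L.ps e) = true ↔ c ≤ L.D e
  ln : L.C.LnOk
  g1 : ∀ e, L.ok e → ∀ j, (L.g1 j).testBit (L.ps e) = true ↔ j ≤ e.j1
  g1_le : ∀ j < 6, ∀ p, (L.g1 j).testBit p = true → j ≤ p
  ps_dv : ∀ e, L.ok e → ∀ j ≤ e.j1, L.ps (e.dv j 0 0 0) + j = L.ps e
  inj : ∀ e e', L.ok e → L.ok e' → L.ps e = L.ps e' → e = e'
  tm : ∀ i n q, ∃ us, List.Forall₂ RT (L.C.tm i n q) us ∧ L.TS q (tb i n) us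

theorem kd_eq (q k i : ℕ) : kd q k i = q * dg i k := by
  change q * ((k >>> (8 * i)) &&& 255) = _
  rw [dg, Nat.shiftRight_eq_div_pow, pow_mul]
  exact congrArg _ (Nat.and_two_pow_sub_one_eq_mod _ 8)

/-- the field `tm` for the prepared terms -/
theorem tm_prepK (L : LD) (K : KP) (h : ∀ c, c = 1 ∨ c = 2 → ∀ j1 ≤ 5, ∀ j2 j3 j4 e g2 g3,
    ∃ φ, RT (ptK K c j1 j2 j3 j4 e g2 g3) ⟨φ, e, g2, g3⟩ ∧ L.Mul c j1 j2 j3 j4 φ) (q : ℕ)
    {P : Pl} (hP : ∀ u ∈ P, u.1 = 1 ∨ u.1 = 2) :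
    ∃ us, List.Forall₂ RT (prepK K q P) us ∧ L.TS q P us := by
  induction P with
  | nil => exact ⟨[], .nil, .nil⟩
  | cons u P ih =>
    obtain ⟨us, h1, h2⟩ := ih fun w hw => hP w (List.mem_cons_of_mem _ hw)
    obtain ⟨c, k⟩ := u
    have e : prepK K q ((c, k) :: P) = Bool.rec (prepK K q P) (ptK K c (q * dg 0 k) (q * dg 1 k)
        (q * dg 2 k) (q * dg 3 k) (q * dg 8 k) (q * dg 5 k) (q * dg 6 k) :: prepK K q P)
        (Nat.ble (q * dg 0 k) 5) := by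
      simp only [← kd_eq]
      change (frc (kd q k 0) fun j1 => (Bool.rec (prepK K q P) (frc (kd q k 1) fun j2 =>
        frc (kd q k 2) fun j3 => frc (kd q k 3) fun j4 => frc (kd q k 8) fun e =>
          frc (kd q k 5) fun g2 => frc (kd q k 6) fun g3 => ptK K c j1 j2 j3 j4 e g2 g3 ::
            prepK K q P) (Nat.ble j1 5) : List PT)) = _
      simp only [frc_eq]
    rw [e]
    cases hb : Nat.ble (q * dg 0 k) 5
    · exact ⟨us, h1, .drop (Nat.lt_of_not_le fun hl => by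
        rw [Nat.ble_eq_true_of_le hl] at hb
        cases hb) h2⟩
    · obtain ⟨φ, h3, h4⟩ := h c (hP _ List.mem_cons_self) _ (Nat.le_of_ble_eq_true hb) (q * dg 1 k)
        (q * dg 2 k) (q * dg 3 k) (q * dg 8 k) (q * dg 5 k) (q * dg 6 k)
      exact ⟨_, .cons h3 h1, .cons (u := (c, k)) h4 h2⟩

end Vale.Agent.P236C

end
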