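import Vale.Agent.P236C.Dat

/-!
# P236C: arrays of rows represent families of functionals
-/

noncomputable section

namespace Vale.Agent.P236C

open Vale.Agent.P236B MvPolynomial

/-- The values `x` in degree `c` are the coefficients of `Y`. -/
def LD.M3 (L : LD) (x : S3) (c : ℕ) (Y : ℕ → (ℕ →₀ ℕ) → W) : Prop :=
  ∀ e, L.ok e → ∀ k1 k2 k3 k4, L.D e = c + 40 * k4 + 13 * k3 + 4 * k2 + k1 →
    x k4 k3 k2 (L.ps e) = coeff e.ex (Y e.i (kk k1 k2 k3 k4))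

/-- the same for lists of arrays -/
def LD.M4 (L : LD) (x : S4) (c d : ℕ) (Y : ℕ → Arr W) : Prop :=
  ∀ N, L.M3 (x N) (c + d * N) fun i => Y i N

variable {L : LD} {tb : ℕ → ℕ → Pl}

theorem kk_add (a b c d a' b' c' d' : ℕ) :
    kk a b c d + kk a' b' c' d' = kk (a + a') (b + b') (c + c') (d + d') := by
  simp only [kk, Finsupp.single_add]
  abel

theorem smul_kk (q a b c d : ℕ) : q • kk a b c d = kk (q * a) (q * b) (q * c) (q * d) := by
  simp only [kk, smul_add, Finsupp.smul_single, smul_eq_mul]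

theorem kk_le {a b c d a' b' c' d' : ℕ} :
    kk a b c d ≤ kk a' b' c' d' ↔ a ≤ a' ∧ b ≤ b' ∧ c ≤ c' ∧ d ≤ d' := by
  refine ⟨fun h => ⟨?_, ?_, ?_, ?_⟩, fun ⟨h0, h1, h2, h3⟩ => ?_⟩
  · simpa [kk] using h 0
  · simpa [kk] using h 1
  · simpa [kk] using h 2
  · simpa [kk] using h 3
  · exact add_le_add (add_le_add (add_le_add (Finsupp.single_mono h3) (Finsupp.single_mono h2))
      (Finsupp.single_mono h1)) (Finsupp.single_mono h0)

theorem kk_sub (a b c d a' b' c' d' : ℕ) :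
    kk a b c d - kk a' b' c' d' = kk (a - a') (b - b') (c - c') (d - d') := by
  ext m
  simp only [kk, Finsupp.tsub_apply, Finsupp.add_apply, Finsupp.single_apply]
  split_ifs <;> omega

theorem monN_four (k : ℕ) :
    monN 4 (X : ℕ → W) k = monomial (kk (dg 0 k) (dg 1 k) (dg 2 k) (dg 3 k)) 1 := by
  simp only [monomial_kk, monN, dg, Nat.div_div_eq_div_mul]
  simp [mul_assoc]

/-- `P` is homogeneous of degree `w`, where `x` has degree `d`, and does not contain `t₄`. -/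
def Hom (P : Pl) (d w : ℕ) : Prop := ∀ u ∈ P, dg 7 u.2 = 0 ∧ dg 0 u.2 + 4 * dg 1 u.2 +
  13 * dg 2 u.2 + 40 * dg 3 u.2 + d * dg 8 u.2 + dg 4 u.2 + 4 * dg 5 u.2 + 13 * dg 6 u.2 = w

instance (P : Pl) (d w : ℕ) : Decidable (Hom P d w) := by unfold Hom; infer_instance

theorem LD.ok.dv {e : IE} (h : L.ok e) (j1 j2 j3 j4 : ℕ) : L.ok (e.dv j1 j2 j3 j4) := by
  obtain ⟨h1, h2, h3, h4⟩ := h
  refine ⟨h1, h2, ?_, ?_⟩
  · simp only [IE.dv]
    omega
  · simp only [LD.D, IE.dv, IE.wt] at h4 ⊢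
    omega

theorem coeff_term (e : IE) (c j1 j2 j3 j4 : ℕ) (f : W) :
    coeff e.ex ((c : W) * monomial (kk j1 j2 j3 j4) 1 * f) =
      if j1 ≤ e.j1 ∧ j2 ≤ e.j2 ∧ j3 ≤ e.j3 ∧ j4 ≤ e.j4 then
        (c : ZMod 3) * coeff (e.dv j1 j2 j3 j4).ex f else 0 := by
  rw [mul_assoc, ← map_natCast (C : ZMod 3 →+* W), coeff_C_mul, coeff_monomial_mul', IE.ex,
    kk_sub, one_mul, mul_ite, mul_zero]
  exact if_congr kk_le rfl rfl

theorem sumS_apL {q d w c N : ℕ} {P : Pl} {us : List ST} (h : L.TS q P us) (hP : Hom P d w)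
    {x : S4} {Y : ℕ → Arr W} (hx : L.M4 x c d Y) :
    L.M3 (sumS us fun n => x (N + n)) (c + q * w + d * N) fun i => apL X q (Y i) P N := by
  intro e he k1 k2 k3 k4 hD
  induction h with
  | nil => rfl
  | @cons u φ P us h1 _ ih =>
    have h2 := ih fun w hw => hP w (List.mem_cons_of_mem _ hw)
    obtain ⟨h3, h4⟩ := hP u List.mem_cons_self
    simp only [sumS, List.map_cons, List.sum_cons, Pi.add_apply] at h2 ⊢
    rw [h2, apL, coeff_add, h1 e he, monN_four, monomial_pow, one_pow, smul_kk, coeff_term, kt,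
      smul_kk, kk_add, h3, mul_zero, add_zero]
    congr 1
    split_ifs with h5
    · rw [hx _ _ (he.dv _ _ _ _) (k1 + q * dg 4 u.2)]
      · rfl
      · simp only [LD.D, IE.dv, IE.wt, ← h4, mul_add, mul_left_comm q] at hD ⊢
        omega
    · rfl
  | @drop u P us h1 _ ih =>
    rw [ih fun w hw => hP w (List.mem_cons_of_mem _ hw)]
    beta_reduce
    rw [apL, coeff_add, monN_four, monomial_pow, one_pow, smul_kk, coeff_term, if_neg fun h => by have := he.2.2.1; omega, zero_add]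

theorem LD.M3.of_eq {x : S3} {c c' : ℕ} {Y Y' : ℕ → (ℕ →₀ ℕ) → W} (h : L.M3 x c Y) (hc : c' = c)
    (hY : ∀ i, Y' i = Y i) : L.M3 x c' Y' := by
  rw [hc, funext hY]
  exact h

theorem LD.M3.cut (hL : L.Good tb) {x : S3} {c : ℕ} {Y : ℕ → (ℕ →₀ ℕ) → W} (h : L.M3 x c Y) :
    L.M3 (cut L.C c x) c Y := fun e he k1 k2 k3 k4 hD => by
  have := he.2.2.2
  rw [P236C.cut, if_pos (by omega), mk_apply, if_pos ((hL.ge e he _).2 (by omega)),
    h e he k1 k2 k3 k4 hD]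

theorem LD.M3.of_cut (hL : L.Good tb) {x y : S3} {c : ℕ} {Y : ℕ → (ℕ →₀ ℕ) → W} (h : L.M3 x c Y)
    (h' : P236C.cut L.C c x = P236C.cut L.C c y) : L.M3 y c Y := fun e he k1 k2 k3 k4 hD => by
  have := he.2.2.2
  rw [← h.cut hL e he k1 k2 k3 k4 hD, h', P236C.cut, if_pos (by omega), mk_apply,
    if_pos ((hL.ge e he _).2 (by omega))]

theorem LD.M4.mulS (hL : L.Good tb) {q d w c c' : ℕ} {P : Pl} {us : List ST} (h : L.TS q P us)
    (hP : Hom P d w) {x : S4} {Y : ℕ → Arr W} (hx : L.M4 x c d Y) (hc : c' = c + q * w) :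
    L.M4 (mulS L.C us d c' x) c' d fun i => apL X q (Y i) P := fun N => by
  subst hc
  exact (sumS_apL h hP hx).cut hL

/-- the degrees of `t₁, …, t₄` -/
def wn : ℕ → ℕ
  | 0 => 1
  | 1 => 4
  | 2 => 13
  | _ => 40

/-- the combination in a digit step -/
def cY (n q : ℕ) (Y₀ Y₁ Y₂ : (ℕ →₀ ℕ) → W) (K : ℕ →₀ ℕ) : W :=
  Y₀ K + (K n / q % 3 : ℕ) * Y₁ (K - Finsupp.single n q) +
    if K n / q % 3 = 2 then Y₂ (K - Finsupp.single n q - Finsupp.single n q) else 0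

/-- `F` computes the combination in a digit step. -/
def LD.Cb (L : LD) (F : ℕ → S3 → S3 → S3 → S3) (n q : ℕ) : Prop :=
  ∀ c x0 x1 x2 Y₀ Y₁ Y₂, L.M3 x0 c Y₀ → L.M3 x1 (c + q * wn n) Y₁ →
    L.M3 x2 (c + q * wn n + q * wn n) Y₂ →
      L.M3 (F c x0 x1 x2) c fun i => cY n q (Y₀ i) (Y₁ i) (Y₂ i)

theorem coeff_cY (α : ℕ →₀ ℕ) (n q : ℕ) (Y₀ Y₁ Y₂ : (ℕ →₀ ℕ) → W) (K : ℕ →₀ ℕ) {p : ℕ}
    {x0 x1 x2 : V} (h0 : x0 p = coeff α (Y₀ K))
    (h1 : q ≤ K n → x1 p = coeff α (Y₁ (K - Finsupp.single n q)))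
    (h2 : q + q ≤ K n → x2 p = coeff α (Y₂ (K - Finsupp.single n q - Finsupp.single n q))) :
    cK (K n / q % 3) x0 x1 x2 p = coeff α (cY n q Y₀ Y₁ Y₂ K) := by
  have h3 := (Nat.mul_le_mul_left q (Nat.mod_le (K n / q) 3)).trans (Nat.mul_div_le (K n) q)
  have h4 : K n / q % 3 < 3 := Nat.mod_lt _ (by norm_num)
  rw [cY, cK, coeff_add, coeff_add, ← map_natCast (C : ZMod 3 →+* W), coeff_C_mul]
  generalize K n / q % 3 = d at *
  interval_cases d
  · simp [h0]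
  · simp [h0, h1 (by omega)]
  · simp only [Nat.reduceEqDiff, if_false, if_true, Pi.add_apply, Pi.sub_apply, h0, h1 (by omega),
      h2 (by omega), show ((2 : ℕ) : ZMod 3) = -1 from rfl]
    ring

theorem kk_single (n q : ℕ) (hn : n < 4) : Finsupp.single n q =
    kk (if n = 0 then q else 0) (if n = 1 then q else 0) (if n = 2 then q else 0)
      (if n = 3 then q else 0) := by
  interval_cases n <;> simp [kk]

theorem cb4 (hL : L.Good tb) {p : Pat} {q : ℕ} (hp : p.Ok q) : L.Cb (fun _ => p.sem) 3 q := by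
  intro c x0 x1 x2 Y₀ Y₁ Y₂ h0 h1 h2 e he k1 k2 k3 k4 hD
  have := he.2.2.2
  have := hL.T_lt
  have h3 : kk k1 k2 k3 k4 3 = k4 := by simp [kk]
  beta_reduce
  rw [hp _ _ _ _ k4 (by omega), cK_apply _ _ _ _ k3, cK_apply _ _ _ _ k2]
  have := coeff_cY e.ex 3 q (Y₀ e.i) (Y₁ e.i) (Y₂ e.i) (kk k1 k2 k3 k4) (h0 e he k1 k2 k3 k4 hD)
    (x1 := x1 (k4 - q) k3 k2) (x2 := x2 (k4 - (q + q)) k3 k2)
  simp only [h3, kk_single 3 q (by norm_num), kk_sub, Nat.reduceEqDiff, if_false, if_true,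
    Nat.sub_zero, Nat.sub_sub] at this
  exact this (fun h => h1 e he _ _ _ _ (by simp only [wn]; omega))
    fun h => h2 e he _ _ _ _ (by simp only [wn]; omega)

theorem cb3 (hL : L.Good tb) {p : Pat} {q : ℕ} (hp : p.Ok q) :
    L.Cb (fun _ x0 x1 x2 k4 => p.sem (x0 k4) (x1 k4) (x2 k4)) 2 q := by
  intro c x0 x1 x2 Y₀ Y₁ Y₂ h0 h1 h2 e he k1 k2 k3 k4 hD
  have := he.2.2.2
  have := hL.T_lt
  have h3 : kk k1 k2 k3 k4 2 = k3 := by simp [kk]
  beta_reduce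
  rw [hp _ _ _ _ k3 (by omega), cK_apply _ _ _ _ k2]
  have := coeff_cY e.ex 2 q (Y₀ e.i) (Y₁ e.i) (Y₂ e.i) (kk k1 k2 k3 k4) (h0 e he k1 k2 k3 k4 hD)
    (x1 := x1 k4 (k3 - q) k2) (x2 := x2 k4 (k3 - (q + q)) k2)
  simp only [h3, kk_single 2 q (by norm_num), kk_sub, Nat.reduceEqDiff, if_false, if_true,
    Nat.sub_zero, Nat.sub_sub] at this
  exact this (fun h => h1 e he _ _ _ _ (by simp only [wn]; omega))
    fun h => h2 e he _ _ _ _ (by simp only [wn]; omega)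

theorem cb2 (hL : L.Good tb) {p : Pat} {q : ℕ} (hp : p.Ok q) :
    L.Cb (fun _ x0 x1 x2 k4 k3 => p.sem (x0 k4 k3) (x1 k4 k3) (x2 k4 k3)) 1 q := by
  intro c x0 x1 x2 Y₀ Y₁ Y₂ h0 h1 h2 e he k1 k2 k3 k4 hD
  have := he.2.2.2
  have := hL.T_lt
  have h3 : kk k1 k2 k3 k4 1 = k2 := by simp [kk]
  beta_reduce
  rw [hp _ _ _ _ k2 (by omega)]
  have := coeff_cY e.ex 1 q (Y₀ e.i) (Y₁ e.i) (Y₂ e.i) (kk k1 k2 k3 k4) (h0 e he k1 k2 k3 k4 hD)
    (x1 := x1 k4 k3 (k2 - q)) (x2 := x2 k4 k3 (k2 - (q + q)))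
  simp only [h3, kk_single 1 q (by norm_num), kk_sub, Nat.reduceEqDiff, if_false, if_true,
    Nat.sub_zero, Nat.sub_sub, one_ne_zero] at this
  exact this (fun h => h1 e he _ _ _ _ (by simp only [wn]; omega))
    fun h => h2 e he _ _ _ _ (by simp only [wn]; omega)

theorem dS_ps (hL : L.Good tb) {q : ℕ} (hq : 0 < q) {j : ℕ} (hj : j < 3) {e : IE} (he : L.ok e)
    {c k : ℕ} (hD : L.D e = c + k) (x : V) :
    dS L.C q j c x (L.ps e) = if k / q % 3 = j then x (L.ps e) else 0 := by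
  have := he.2.2.2
  rw [dS, if_pos (by omega), mk_apply]
  refine if_congr ((testBit_dm _ hq j c _).trans ?_) rfl rfl
  have h (i : ℕ) : (L.C.ge (c + q * (3 * i + j))).testBit (L.ps e) ≠
      (L.C.ge (c + q * (3 * i + j) + q)).testBit (L.ps e) ↔ k / q = 3 * i + j := by
    rw [Ne, Bool.eq_iff_iff, hL.ge e he, hL.ge e he, Nat.div_eq_iff hq, mul_comm _ q]
    omega
  simp only [h]
  refine ⟨fun ⟨i, _, h⟩ => by omega, fun h => ⟨k / q / 3, ?_, by omega⟩⟩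
  have h1 := Nat.mul_div_le k q
  have h2 := Nat.mul_le_mul_left q (Nat.mul_div_le (k / q) 3)
  rw [mul_comm 3, mul_assoc]
  omega

theorem cb1 (hL : L.Good tb) {q : ℕ} (hq : 0 < q) : L.Cb (cS1 L.C q) 0 q := by
  intro c x0 x1 x2 Y₀ Y₁ Y₂ h0 h1 h2 e he k1 k2 k3 k4 hD
  have := he.2.2.2
  have h3 : kk k1 k2 k3 k4 0 = k1 := by simp [kk]
  have := coeff_cY e.ex 0 q (Y₀ e.i) (Y₁ e.i) (Y₂ e.i) (kk k1 k2 k3 k4) (h0 e he k1 k2 k3 k4 hD)
    (x1 := x1 k4 k3 k2) (x2 := x2 k4 k3 k2)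
  simp only [h3, kk_single 0 q (by norm_num), kk_sub, Nat.reduceEqDiff, if_false, if_true,
    Nat.sub_zero, Nat.sub_sub, zero_ne_one] at this
  rw [← this (fun h => h1 e he _ _ _ _ (by simp only [wn]; omega))
    fun h => h2 e he _ _ _ _ (by simp only [wn]; omega), cS1]
  simp only [Pi.add_apply, Pi.sub_apply, dS_ps hL hq (show 1 < 3 by norm_num) he hD,
    dS_ps hL hq (show 2 < 3 by norm_num) he hD, cK]
  have h4 : k1 / q % 3 < 3 := Nat.mod_lt _ (by norm_num)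
  generalize k1 / q % 3 = d at *
  interval_cases d <;> simp
  ring

theorem wn_le {n : ℕ} (hn : n < 4) (k1 k2 k3 k4 : ℕ) :
    kk k1 k2 k3 k4 n * wn n ≤ 40 * k4 + 13 * k3 + 4 * k2 + k1 := by
  interval_cases n <;> simp [kk, wn] <;> omega

theorem step_eq {P : Pl} {n : ℕ} (h : ∀ t ∈ P, kt t.2 n = 0) (j : ℕ) (Y : Arr W) (N : ℕ) :
    P236B.step X P n j Y N = cY n (3 ^ j) (Y N) (apL X (3 ^ j) Y P N)
      (apL X (3 ^ j) (apL X (3 ^ j) Y P) P N) := by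
  funext K
  have h1 (P' : Pl) (h' : ∀ t ∈ P', kt t.2 n = 0) (K') :=
    apL_sub X h' (3 ^ j) (3 ^ j) (apL X (3 ^ j) Y P) N K'
  rw [P236B.step, cY, ← h1 P h]
  rfl

theorem LD.M4.stepS (hL : L.Good tb) {F : ℕ → S3 → S3 → S3 → S3} {n j w d c : ℕ} (hn : n < 4)
    (hF : L.Cb F n (3 ^ j)) {P : Pl} {us : List ST} (h : L.TS (3 ^ j) P us) (hP : Hom P d (wn n))
    (hP' : ∀ t ∈ P, kt t.2 n = 0) (hw : w = 3 ^ j * wn n) {x : S4} {Y : ℕ → Arr W}
    (hx : L.M4 x c d Y) : L.M4 (stepS L.C F w us d c x) c d fun i => P236B.step X P n j (Y i) := by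
  subst hw
  intro N
  simp only [step_eq hP']
  rw [P236C.stepS]
  split_ifs with hc
  · have h1 := hx.mulS hL h hP rfl
    exact hF _ _ _ _ _ _ _ (hx N) ((h1 N).of_eq (by ring) fun _ => rfl)
      ((h1.mulS hL h hP rfl N).of_eq (by ring) fun _ => rfl)
  · intro e he k1 k2 k3 k4 hD
    have h1 := he.2.2.2
    have h2 := wn_le hn k1 k2 k3 k4
    have h3 : kk k1 k2 k3 k4 n / 3 ^ j = 0 :=
      Nat.div_eq_of_lt (lt_of_mul_lt_mul_right (a := wn n) (by omega) (Nat.zero_le _))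
    rw [hx N e he k1 k2 k3 k4 hD]
    simp [cY, h3]

/-- the polynomial `x` -/
def xP : Pl := [(1, 18446744073709551616)]

theorem apL_xP (q : ℕ) (Y : Arr W) (N : ℕ) : apL X q Y xP N = Y (N + q) := by
  funext K
  have h : kt 18446744073709551616 = 0 := by simp [kt, kk, dg]
  simp [xP, apL, h, monN, dg]

theorem LD.M4.ctrS {F : ℕ → S3 → S3 → S3 → S3} {n j d c : ℕ} (hF : L.Cb F n (3 ^ j))
    (hd : d = 3 ^ (j + 1) * wn n) {x : S4} {Y : ℕ → Arr W}
    (hx : L.M4 x c (3 ^ j * wn n) fun i N => Y i (3 ^ j * N)) :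
    L.M4 (ctrS F d c x) c (3 ^ (j + 1) * wn n)
      fun i N => P236B.step X xP n j (Y i) (3 ^ (j + 1) * N) := by
  subst hd
  intro N e he k1 k2 k3 k4 hD
  have h : ∀ t ∈ xP, kt t.2 n = 0 := by simp [xP, kt, kk, dg]
  rw [P236C.ctrS]
  simp only [step_eq h, apL_xP]
  refine hF _ _ _ _ (fun i => Y i (3 ^ (j + 1) * N)) (fun i => Y i (3 ^ (j + 1) * N + 3 ^ j))
    (fun i => Y i (3 ^ (j + 1) * N + 3 ^ j + 3 ^ j)) ?_ ?_ ?_ e he k1 k2 k3 k4 hD
  · exact (hx (3 * N)).of_eq (by ring) fun i => congrArg (Y i) (by ring)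
  · exact (hx (3 * N + 1)).of_eq (by ring) fun i => congrArg (Y i) (by ring)
  · exact (hx (3 * N + 2)).of_eq (by ring) fun i => congrArg (Y i) (by ring)

/-! ### arrays of rows -/

/-- The array `a` of degree `c` represents the family `Y`. -/
def LD.P3 (L : LD) (a : A3) (c : ℕ) (Y : ℕ → (ℕ →₀ ℕ) → W) : Prop := ∃ x, R3 a x ∧ L.M3 x c Y

/-- the same for lists of arrays -/
def LD.P4 (L : LD) (a : A4) (c d : ℕ) (Y : ℕ → Arr W) : Prop := ∃ x, R4 a x ∧ L.M4 x c d Y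

/-- the terms which are not divisible by `v₁ ^ 6` -/
def fl (P : Pl) : Pl := P.filter fun t => t.2 % 256 < 6

theorem LD.TS.of_fl {q : ℕ} (hq : 0 < q) {P : Pl} {us : List ST} (h : L.TS q (fl P) us) :
    L.TS q P us := by
  induction P generalizing us with
  | nil => exact h
  | cons u P ih =>
    rw [fl, List.filter_cons] at h
    split_ifs at h with hu
    · cases h with
      | cons h1 h2 => exact .cons h1 (ih h2)
      | drop h1 h2 => exact .drop h1 (ih h2)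
    · refine .drop (le_trans ?_ (Nat.le_mul_of_pos_left _ hq)) (ih h)
      simpa [dg] using hu

/-- the table contains the structure maps -/
def TbOK (tb : ℕ → ℕ → Pl) : Prop := (∀ i < 4, ∀ n < 4, i < n → tb i n = fl (rL i n)) ∧
  (∀ n < 4, tb 4 n = fl (tauL n)) ∧ ∀ n < 4, 0 < n → tb 5 n = fl (etaF n)

instance (tb : ℕ → ℕ → Pl) : Decidable (TbOK tb) := by unfold TbOK; infer_instance

section steps

variable (hL : L.Good tb) {a : A4} {c d : ℕ} {Y : ℕ → Arr W}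
  {fa : ℕ → A3 → A3 → A3 → A3} {F : ℕ → S3 → S3 → S3 → S3}

include hL

theorem LD.P4.step (h : L.P4 a c d Y) (hf : RF fa F) {n : ℕ} (j : ℕ) (hn : n < 4)
    (hF : L.Cb F n (3 ^ j)) {i : ℕ} {r : ℕ → Pl} (hr : tb i n = fl (r n)) (hT : Tri r)
    (hP : Hom (r n) d (wn n)) : L.P4 (step L.C fa (3 ^ j * wn n) (L.C.tm i n (3 ^ j)) d c a) c d
      fun g => P236B.step X (r n) n j (Y g) := by
  obtain ⟨x, h1, h2⟩ := h
  obtain ⟨us, h3, h4⟩ := hL.tm i n (3 ^ j)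
  rw [hr] at h4
  exact ⟨_, h1.step _ hf _ h3 d c, h2.stepS hL hn hF (h4.of_fl (by positivity)) hP
    (fun t ht => (kt_apply _ hn).trans (hT n hn n le_rfl t ht)) rfl⟩

theorem LD.P4.st4 (h : L.P4 a c d Y) {i : ℕ} {r : ℕ → Pl} (hr : tb i 3 = fl (r 3)) (hT : Tri r)
    (hP : Hom (r 3) d 40) : L.P4 (st4 L.C i d c a) c d fun g => steps X (r 3) 3 (Y g) 1 :=
  h.step hL (rf4 _) 0 (by norm_num) (cb4 hL pat1_ok) hr hT hP

theorem LD.P4.st3 (h : L.P4 a c d Y) {i : ℕ} {r : ℕ → Pl} (hr : tb i 2 = fl (r 2)) (hT : Tri r)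
    (hP : Hom (r 2) d 13) : L.P4 (st3 L.C i d c a) c d fun g => steps X (r 2) 2 (Y g) 2 :=
  (h.step hL (rf3 _) 0 (by norm_num) (cb3 hL pat1_ok) hr hT hP).step hL (rf3 _) 1 (by norm_num)
    (cb3 hL pat3_ok) hr hT hP

theorem LD.P4.st2 (h : L.P4 a c d Y) {i : ℕ} {r : ℕ → Pl} (hr : tb i 1 = fl (r 1)) (hT : Tri r)
    (hP : Hom (r 1) d 4) : L.P4 (st2 L.C i d c a) c d fun g => steps X (r 1) 1 (Y g) 3 :=
  ((h.step hL (rf2 _) 0 (by norm_num) (cb2 hL pat1_ok) hr hT hP).step hL (rf2 _) 1 (by norm_num)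
    (cb2 hL pat3_ok) hr hT hP).step hL (rf2 _) 2 (by norm_num) (cb2 hL pat9_ok) hr hT hP

omit hL

theorem LD.P4.ctr {n : ℕ} (j : ℕ) (h : L.P4 a c (3 ^ j * wn n) fun g N => Y g (3 ^ j * N))
    (hf : RF fa F) (hF : L.Cb F n (3 ^ j)) : L.P4 (ctr fa (3 ^ (j + 1) * wn n) c a) c
      (3 ^ (j + 1) * wn n) fun g N => P236B.step X xP n j (Y g) (3 ^ (j + 1) * N) := by
  obtain ⟨x, h1, h2⟩ := h
  exact ⟨_, h1.ctr hf _ c, h2.ctrS hF rfl⟩

theorem LD.P4.one {n : ℕ} (h : L.P4 a c (wn n) Y) :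
    L.P4 a c (3 ^ 0 * wn n) fun g N => Y g (3 ^ 0 * N) := by simpa using h

theorem LD.P4.hd {m : ℕ} (h : L.P4 a c d fun g N => Y g (m * N)) :
    L.P3 (hdL a) c fun g => Y g 0 := by
  obtain ⟨x, h1, h2⟩ := h
  exact ⟨_, h1.hdL, h2 0⟩

theorem steps_nil (n : ℕ) (Y : Arr W) (j : ℕ) : steps X [] n Y j = Y := by
  induction j with
  | zero => rfl
  | succ j ih =>
    funext N K
    simp [steps, ih, P236B.step, apS, apL]

theorem tri_rL : ∀ i < 4, Tri (rL i) := by decide +kernel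

theorem hom_rL : ∀ i < 4, ∀ n < 4, Hom (rL i n) (wn i) (wn n) := by decide +kernel

theorem hom_eta : ∀ n < 4, Hom (etaF n) 0 (wn n) := by decide +kernel

theorem hom_tauL : ∀ n < 4, Hom (tauL n) 1 (wn n) := by decide +kernel

include hL

theorem LD.P4.rho4 (h : L.P4 a c 40 Y) :
    L.P3 (rho4 c a) c fun g => allSteps X (rL 3) (Y g) 0 := by
  have := ((h.one (n := 3)).ctr 0 (rf4 _) (cb4 hL pat1_ok)).hd
  simp only [allSteps, show rL 3 0 = [] from rfl, show rL 3 1 = [] from rfl,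
    show rL 3 2 = [] from rfl, steps_nil]
  exact this

theorem LD.P4.rho3 (ht : TbOK tb) (h : L.P4 a c 13 Y) :
    L.P3 (rho3 L.C c a) c fun g => allSteps X (rL 2) (Y g) 0 := by
  have := ((((h.st4 hL (ht.1 2 (by norm_num) 3 (by norm_num) (by norm_num)) (tri_rL 2 (by norm_num))
    (hom_rL 2 (by norm_num) 3 (by norm_num))).one (n := 2)).ctr 0 (rf3 _) (cb3 hL pat1_ok)).ctr 1
    (rf3 _) (cb3 hL pat3_ok)).hd
  simp only [allSteps, show rL 2 0 = [] from rfl, show rL 2 1 = [] from rfl, steps_nil]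
  exact this

theorem LD.P4.rho2 (ht : TbOK tb) (h : L.P4 a c 4 Y) :
    L.P3 (rho2 L.C c a) c fun g => allSteps X (rL 1) (Y g) 0 := by
  have hT := tri_rL 1 (by norm_num)
  have h1 := ht.1 1 (by norm_num)
  have h2 := hom_rL 1 (by norm_num)
  have := ((((((h.st4 hL (h1 3 (by norm_num) (by norm_num)) hT (h2 3 (by norm_num))).st3 hL
    (h1 2 (by norm_num) (by norm_num)) hT (h2 2 (by norm_num))).one (n := 1)).ctr 0 (rf2 _)
    (cb2 hL pat1_ok)).ctr 1 (rf2 _) (cb2 hL pat3_ok)).ctr 2 (rf2 _) (cb2 hL pat9_ok)).hd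
  simp only [allSteps, show rL 1 0 = [] from rfl, steps_nil]
  exact this

theorem LD.P4.rho1 (ht : TbOK tb) (h : L.P4 a c 1 Y) :
    L.P3 (rho1 L.C c a) c fun g => allSteps X (rL 0) (Y g) 0 := by
  have hT := tri_rL 0 (by norm_num)
  have h1 := ht.1 0 (by norm_num)
  have h2 := hom_rL 0 (by norm_num)
  have h3 (j : ℕ) := cb1 hL (q := 3 ^ j) (by positivity)
  exact (((((((((h.st4 hL (h1 3 (by norm_num) (by norm_num)) hT (h2 3 (by norm_num))).st3 hL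
    (h1 2 (by norm_num) (by norm_num)) hT (h2 2 (by norm_num))).st2 hL
    (h1 1 (by norm_num) (by norm_num)) hT (h2 1 (by norm_num))).one (n := 0)).ctr 0 (rf1 _ _)
    (h3 0)).ctr 1 (rf1 _ _) (h3 1)).ctr 2 (rf1 _ _) (h3 2)).ctr 3 (rf1 _ _) (h3 3)).ctr 4
    (rf1 _ _) (h3 4)).hd

end steps

/-! ### functionals -/

section functionals

variable (hL : L.Good tb) (ht : TbOK tb)

include hL

theorem LD.P3.of_box {a : A3} {c : ℕ} {Y Y' : ℕ → (ℕ →₀ ℕ) → W} (h : L.P3 a c Y)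
    (hY : ∀ g, ∀ k1 < 243, ∀ k2 < 27, ∀ k3 < 9, ∀ k4 < 3,
      Y' g (kk k1 k2 k3 k4) = Y g (kk k1 k2 k3 k4)) : L.P3 a c Y' := by
  obtain ⟨x, h1, h2⟩ := h
  refine ⟨x, h1, fun e he k1 k2 k3 k4 hD => ?_⟩
  have := he.2.2.2
  have := hL.T_lt
  rw [hY _ _ (by omega) _ (by omega) _ (by omega) _ (by omega), h2 e he k1 k2 k3 k4 hD]

theorem LD.P3.contr {a : A3} {c i M : ℕ} (hi : i < 4) {y : ℕ → ℕ → Fn3} (h : L.P3 a c fun g =>
    allSteps X (rL i) (fun N E => if N < M then y g N E else 0) 0) :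
    L.P3 a c fun g => P236B.ctr i M (y g) :=
  h.of_box hL fun g k1 h1 k2 h2 k3 h3 k4 h4 => by
    have := vl_contr three_W MvPolynomial.C (vmk X) hi (tri_rL i hi) (fun _ _ => rfl) (y g) M h1 h2 h3 h4
    simpa only [vl_univ, vmk_univ, P236B.ctr] using this

theorem p4_tabN {c d M : ℕ} (hM : 108 ≤ d * M) {f : ℕ → A3} {y : ℕ → ℕ → Fn3}
    (h : ∀ N, c + d * N ≤ L.C.T → L.P3 (f N) (c + d * N) fun g => y g N) :
    L.P4 (tabN (cnt L.C.T d c) f) c d fun g N E => if N < M then y g N E else 0 := by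
  have hd : 0 < d := Nat.pos_of_ne_zero fun h0 => by simp [h0] at hM
  choose! x h1 h2 using h
  refine ⟨_, r4_tabN (x := x) fun N hN => h1 N ((lt_cnt hd).1 hN), fun N e he k1 k2 k3 k4 hD => ?_⟩
  have := he.2.2.2
  have := hL.T_lt
  have h3 : c + d * N ≤ L.C.T := by omega
  beta_reduce
  rw [if_pos ((lt_cnt hd).2 h3), if_pos (lt_of_mul_lt_mul_left (a := d) (by omega) (Nat.zero_le _)),
    h2 N h3 e he k1 k2 k3 k4 hD]

include ht

omit hL ht in
theorem LD.P3.nil_of {a : A3} {c : ℕ} {Y : ℕ → (ℕ →₀ ℕ) → W} (h : L.P3 a c Y)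
    (h0 : L.P3 a c fun _ => 0) : L.P3 [] c Y := by
  obtain ⟨x, h1, h2⟩ := h
  obtain ⟨y, h3, h4⟩ := h0
  refine ⟨0, r3_nil, fun e he k1 k2 k3 k4 hD => ?_⟩
  rw [← h2 e he k1 k2 k3 k4 hD, ← (h1 k4 k3).2, (h3 k4 k3).2, h4 e he k1 k2 k3 k4 hD]
  rfl

omit hL ht in
theorem ctr_zero (i M : ℕ) : P236B.ctr i M (fun _ => (0 : Fn3)) = 0 :=
  Finset.sum_eq_zero fun _ _ => funext fun _ => act_zero _ _ _

omit hL ht in
theorem p3_nil (c : ℕ) : L.P3 [] c fun _ => (0 : Fn3) := ⟨0, r3_nil, fun _ _ _ _ _ _ _ => rfl⟩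

omit ht in
theorem p3_lev3 {nd : ℕ → ℕ → A3} {x : ℕ → ℕ → ℕ} {f3 c : ℕ} (hc : c ≤ L.C.T)
    {R : ℕ → ℕ → Fn3} (h : ∀ f4, c + 40 * f4 ≤ L.C.T →
      L.P3 (nd (c + 40 * f4) (x f4 f3)) (c + 40 * f4) (R f4)) :
    L.P3 (lev3 L.C nd x f3 c) c fun g => P236B.ctr 3 3 fun f4 => R f4 g := by
  have h1 := ((p4_tabN hL (M := 3) (by norm_num) (f := fun f4 => frc (Nat.add c (Nat.mul 40 f4))
    fun c1 => nd c1 (x f4 f3)) (y := fun g f4 => R f4 g) fun f4 h4 => by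
      rw [frc_eq]
      exact h f4 h4).rho4 hL).contr hL (by norm_num)
  unfold lev3
  cases hb : Nat.ble (Nat.add c 40) L.C.T
  · have h2 : ¬c + 40 ≤ L.C.T := fun h' => by
      rw [show Nat.ble (Nat.add c 40) L.C.T = true from Nat.ble_eq_true_of_le h'] at hb
      cases hb
    have h3 : cnt L.C.T 40 c = 1 := by
      change (L.C.T + 40 - c) / 40 = 1
      omega
    rw [h3] at h1
    exact (congrArg (fun a => L.P3 a c _) (frc_eq c fun c1 => nd c1 (x 0 f3))).mp h1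
  · exact h1

theorem p3_lev2 {nd : ℕ → ℕ → A3} (hn : ∀ c, nd c 0 = []) {w : ℕ → ℕ} {x c : ℕ}
    {R : ℕ → ℕ → ℕ → Fn3} (h : ∀ f3 f4, c + 13 * f3 + 40 * f4 ≤ L.C.T →
      L.P3 (nd (c + 13 * f3 + 40 * f4) (fld L.C.T w c x f4 f3)) (c + 13 * f3 + 40 * f4) (R f3 f4)) :
    L.P3 (lev2 L.C nd w x c) c fun g =>
      P236B.ctr 2 9 fun f3 => P236B.ctr 3 3 fun f4 => R f3 f4 g := by
  have key {R : ℕ → ℕ → ℕ → Fn3} (h : ∀ f3 f4, c + 13 * f3 + 40 * f4 ≤ L.C.T → L.P3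
      (nd (c + 13 * f3 + 40 * f4) (fld L.C.T w c x f4 f3)) (c + 13 * f3 + 40 * f4) (R f3 f4)) :=
    ((p4_tabN hL (M := 9) (by norm_num) (f := fun f3 => frc (Nat.add c (Nat.mul 13 f3))
      (lev3 L.C nd (fld L.C.T w c x) f3)) (y := fun g f3 => P236B.ctr 3 3 fun f4 => R f3 f4 g)
      fun f3 h3 => by
        rw [frc_eq]
        exact p3_lev3 hL h3 (h f3)).rho3 hL ht).contr hL (by norm_num)
  unfold lev2
  cases hb : Nat.beq x 0
  · rw [bar_eq]
    exact key h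
  · refine (key h).nil_of ?_
    have := key (R := fun _ _ _ => 0) fun f3 f4 _ => by
      rw [Nat.eq_of_beq_eq_true hb, show fld L.C.T w c 0 f4 f3 = 0 by simp [fld], hn]
      exact p3_nil _
    simpa only [ctr_zero] using this

theorem p3_lev1 {nd : ℕ → ℕ → A3} (hn : ∀ c, nd c 0 = []) {w : ℕ → ℕ} {x : List ℕ} {c : ℕ}
    {R : ℕ → ℕ → ℕ → ℕ → Fn3} (h : ∀ f2 f3 f4, c + 4 * f2 + 13 * f3 + 40 * f4 ≤ L.C.T →
      L.P3 (nd (c + 4 * f2 + 13 * f3 + 40 * f4) (fld L.C.T w (c + 4 * f2) (getL 0 x f2) f4 f3))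
        (c + 4 * f2 + 13 * f3 + 40 * f4) (R f2 f3 f4)) :
    L.P3 (lev1 L.C nd w x c) c fun g => P236B.ctr 1 27 fun f2 =>
      P236B.ctr 2 9 fun f3 => P236B.ctr 3 3 fun f4 => R f2 f3 f4 g := by
  have key {R : ℕ → ℕ → ℕ → ℕ → Fn3} (h : ∀ f2 f3 f4, c + 4 * f2 + 13 * f3 + 40 * f4 ≤ L.C.T →
      L.P3 (nd (c + 4 * f2 + 13 * f3 + 40 * f4) (fld L.C.T w (c + 4 * f2) (getL 0 x f2) f4 f3))
        (c + 4 * f2 + 13 * f3 + 40 * f4) (R f2 f3 f4)) :=
    ((p4_tabN hL (M := 27) (by norm_num) (f := fun f2 => frc (Nat.add c (Nat.mul 4 f2))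
      (lev2 L.C nd w (getL 0 x f2))) (y := fun g f2 => P236B.ctr 2 9 fun f3 =>
        P236B.ctr 3 3 fun f4 => R f2 f3 f4 g) fun f2 _ => by
        rw [frc_eq]
        exact p3_lev2 hL ht hn (h f2)).rho2 hL ht).contr hL (by norm_num)
  cases x with
  | cons a t => exact (congrArg (fun a => L.P3 a c _) (bar_eq _ _)).mpr (key h)
  | nil =>
    refine (key h).nil_of ?_
    have := key (R := fun _ _ _ _ => 0) fun f2 f3 f4 _ => by
      rw [getL_nil, show fld L.C.T w (c + 4 * f2) 0 f4 f3 = 0 by simp [fld], hn]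
      exact p3_nil _
    simpa only [ctr_zero] using this

/-- **The iterated contraction.** -/
theorem p3_lev0 {nd : ℕ → ℕ → A3} (hn : ∀ c, nd c 0 = []) {w : ℕ → ℕ} {x : List (List ℕ)} {c : ℕ}
    {R : ℕ → ℕ → ℕ → ℕ → ℕ → Fn3} (h : ∀ f1 f2 f3 f4, c + f1 + 4 * f2 + 13 * f3 + 40 * f4 ≤ L.C.T →
      L.P3 (nd (c + f1 + 4 * f2 + 13 * f3 + 40 * f4) (fld L.C.T w (c + f1 + 4 * f2)
        (getL 0 (getL [] x f1) f2) f4 f3)) (c + f1 + 4 * f2 + 13 * f3 + 40 * f4) (R f1 f2 f3 f4)) :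
    L.P3 (lev0 L.C nd w x c) c fun g => P236B.ctr 0 243 fun f1 => P236B.ctr 1 27 fun f2 =>
      P236B.ctr 2 9 fun f3 => P236B.ctr 3 3 fun f4 => R f1 f2 f3 f4 g := by
  rw [lev0, bar_eq]
  refine ((p4_tabN hL (by norm_num) fun f1 _ => ?_).rho1 hL ht).contr hL (by norm_num)
  rw [frc_eq, one_mul]
  exact p3_lev1 hL ht hn (h f1)

omit ht

omit hL in
theorem LD.M3.single {x : S3} {c : ℕ} {y : ℕ → Fn3} (h : L.M3 x c y) (d : ℕ) :
    L.M4 (fun N => if N = 0 then x else 0) c d fun g N E => if N = 0 then y g E else 0 :=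
  fun N e he k1 k2 k3 k4 hD => by
    by_cases hN : N = 0
    · subst hN
      exact h e he k1 k2 k3 k4 hD
    · simp only [if_neg hN]
      rfl

theorem LD.M3.mE {x : S3} {c c' n : ℕ} (j : ℕ) (hn : n < 4) {us : List ST}
    (hu : L.TS (3 ^ j) (fl (etaF n)) us) {y : ℕ → Fn3} {m : ℕ}
    (h : L.M3 x c fun g => zf (y g) (X n ^ m)) (hc : c' = c + 3 ^ j * wn n) :
    L.M3 (mE L.C us c' x) c' fun g => zf (y g) (X n ^ (m + 3 ^ j)) := by
  have h6 := (sumS_apL (N := 0) (hu.of_fl (by positivity)) (hom_eta n hn) (h.single 0)).of_eq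
    (c' := c') (Y' := fun g => zf (y g) (X n ^ (m + 3 ^ j))) hc fun g => funext fun E => by
      have := vl_zf_pow three_W MvPolynomial.C (vmk X) hn rfl (zf (y g) (X n ^ m)) j E
      simpa only [vl_univ, vmk_univ, zf_zf, pow_add] using this
  simp only [zero_add] at h6
  exact h6.cut hL

theorem LD.M3.itr {x : S3} {c n : ℕ} (hn : n < 4) {us : List ST} (hu : L.TS 1 (fl (etaF n)) us)
    {y : ℕ → Fn3} (h : L.M3 x c y) (j : ℕ) :
    L.M3 (itr (P236C.mE L.C us) (wn n) c x j) (c + wn n * j) fun g => zf (y g) (X n ^ j) := by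
  induction j with
  | zero => exact h.of_eq rfl fun g => by rw [pow_zero, zf_one]
  | succ j ih => exact ih.mE hL 0 hn hu (by ring)

theorem LD.M3.it3 {us : List ST} (hu : L.TS 3 (fl (etaF 1)) us) {y : ℕ → Fn3} (j : ℕ) {c m : ℕ}
    {x0 x1 x2 : S3} (h0 : L.M3 x0 c fun g => zf (y g) (X 1 ^ m))
    (h1 : L.M3 x1 (c + 4) fun g => zf (y g) (X 1 ^ (m + 1)))
    (h2 : L.M3 x2 (c + 8) fun g => zf (y g) (X 1 ^ (m + 2))) :
    L.M3 (it3 (P236C.mE L.C us) j c x0 x1 x2) (c + 4 * j) fun g => zf (y g) (X 1 ^ (m + j)) := by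
  induction j generalizing c m x0 x1 x2 with
  | zero => exact h0
  | succ j ih =>
    exact (ih (m := m + 1) h1 h2 (h0.mE hL 1 (by norm_num) hu rfl)).of_eq (by ring) fun g => by
      rw [add_assoc, add_comm 1]

theorem LD.M3.z0S {E : ℕ → List ST} (h0 : L.TS 3 (fl (etaF 1)) (E 0))
    (h1 : L.TS 1 (fl (etaF 1)) (E 1)) {x : S3} {c : ℕ} {y : ℕ → Fn3} (h : L.M3 x c y) (j : ℕ) :
    L.M3 (z0S L.C E c x j) (c + 4 * j) fun g => zf (y g) (X 1 ^ j) := by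
  have h2 : L.M3 x c fun g => zf (y g) (X 1 ^ 0) := h.of_eq rfl fun g => by rw [pow_zero, zf_one]
  have h3 := h2.mE hL (c' := c + 4) 0 (by norm_num) h1 rfl
  exact (h2.it3 hL h0 j h3 (h3.mE hL (c' := c + 8) 0 (by norm_num) h1 rfl)).of_eq rfl fun g => by
    rw [zero_add]

end functionals

/-! ### the checks -/

theorem zf_smul (y : Fn3) (r : ZMod 3) (c : W) : zf y (r • c) = r • zf y c := by
  rw [smul_eq_C_mul, zf_C_mul]
  exact funext fun E => (smul_eq_C_mul _ r).symm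

theorem sum_zf_xval (ds : List ℕ) (c x : ℕ) (y : ℕ → Fn3) :
    ∑ i ∈ Finset.range ds.length, zf (y i) (xval ds c x i) =
      cs (inner c ds 0) x fun e => zf (y e.i) (monomial e.ex 1) := by
  simp only [xval, cs, zf_sum, zf_smul]
  rw [Finset.sum_comm]
  refine Finset.sum_congr rfl fun m hm => ?_
  have := mem_inner _ (getL_mem ie0 (Finset.mem_range.1 hm))
  simp only [apply_ite (zf _), zf_zero, smul_ite, smul_zero, Finset.sum_ite_eq, Finset.mem_range]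
  exact if_pos (by omega)

section checks

variable (hL : L.Good tb) (ht : TbOK tb)

include hL ht

theorem p3_node {ds : List ℕ} {us : A4} {u : S4} (hu : R4 us u) {y : ℕ → ℕ → Fn3}
    (hy : ∀ i < ds.length, L.M3 (u i) (getL 0 ds i) (y i)) (c x : ℕ) :
    L.P3 (node L.C (zlist L.C L.g1 ds (ztab L.C ds us)) c x) c fun g =>
      ∑ i ∈ Finset.range ds.length, zf (y i g) (xval ds c x i) := by
  choose E h1 h2 using fun n => hL.tm 5 (max n 1) (if n = 0 then 3 else 1)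
  have h3 := ht.2.2
  refine ⟨_, r3_node_zlist hL.ln ds (hu.ztab _ (h1 0) (h1 1) (h1 2) (h1 3) ds) c
    (fun e he => hL.g1_le _ (mem_inner e he).2.2.1) x, LD.M3.cut hL fun e he k1 k2 k3 k4 hD => ?_⟩
  rw [sum_zf_xval, cs]
  simp only [Finset.sum_apply, Pi.smul_apply, coeff_sum, coeff_smul]
  refine Finset.sum_congr rfl fun m hm => congrArg _ ?_
  obtain ⟨-, h4, -, h5⟩ := mem_inner _ (getL_mem ie0 (Finset.mem_range.1 hm))
  generalize getL ie0 (inner c ds 0) m = z at *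
  have h6 := he.2.2.2
  rw [zero_add] at h4
  rw [Nat.sub_zero] at h5
  have h7 := (((hy _ h4).itr hL (n := 3) (by norm_num) (h3 3 (by norm_num) (by norm_num) ▸ h2 3)
    z.j4).itr hL (n := 2) (by norm_num) (h3 2 (by norm_num) (by norm_num) ▸ h2 2) z.j3).z0S hL
    (E := E) (h3 1 (by norm_num) (by norm_num) ▸ h2 0) (h3 1 (by norm_num) (by norm_num) ▸ h2 1)
    z.j2
  have h8 := vl_zf_v1 three_W C (vmk X) (y z.i e.i) z.j1 (X 3 ^ z.j4 * X 2 ^ z.j3 * X 1 ^ z.j2)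
    (kk k1 k2 k3 k4)
  have h9 := coeff_term e 1 z.j1 0 0 0
  simp only [vl_univ, vmk_X, zf_zf, wn, Nat.cast_one, one_mul, monomial_kk, pow_zero, mul_one,
    Nat.zero_le, and_true] at h7 h8 h9
  rw [IE.ex, IE.ex, monomial_kk, show (X 0 ^ z.j1 * X 1 ^ z.j2 * X 2 ^ z.j3 * X 3 ^ z.j4 : W) =
    X 0 ^ z.j1 * (X 3 ^ z.j4 * X 2 ^ z.j3 * X 1 ^ z.j2) by ring, h8, ← IE.ex, h9, zS, ztabS,
    if_pos h4, ztS, if_pos (by omega), sh1]
  by_cases h : z.j1 ≤ e.j1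
  · have h10 := hL.ps_dv e he _ h
    refine Eq.trans ?_ ((h7 _ (he.dv z.j1 0 0 0) k1 k2 k3 k4 (by
      simp only [LD.D, IE.dv, IE.wt] at hD ⊢
      omega)).trans (if_pos h).symm)
    split_ifs with h0
    · rw [← h10, h0, add_zero]
    · rw [mk_apply, if_pos ((hL.g1 e he _).2 h), shl_apply, if_pos (by omega),
        ← h10, Nat.add_sub_cancel]
  · rw [if_neg h, if_neg (by omega), mk_apply, if_neg fun h' => h ((hL.g1 e he _).1 h')]

omit ht in
theorem m3_xarr {d0 dp d2 : List ℕ} (hlo : L.lo = d0.length) (hhi : L.hi = d0.length + dp.length)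
    (hgd : ∀ i, L.lo ≤ i → i < L.hi → L.gd i = getL 0 dp (i - L.lo)) (x : XD) :
    ∃ w, R3 (xarr L.C (zid L.ps dp L.lo) (wdI (d0 ++ dp ++ d2)) (offI d0) x) w ∧
      L.M3 w x.c (XF L.C.T (d0 ++ dp ++ d2) x) := by
  refine ⟨_, r3_xarr _ (fun c => (r1_zid L.ps dp L.lo c).2) _ _ x,
    fun e he k1 k2 k3 k4 hD => ?_⟩
  have h0 := he.2.2.2
  have h1 (c) (hc : c ≤ L.C.T) (z) (hz : z ∈ inner c dp L.lo) : L.ok z ∧ L.D z = c := by
    obtain ⟨h1, h2, h3, h4⟩ := mem_inner z hz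
    have h5 : L.D z = c := by
      rw [LD.D, hgd _ h1 (by omega), IE.wt]
      omega
    exact ⟨⟨h1, by omega, h3, h5.le.trans hc⟩, h5⟩
  have h2 (c) (hc : c ≤ L.C.T) (a : ℕ) : (∑ i ∈ Finset.range (zid L.ps dp L.lo c).len,
      cf (a / 4 ^ i % 4) • if i < (inner c dp L.lo).length then
        Pi.single (L.ps (getL ie0 (inner c dp L.lo) i)) 1 else (0 : V)) (L.ps e) =
      cs (inner c dp L.lo) a fun z => if z.i = e.i ∧ z.ex = e.ex then 1 else 0 := by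
    rw [(r1_zid L.ps dp L.lo c).1, Finset.sum_apply]
    refine Finset.sum_congr rfl fun i hi => ?_
    rw [if_pos (Finset.mem_range.1 hi), Pi.smul_apply, Pi.single_apply]
    exact congrArg _ (if_congr ⟨fun h => IE.eq_iff.1 (hL.inj _ _ he
      (h1 c hc _ (getL_mem _ (Finset.mem_range.1 hi))).1 h).symm, fun h => by rw [IE.eq_iff.2 h]⟩
      rfl rfl)
  rw [xS, if_pos (by omega), Finset.sum_apply, Finset.sum_eq_single k1, h2 _ (by omega),
    XF_kk _ _ _ (by omega), coeff_xval, inner_append, inner_append, cs_append, cs_append,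
    cs_eq_zero (l := inner _ d0 _), cs_eq_zero (l := inner _ d2 _), zero_add, add_zero, offI_eq,
    pow_mul, zero_add, ← hlo, show x.c + k1 + 4 * k2 + 13 * k3 + 40 * k4 =
      x.c + 40 * k4 + 13 * k3 + 4 * k2 + k1 by omega]
  · rfl
  · intro z hz
    have := (mem_inner z hz).1
    have := he.2.1
    rw [if_neg fun h => by simp only [List.length_append] at *; omega]
  · intro z hz
    have := (mem_inner z hz).2.1
    have := he.1
    rw [if_neg fun h => by omega]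
  · intro k hk h
    have h3 := (lt_cnt (by norm_num)).1 (Finset.mem_range.1 hk)
    rw [h2 _ (by omega), cs_eq_zero]
    intro z hz
    have := (h1 _ (by omega) z hz).2
    exact if_neg fun h => by rw [IE.eq_iff.2 h] at this; omega
  · exact fun h => absurd (Finset.mem_range.2 ((lt_cnt (by norm_num)).2 (by omega))) h

/-- **The check of the values on the monomials.** -/
theorem m3_of_chkU {d0 dp d2 : List ℕ} (hlo : L.lo = d0.length)
    (hhi : L.hi = d0.length + dp.length)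
    (hgd : ∀ i, L.lo ≤ i → i < L.hi → L.gd i = getL 0 dp (i - L.lo)) {xs : List XD} {us : A4}
    (hw : wf4 us = true) (h : chkU L.C L.ps (d0 ++ dp ++ d2) d0 dp L.lo xs us = true) {i : ℕ}
    (hi : i < xs.length) :
    L.M3 (val4 us i) xs[i].c fun g => ofX (XF L.C.T (d0 ++ dp ++ d2) xs[i] g) := by
  obtain ⟨w, h1, h2⟩ := m3_xarr hL (d2 := d2) hlo hhi hgd xs[i]
  have hT : Tri tauL := by decide +kernel
  have h3 := (LD.P4.st4 hL ⟨_, R4.single h1, h2.single 1⟩ (ht.2.1 3 (by norm_num)) hT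
    (hom_tauL 3 (by norm_num))).st3 hL (ht.2.1 2 (by norm_num)) hT
    (hom_tauL 2 (by norm_num))
  obtain ⟨z, h4, h5⟩ := (LD.P4.hd (m := 1) (by simpa only [one_mul] using h3)).of_box hL
    (Y' := fun g => ofX (XF L.C.T (d0 ++ dp ++ d2) xs[i] g)) fun g k1 h1 k2 h2 k3 h3 k4 h4 => by
      have := vl_ofX three_W C (vmk X) (XF L.C.T (d0 ++ dp ++ d2) xs[i] g) h1 h2 h3 h4
      simpa only [vl_univ, vmk_univ, allSteps, show tauL 0 = [] from rfl,
        show tauL 1 = [] from rfl, steps_nil] using this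
  exact h5.of_cut hL (chk3_sound _ _ h4 (wf4_sound hw i) (chkU_sound _ _ _ _ _ _ h i hi))

/-- **The check that the composite vanishes.** -/
theorem coeff_of_chkQ {ds : List ℕ} {us : A4} {u : S4} (hu : R4 us u) {y : ℕ → ℕ → Fn3}
    (hy : ∀ i < ds.length, L.M3 (u i) (getL 0 ds i) (y i)) {xs : List XD}
    (h : chkQ L.C L.g1 ds us xs = true) {x : XD} (hx : x ∈ xs) : L.M3 0 x.c fun g =>
      ∑ i ∈ Finset.range ds.length, conv 3 (y i g) (ofX (XF L.C.T ds x i)) := by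
  obtain ⟨z, h1, h2⟩ := p3_lev0 hL ht (fun _ => rfl) (x := x.x) (c := x.c) (w := wdI ds)
    (R := fun f1 f2 f3 f4 g => ∑ i ∈ Finset.range ds.length,
      zf (y i g) (XF L.C.T ds x i (kk f1 f2 f3 f4))) fun f1 f2 f3 f4 hf => by
    simp only [XF_kk ds x _ hf]
    exact p3_node hL ht hu hy _ _
  exact (h2.of_cut hL (chk3_sound _ _ h1 r3_nil ((chkQ_iff _ _ _ _ _).1 h x hx))).of_eq rfl
    fun g => sum_conv_ofX _ _ _ fun i _ => box_XF hL.T_lt ds x i

end checks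

/-! ### the conditions on the resolution -/

/-- The layout `L` describes the generators `dp` of the stage with degrees `d0 ++ dp ++ d2`. -/
structure LD.Part (L : LD) (T : ℕ) (ds d0 dp : List ℕ) : Prop where
  T_eq : L.C.T = T
  ds_eq : ∃ d2, ds = d0 ++ dp ++ d2
  lo_eq : L.lo = d0.length
  hi_eq : L.hi = d0.length + dp.length
  gd_eq : ∀ i, L.lo ≤ i → i < L.hi → L.gd i = getL 0 ds i

theorem LD.Part.hi_le {T : ℕ} {ds d0 dp : List ℕ} (h : L.Part T ds d0 dp) : L.hi ≤ ds.length := by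
  obtain ⟨d2, rfl⟩ := h.ds_eq
  simp only [h.hi_eq, List.length_append]
  omega

theorem RD.a_pos (D : RD) {j i' i : ℕ} (h : i < (D.xs j).length) (h' : i' < (D.ds (j + 1)).length) :
    D.a j i' i = ofX (XF D.T (D.ds (j + 1)) (getL xd0 (D.xs j) i) i') := if_pos ⟨h, h'⟩

theorem RD.a_neg (D : RD) {j i' i : ℕ} (h : i < (D.xs j).length → ¬i' < (D.ds (j + 1)).length) :
    D.a j i' i = 0 := if_neg fun h' => h h'.1 h'.2

variable {D : RD}

/-- **The literal arrays represent the maps of the resolution.** -/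
theorem m3_a (hD : D.Ok) (hL : L.Good tb) (ht : TbOK tb) {j : ℕ} {d0 dp : List ℕ}
    (hp : L.Part D.T (D.ds (j + 1)) d0 dp) {us : A4} (hw : wf4 us = true)
    (h : chkU L.C L.ps (D.ds (j + 1)) d0 dp L.lo (D.xs j) us = true) {i : ℕ}
    (hi : i < (D.xs j).length) :
    L.M3 (val4 us i) (getL 0 (D.ds j) i) fun g => D.a j g i := by
  obtain ⟨d2, h1⟩ := hp.ds_eq
  have h2 := hp.hi_le
  have h3 : getL xd0 (D.xs j) i = (D.xs j)[i] := by rw [getL_eq, List.getD_eq_getElem _ _ hi]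
  have h4 := m3_of_chkU hL ht hp.lo_eq hp.hi_eq (fun i h5 h6 => by
    have := hp.lo_eq
    have := hp.hi_eq
    rw [hp.gd_eq i h5 h6, h1, getL_eq, getL_eq, List.getD_append _ _ _ _ (by simp; omega),
      List.getD_append_right _ _ _ _ (by omega), hp.lo_eq]) hw (h1 ▸ h) hi
  intro e he k1 k2 k3 k4 hk
  rw [h4 e he k1 k2 k3 k4 (by rwa [← h3, (hD.xc j i hi).2])]
  beta_reduce
  rw [D.a_pos hi (he.2.1.trans_le h2), h3, h1, hp.T_eq]

/-- the condition `Q` for the generators `lo ≤ g'' < hi` -/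
def RD.QP (D : RD) (hD : D.Ok) (j lo hi : ℕ) : Prop :=
  ∀ g'' g : Fin 64, lo ≤ g'' → g'' < hi → ∀ E, wE 3 E + (mkRes D hD).deg j g ≤ 2 * D.T →
    ∑ g', conv 3 ((mkRes D hD).a (j + 1) g'' g') ((mkRes D hD).a j g' g) E ∈
      Ideal.span {(X 0 : W) ^ 6}

theorem conv_zero (y : Fn3) : conv 3 y 0 = 0 := by
  simpa using conv_sum (∅ : Finset ℕ) y fun _ => 0

theorem zero_conv (y : Fn3) : conv 3 0 y = 0 := by
  simpa using sum_conv (∅ : Finset ℕ) (fun _ => 0) y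

theorem qp_of_m3 (hD : D.Ok) {j : ℕ} {d0 dp : List ℕ} (hp : L.Part D.T (D.ds (j + 2)) d0 dp)
    (hm : ∀ x ∈ D.xs j, L.M3 0 x.c fun g => ∑ i ∈ Finset.range (D.ds (j + 1)).length,
      conv 3 (D.a (j + 1) g i) (ofX (XF L.C.T (D.ds (j + 1)) x i))) : D.QP hD j L.lo L.hi := by
  intro g'' g h1 h2 E hE
  have hT := hD.T_lt
  have h3 := hp.hi_le
  by_cases hg : (g : ℕ) < (D.xs j).length
  swap
  · rw [Finset.sum_eq_zero fun g' _ => by
      rw [mkRes_a D hD j, D.a_neg fun h => absurd h hg, conv_zero, Pi.zero_apply]]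
    exact zero_mem _
  have h4 := hm _ (getL_mem xd0 hg)
  have h5 : ∑ g', conv 3 ((mkRes D hD).a (j + 1) g'' g') ((mkRes D hD).a j g' g) =
      ∑ i ∈ Finset.range (D.ds (j + 1)).length, conv 3 (D.a (j + 1) g'' i)
        (ofX (XF L.C.T (D.ds (j + 1)) (getL xd0 (D.xs j) g) i)) := by
    rw [show (∑ g', conv 3 ((mkRes D hD).a (j + 1) g'' g') ((mkRes D hD).a j g' g)) = _ from
      Fin.sum_univ_eq_sum_range (fun i => conv 3 (D.a (j + 1) g'' i) (D.a j i g)) 64,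
      ← Finset.sum_subset (Finset.range_mono (hD.len (j + 1))) fun i _ hi => by
        rw [D.a_neg (j := j) fun _ h => hi (Finset.mem_range.2 h), conv_zero]]
    exact Finset.sum_congr rfl fun i hi => by
      rw [D.a_pos hg (Finset.mem_range.1 hi), hp.T_eq]
  have h6 : FW 3 (((mkRes D hD).deg (j + 2) g'' : ℤ) - (mkRes D hD).deg j g)
      (∑ g', conv 3 ((mkRes D hD).a (j + 1) g'' g') ((mkRes D hD).a j g' g)) :=
    FW.sum fun g' _ => by
      simpa only [sub_add_sub_cancel] using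
        ((mkRes D hD).hom (j + 1) g'' g').conv 3 ((mkRes D hD).hom j g' g)
  rw [← Finset.sum_apply, X_pow_eq_monomial, ← Set.image_singleton (f := fun s => monomial s 1),
    mem_ideal_span_monomial_image]
  intro α hα
  refine ⟨_, rfl, Finsupp.single_le_iff.2 (not_lt.1 fun h7 => mem_support_iff.1 hα ?_)⟩
  have h8 := h6 E α (mem_support_iff.1 hα)
  rw [mkRes_deg, mkRes_deg, getL_lt 1000 0 (h2.trans_le h3), getL_lt 1000 0 (hD.xc j g hg).1,
    ← (hD.xc j g hg).2, ← hp.gd_eq _ h1 h2] at h8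
  rw [mkRes_deg, getL_lt 1000 0 (hD.xc j g hg).1, ← (hD.xc j g hg).2] at hE
  have h9 := exists_kk (E := E) (by omega)
  have h10 := exists_kk (E := α) (by omega)
  rw [h9, h10, wE_kk, wE_kk] at h8
  rw [h9, wE_kk] at hE
  have h11 := hp.T_eq
  rw [h5, h9, h10]
  exact (h4 ⟨g'', α 0, α 1, α 2, α 3⟩ ⟨h1, h2, h7, by simp only [LD.D, IE.wt]; omega⟩ _ _ _ _
    (by simp only [LD.D, IE.wt]; omega)).symm

/-- **The checks for one part of the generators.** -/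
theorem qp_of_chk (hD : D.Ok) (hL : L.Good tb) (ht : TbOK tb) {j : ℕ} {d0 dp : List ℕ}
    (hp : L.Part D.T (D.ds (j + 2)) d0 dp) {us : A4} (hw : wf4 us = true)
    (hl : (D.ds (j + 1)).length ≤ (D.xs (j + 1)).length)
    (hU : chkU L.C L.ps (D.ds (j + 2)) d0 dp L.lo (D.xs (j + 1)) us = true)
    (hQ : chkQ L.C L.g1 (D.ds (j + 1)) us (D.xs j) = true) : D.QP hD j L.lo L.hi :=
  qp_of_m3 hD hp fun _ hx => coeff_of_chkQ hL ht (wf4_sound hw)
    (fun _ hi => m3_a hD hL ht hp hw hU (hi.trans_le hl)) hQ hx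

theorem RD.QP.trans {hD : D.Ok} {j a b c : ℕ} (h : D.QP hD j a b) (h' : D.QP hD j b c) :
    D.QP hD j a c := fun g'' g h1 h2 =>
  (lt_or_ge (g'' : ℕ) b).elim (h g'' g h1) fun h3 => h' g'' g h3 h2

/-- **The condition `Q`.** -/
theorem RD.QP.q {hD : D.Ok} {j n : ℕ} (h : D.QP hD j 0 n) (hn : (D.ds (j + 2)).length ≤ n) :
    (mkRes D hD).Q 6 j (2 * D.T) := fun g'' g E hE => by
  by_cases h1 : (g'' : ℕ) < n
  · exact h g'' g (Nat.zero_le _) h1 E hE
  · rw [Finset.sum_eq_zero fun g' _ => by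
      rw [mkRes_a D hD (j + 1), D.a_neg fun _ h => h1 (h.trans_le hn), zero_conv, Pi.zero_apply]]
    exact zero_mem _

end Vale.Agent.P236C

end
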