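import Vale.Agent.P236C.Exec
import Mathlib.Data.ZMod.Basic
import Mathlib.Data.Nat.Bitwise
import Mathlib.Algebra.BigOperators.Group.List.Basic
import Mathlib.Algebra.BigOperators.Intervals
import Mathlib.Algebra.Module.Pi
import Mathlib.Tactic

/-!
# P236C: the values of rows, vectors and arrays

`tv a b` is the vector over `F₃` with the two bit planes `a`, `b`.  Every function of the engine is
described by a function on values.
-/

noncomputable section

namespace Vale.Agent.P236C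

/-! ### control structures -/

@[simp] theorem frc_eq {β : Type} (a : ℕ) (k : ℕ → β) : frc a k = k a := by cases a <;> rfl

@[simp] theorem getL_nil {α : Type} (d : α) (i : ℕ) : getL d [] i = d := rfl

@[simp] theorem getL_zero {α : Type} (d a : α) (l : List α) : getL d (a :: l) 0 = a := rfl

@[simp] theorem getL_succ {α : Type} (d a : α) (l : List α) (i : ℕ) :
    getL d (a :: l) (i + 1) = getL d l i := rfl

theorem getL_eq {α : Type} (d : α) (l : List α) (i : ℕ) : getL d l i = l.getD i d := by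
  induction l generalizing i with
  | nil => simp
  | cons a l ih => cases i <;> simp [ih]

theorem getL_of_le {α : Type} (d : α) {l : List α} {i : ℕ} (h : l.length ≤ i) : getL d l i = d := by
  rw [getL_eq, List.getD_eq_default _ _ h]

theorem foldN_zero {β : Type} (f : ℕ → β → β) (b : β) : foldN 0 f b = b := rfl

theorem foldN_succ {β : Type} (n : ℕ) (f : ℕ → β → β) (b : β) :
    foldN (n + 1) f b = foldN n f (f n b) := rfl

theorem tabN_eq {α : Type} (n : ℕ) (f : ℕ → α) : tabN n f = (List.range n).map f := by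
  have h : ∀ l : List α, Nat.rec (motive := fun _ => List α → List α) (fun l => l)
      (fun i ih l => ih (f i :: l)) n l = (List.range n).map f ++ l := by
    induction n with
    | zero => intro l; rfl
    | succ n ih =>
      intro l
      rw [List.range_succ, List.map_append, List.append_assoc]
      exact ih (f n :: l)
  rw [tabN, h, List.append_nil]

theorem length_tabN {α : Type} (n : ℕ) (f : ℕ → α) : (tabN n f).length = n := by simp [tabN_eq]

theorem getL_tabN {α : Type} (d : α) (n : ℕ) (f : ℕ → α) (i : ℕ) :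
    getL d (tabN n f) i = if i < n then f i else d := by
  rw [getL_eq, tabN_eq]
  split_ifs with h
  · rw [List.getD_eq_getElem _ _ (by simpa using h)]
    simp
  · rw [List.getD_eq_default _ _ (by simpa using h)]

theorem allN_iff (n : ℕ) (f : ℕ → Bool) : allN n f = true ↔ ∀ i < n, f i = true := by
  induction n with
  | zero => simp [allN]
  | succ n ih =>
    have h : allN (n + 1) f = Bool.rec false (allN n f) (f n) := rfl
    rw [h, Nat.forall_lt_succ_right, ← ih]
    cases f n <;> simp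

theorem lt_cnt {T d c i : ℕ} (hd : 0 < d) : i < cnt T d c ↔ c + d * i ≤ T := by
  change i < (T + d - c) / d ↔ _
  rw [Nat.lt_iff_add_one_le, Nat.le_div_iff_mul_le hd, add_mul, one_mul, mul_comm]
  omega

theorem sumN_eq (n : ℕ) (f : ℕ → ℕ) : sumN n f = ∑ i ∈ Finset.range n, f i := by
  induction n with
  | zero => rfl
  | succ n ih => rw [Finset.sum_range_succ, ← ih]; rfl

theorem str4_eq (T : ℕ) (f : ℕ → ℕ) (c : ℕ) :
    str4 T f c = tabN (cnt T 4 c) fun i => f (c + 4 * i) := by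
  change Nat.rec (motive := fun _ => ℕ → List ℕ) (fun _ => [])
    (fun _ ih x => f x :: frc (x + 4) ih) (cnt T 4 c) c = _
  rw [tabN_eq]
  generalize cnt T 4 c = n
  induction n generalizing c with
  | zero => rfl
  | succ n ih =>
    rw [List.range_succ_eq_map, List.map_cons, List.map_map]
    refine congrArg₂ _ rfl ((frc_eq _ _).trans ((ih _).trans ?_))
    exact List.map_congr_left fun i _ => congrArg f (by simp only [Nat.succ_eq_add_one]; omega)

theorem getL_str4 (T : ℕ) (f : ℕ → ℕ) (c i : ℕ) :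
    getL 0 (str4 T f c) i = if c + 4 * i ≤ T then f (c + 4 * i) else 0 := by
  rw [str4_eq, getL_tabN]
  exact if_congr (lt_cnt (by decide)) rfl rfl

theorem bar_eq (k : A4 → A3) (a : A4) : bar k a = k a := by
  unfold bar
  cases walkL (walkL (walkL walkV)) a <;> rfl

theorem fin_eq (a b : ℕ) : fin a b = Row.mk a b := by
  unfold fin
  cases h : Nat.beq a b
  · rfl
  · rw [Nat.eq_of_beq_eq_true h]

theorem hdL_eq (l : A4) : hdL l = getL [] l 0 := by cases l <;> rfl

theorem getL_tlL (l : A4) (i : ℕ) : getL [] (tlL l) i = getL [] l (i + 1) := by cases l <;> rfl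

/-! ### rows -/

/-- values of rows -/
abbrev V : Type := ℕ → ZMod 3

/-- the vector with the bit planes `a` and `b` -/
def tv (a b : ℕ) : V := fun p => (if a.testBit p then 1 else 0) - (if b.testBit p then 1 else 0)

/-- the planes are disjoint -/
def wf (a b : ℕ) : Prop := ∀ p, ¬(a.testBit p = true ∧ b.testBit p = true)

theorem wf_iff {a b : ℕ} : wf a b ↔ a &&& b = 0 := by
  constructor
  · intro h
    exact Nat.eq_of_testBit_eq fun k => by simpa using h k
  · intro h k hk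
    have := congrArg (·.testBit k) h
    simp [hk.1, hk.2] at this

theorem wf_zero : wf 0 0 := fun p => by simp

theorem wf_zero_right (a : ℕ) : wf a 0 := fun p => by simp

@[simp] theorem tv_zero : tv 0 0 = 0 := funext fun p => by simp [tv]

theorem wf.symm {a b : ℕ} (h : wf a b) : wf b a := fun p hp => h p hp.symm

theorem tv_swap (a b : ℕ) : tv b a = -tv a b := funext fun _ => (neg_sub _ _).symm

theorem wf_ad {a1 a2 c1 c2 : ℕ} (ha : wf a1 a2) (hc : wf c1 c2) :
    wf (ad1 a1 a2 c1 c2) (ad2 a1 a2 c1 c2) := fun p => by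
  have h1 := ha p
  have h2 := hc p
  simp only [ad1, ad2, Nat.xor_eq, Nat.lor_eq, Nat.testBit_xor, Nat.testBit_or]
  revert h1 h2
  cases a1.testBit p <;> cases a2.testBit p <;> cases c1.testBit p <;> cases c2.testBit p <;> simp

theorem tv_ad {a1 a2 c1 c2 : ℕ} (ha : wf a1 a2) (hc : wf c1 c2) :
    tv (ad1 a1 a2 c1 c2) (ad2 a1 a2 c1 c2) = tv a1 a2 + tv c1 c2 := funext fun p => by
  have h1 := ha p
  have h2 := hc p
  simp only [tv, ad1, ad2, Nat.xor_eq, Nat.lor_eq, Nat.testBit_xor, Nat.testBit_or, Pi.add_apply]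
  revert h1 h2
  cases a1.testBit p <;> cases a2.testBit p <;> cases c1.testBit p <;> cases c2.testBit p <;>
    decide

/-- restriction to a mask -/
def mk (m : ℕ) : V →ₗ[ZMod 3] V where
  toFun v p := if m.testBit p then v p else 0
  map_add' v w := funext fun p => by by_cases h : m.testBit p <;> simp [h]
  map_smul' c v := funext fun p => by by_cases h : m.testBit p <;> simp [h]

theorem mk_apply (m : ℕ) (v : V) (p : ℕ) : mk m v p = if m.testBit p then v p else 0 := rfl

@[simp] theorem mk_zero (v : V) : mk 0 v = 0 := funext fun p => by simp [mk_apply]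

/-- shift to the left -/
def shl (s : ℕ) : V →ₗ[ZMod 3] V where
  toFun v p := if s ≤ p then v (p - s) else 0
  map_add' v w := funext fun p => by by_cases h : s ≤ p <;> simp [h]
  map_smul' c v := funext fun p => by by_cases h : s ≤ p <;> simp [h]

theorem shl_apply (s : ℕ) (v : V) (p : ℕ) : shl s v p = if s ≤ p then v (p - s) else 0 := rfl

/-- shift to the right -/
def shr (s : ℕ) : V →ₗ[ZMod 3] V where
  toFun v p := v (s + p)
  map_add' _ _ := rfl
  map_smul' _ _ := rfl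

theorem shr_apply (s : ℕ) (v : V) (p : ℕ) : shr s v p = v (s + p) := rfl

theorem wf.land {a b : ℕ} (h : wf a b) (m : ℕ) : wf (Nat.land a m) (Nat.land b m) := fun p hp => by
  simp only [Nat.land_eq, Nat.testBit_and, Bool.and_eq_true] at hp
  exact h p ⟨hp.1.1, hp.2.1⟩

theorem tv_land (a b m : ℕ) : tv (Nat.land a m) (Nat.land b m) = mk m (tv a b) := funext fun p => by
  by_cases h : m.testBit p <;> simp [tv, mk_apply, h]

theorem wf.shiftLeft {a b : ℕ} (h : wf a b) (s : ℕ) :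
    wf (Nat.shiftLeft a s) (Nat.shiftLeft b s) := fun p hp => by
  simp only [Nat.shiftLeft_eq', Nat.testBit_shiftLeft, Bool.and_eq_true] at hp
  exact h _ ⟨hp.1.2, hp.2.2⟩

theorem tv_shiftLeft (a b s : ℕ) :
    tv (Nat.shiftLeft a s) (Nat.shiftLeft b s) = shl s (tv a b) := funext fun p => by
  by_cases h : s ≤ p <;> simp [tv, shl_apply, Nat.testBit_shiftLeft, h]

theorem wf.shiftRight {a b : ℕ} (h : wf a b) (s : ℕ) :
    wf (Nat.shiftRight a s) (Nat.shiftRight b s) := fun p hp => h (s + p) (by simpa using hp)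

theorem tv_shiftRight (a b s : ℕ) :
    tv (Nat.shiftRight a s) (Nat.shiftRight b s) = shr s (tv a b) := funext fun p => by
  simp [tv, shr_apply]

/-- The pair `(f, g)` computes the linear map `φ` on rows. -/
def RM (f g : ℕ → ℕ → ℕ) (φ : V →ₗ[ZMod 3] V) : Prop :=
  ∀ a b, wf a b → wf (f a b) (g a b) ∧ tv (f a b) (g a b) = φ (tv a b)

theorem rm_id : RM (fun a _ => a) (fun _ b => b) LinearMap.id := fun _ _ h => ⟨h, rfl⟩

theorem RM.neg {f g : ℕ → ℕ → ℕ} {φ : V →ₗ[ZMod 3] V} (h : RM f g φ) : RM g f (-φ) :=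
  fun a b hab => ⟨(h a b hab).1.symm, by rw [tv_swap, (h a b hab).2]; rfl⟩

theorem rm_shl (s m : ℕ) : RM (fun a _ => Nat.land (Nat.shiftLeft a s) m)
    (fun _ b => Nat.land (Nat.shiftLeft b s) m) (mk m ∘ₗ shl s) :=
  fun a b h => ⟨(h.shiftLeft s).land m, by rw [tv_land, tv_shiftLeft]; rfl⟩

theorem rm_shr (s m : ℕ) : RM (fun a _ => Nat.land (Nat.shiftRight a s) m)
    (fun _ b => Nat.land (Nat.shiftRight b s) m) (mk m ∘ₗ shr s) :=
  fun a b h => ⟨(h.shiftRight s).land m, by rw [tv_land, tv_shiftRight]; rfl⟩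

/-! ### vectors -/

/-- the values of a vector -/
def RL.val : RL → ℕ → V
  | .nil, _ => 0
  | .cons a b _, 0 => tv a b
  | .cons _ _ t, k + 1 => t.val k

/-- all rows have disjoint planes -/
def RL.WF : RL → Prop
  | .nil => True
  | .cons a b t => wf a b ∧ t.WF

/-- the number of rows -/
def RL.len : RL → ℕ
  | .nil => 0
  | .cons _ _ t => t.len + 1

/-- `l` has the values `x`. -/
def R1 (l : RL) (x : ℕ → V) : Prop := l.WF ∧ l.val = x

theorem r1_nil : R1 .nil 0 := ⟨trivial, funext fun _ => rfl⟩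

theorem R1.of_eq {l : RL} {x y : ℕ → V} (h : R1 l x) (e : ∀ k, x k = y k) : R1 l y :=
  ⟨h.1, h.2.trans (funext e)⟩

theorem R1.cons {a b : ℕ} {t : RL} {x : ℕ → V} (h : wf a b) (h0 : tv a b = x 0)
    (ht : R1 t fun k => x (k + 1)) : R1 (.cons a b t) x :=
  ⟨⟨h, ht.1⟩, funext fun k => by
    cases k with
    | zero => exact h0
    | succ k => exact congrFun ht.2 k⟩

theorem R1.head {a b : ℕ} {t : RL} {x : ℕ → V} (h : R1 (.cons a b t) x) :
    wf a b ∧ tv a b = x 0 := ⟨h.1.1, congrFun h.2 0⟩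

theorem R1.tail {a b : ℕ} {t : RL} {x : ℕ → V} (h : R1 (.cons a b t) x) :
    R1 t fun k => x (k + 1) := ⟨h.1.2, funext fun k => congrFun h.2 (k + 1)⟩

theorem R1.nil_eq {x : ℕ → V} (h : R1 .nil x) (k : ℕ) : x k = 0 := (congrFun h.2 k).symm

theorem R1.tlR {l : RL} {x : ℕ → V} (h : R1 l x) : R1 (tlR l) fun k => x (k + 1) := by
  cases l with
  | nil => exact r1_nil.of_eq fun k => (h.nil_eq _).symm
  | cons a b t => exact h.tail

theorem R1.dropR {l : RL} {x : ℕ → V} (h : R1 l x) (n : ℕ) :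
    R1 (dropR n l) fun k => x (k + n) := by
  induction n generalizing l x with
  | zero => exact h
  | succ n ih => exact ih h.tlR

theorem R1.unR {β : Type} {l : RL} {x : ℕ → V} (h : R1 l x) (k : ℕ → ℕ → RL → β) :
    ∃ a b t, unR l k = k a b t ∧ wf a b ∧ tv a b = x 0 ∧ R1 t fun i => x (i + 1) := by
  cases l with
  | nil => exact ⟨0, 0, .nil, rfl, wf_zero, by rw [h.nil_eq, tv_zero],
      r1_nil.of_eq fun k => (h.nil_eq _).symm⟩
  | cons a b t => exact ⟨a, b, t, rfl, h.head.1, h.head.2, h.tail⟩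

variable {f g : ℕ → ℕ → ℕ} {φ : V →ₗ[ZMod 3] V}

theorem R1.vmap (hf : RM f g φ) {s : RL} {y : ℕ → V} (h : R1 s y) :
    R1 (vmap f g s) fun k => φ (y k) := by
  induction s generalizing y with
  | nil => exact r1_nil.of_eq fun k => by rw [h.nil_eq, map_zero]; rfl
  | cons a b t ih =>
    exact R1.cons (hf a b h.head.1).1 (by rw [(hf a b h.head.1).2, h.head.2]) (ih h.tail)

theorem R1.vz (hf : RM f g φ) {l s : RL} {x y : ℕ → V} (hl : R1 l x) (h : R1 s y) :
    R1 (vz f g l s) fun k => x k + φ (y k) := by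
  induction l generalizing s x y with
  | nil => exact (h.vmap hf).of_eq fun k => by rw [hl.nil_eq, zero_add]
  | cons a1 a2 t ih =>
    cases s with
    | nil => exact hl.of_eq fun k => by rw [h.nil_eq, map_zero, add_zero]
    | cons b1 b2 u =>
      have h1 := hf b1 b2 h.head.1
      exact R1.cons (wf_ad hl.head.1 h1.1)
        ((tv_ad hl.head.1 h1.1).trans (by rw [h1.2, hl.head.2, h.head.2])) (ih hl.tail h.tail)

theorem R1.vad {l s : RL} {x y : ℕ → V} (hl : R1 l x) (h : R1 s y) :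
    R1 (vad l s) fun k => x k + y k := by
  induction l generalizing s x y with
  | nil => exact h.of_eq fun k => by rw [hl.nil_eq, zero_add]
  | cons a1 a2 t ih =>
    cases s with
    | nil => exact hl.of_eq fun k => by rw [h.nil_eq, add_zero]
    | cons b1 b2 u =>
      exact R1.cons (wf_ad hl.head.1 h.head.1)
        ((tv_ad hl.head.1 h.head.1).trans (by rw [hl.head.2, h.head.2])) (ih hl.tail h.tail)

theorem R1.vsb {l s : RL} {x y : ℕ → V} (hl : R1 l x) (h : R1 s y) :
    R1 (vsb l s) fun k => x k - y k := by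
  induction l generalizing s x y with
  | nil => exact (h.vmap rm_id.neg).of_eq fun k => by rw [hl.nil_eq, zero_sub]; rfl
  | cons a1 a2 t ih =>
    cases s with
    | nil => exact hl.of_eq fun k => by rw [h.nil_eq, sub_zero]
    | cons b1 b2 u =>
      exact R1.cons (wf_ad hl.head.1 h.head.1.symm)
        ((tv_ad hl.head.1 h.head.1.symm).trans (by
          rw [tv_swap b1, hl.head.2, h.head.2, sub_eq_add_neg])) (ih hl.tail h.tail)

theorem R1.vtr (ms : List ℕ) {s : RL} {y : ℕ → V} (h : R1 s y) :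
    R1 (vtr ms s) fun k => mk (getL 0 ms k) (y k) := by
  induction ms generalizing s y with
  | nil => exact r1_nil.of_eq fun k => by simp
  | cons m ms ih =>
    cases s with
    | nil => exact r1_nil.of_eq fun k => by rw [h.nil_eq, map_zero]; rfl
    | cons a b u =>
      have e : P236C.vtr (m :: ms) (.cons a b u) =
          .cons (Nat.land a m) (Nat.land b m) (P236C.vtr ms u) := by
        change (Bool.rec (RL.cons (Nat.land a m) (Nat.land b m) (P236C.vtr ms u))
          (RL.cons (Nat.land a m) (Nat.land a m) (P236C.vtr ms u))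
          (Nat.beq (Nat.land a m) (Nat.land b m)) : RL) = _
        cases h' : Nat.beq (Nat.land a m) (Nat.land b m)
        · rfl
        · rw [← Nat.eq_of_beq_eq_true h']
      rw [e]
      exact R1.cons (h.head.1.land m) (by rw [tv_land, h.head.2]; rfl) (ih h.tail)

/-- `v₀ + k v₁ + (k choose 2) v₂` -/
def cK {β : Type} [AddCommGroup β] (k : ℕ) (v0 v1 v2 : β) : β :=
  if k = 0 then v0 else if k = 1 then v0 + v1 else v0 - v1 + v2

theorem cK_apply {β ι : Type} [AddCommGroup β] (k : ℕ) (v0 v1 v2 : ι → β) (i : ι) :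
    cK k v0 v1 v2 i = cK k (v0 i) (v1 i) (v2 i) := by
  unfold cK
  split_ifs <;> rfl

/-- the values of a digit step -/
def Pat.sem {β : Type} [AddCommGroup β] : Pat → (ℕ → β) → (ℕ → β) → (ℕ → β) → ℕ → β
  | .nil, x0, _, _, k => x0 k
  | .a _, x0, _, _, 0 => x0 0
  | .a t, x0, x1, x2, k + 1 => t.sem (fun i => x0 (i + 1)) x1 x2 k
  | .b _, x0, x1, _, 0 => x0 0 + x1 0
  | .b t, x0, x1, x2, k + 1 => t.sem (fun i => x0 (i + 1)) (fun i => x1 (i + 1)) x2 k
  | .c _, x0, x1, x2, 0 => x0 0 - x1 0 + x2 0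
  | .c t, x0, x1, x2, k + 1 =>
    t.sem (fun i => x0 (i + 1)) (fun i => x1 (i + 1)) (fun i => x2 (i + 1)) k
  | .d _, x0, _, _, 0 => x0 0
  | .d t, x0, x1, x2, k + 1 =>
    t.sem (fun i => x0 (i + 1)) (fun i => x1 (i + 1)) (fun i => x2 (i + 1)) k
  | .e _, x0, x1, _, 0 => x0 0 + x1 0
  | .e t, x0, x1, x2, k + 1 =>
    t.sem (fun i => x0 (i + 1)) (fun i => x1 (i + 1)) (fun i => x2 (i + 1)) k

theorem Pat.sem_zero {β : Type} [AddCommGroup β] (p : Pat) (x : ℕ → β) : p.sem x 0 0 = x := by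
  funext k
  induction p generalizing x k with
  | nil => rfl
  | a t ih | d t ih =>
    cases k
    · rfl
    · exact ih _ _
  | b t ih | e t ih =>
    cases k
    · exact add_zero _
    · exact ih _ _
  | c t ih =>
    cases k
    · exact (add_zero _).trans (sub_zero _)
    · exact ih _ _

/-- The pattern `p` describes the digit with value `q`. -/
def Pat.Ok (p : Pat) (q : ℕ) : Prop := ∀ (β : Type) [AddCommGroup β] (x0 x1 x2 : ℕ → β), ∀ k < 27,
  p.sem x0 x1 x2 k = cK (k / q % 3) (x0 k) (x1 (k - q)) (x2 (k - (q + q)))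

theorem pat1_ok : pat1.Ok 1 := fun _ _ x0 x1 x2 k hk => by interval_cases k <;> rfl

theorem pat3_ok : pat3.Ok 3 := fun _ _ x0 x1 x2 k hk => by interval_cases k <;> rfl

theorem pat9_ok : pat9.Ok 9 := fun _ _ x0 x1 x2 k hk => by interval_cases k <;> rfl

theorem R1.nil_eq' {x : ℕ → V} (h : R1 .nil x) : x = 0 := funext h.nil_eq

theorem R1.cpR {v : RL} {x y : ℕ → V} (h : R1 v x) {k : RL → RL} (h0 : x 0 = y 0)
    (hk : ∀ t, (R1 t fun i => x (i + 1)) → R1 (k t) fun i => y (i + 1)) : R1 (cpR v k) y := by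
  cases v with
  | nil => exact R1.cons wf_zero (by rw [← h0, h.nil_eq, tv_zero]) (hk _ h.tlR)
  | cons a b t => exact R1.cons h.head.1 (h.head.2.trans h0) (hk _ h.tail)

theorem R1.adR {v : RL} {x y : ℕ → V} (h : R1 v x) {c1 c2 : ℕ} (hc : wf c1 c2) {k : RL → RL}
    (h0 : x 0 + tv c1 c2 = y 0)
    (hk : ∀ t, (R1 t fun i => x (i + 1)) → R1 (k t) fun i => y (i + 1)) :
    R1 (adR v c1 c2 k) y := by
  cases v with
  | nil => exact R1.cons hc (by rw [← h0, h.nil_eq, zero_add]) (hk _ h.tlR)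
  | cons a b t =>
    exact R1.cons (wf_ad h.head.1 hc) (by rw [← h0, ← h.head.2]; exact tv_ad h.head.1 hc)
      (hk _ h.tail)

theorem R1.cmbP (p : Pat) {l0 l1 l2 : RL} {x0 x1 x2 : ℕ → V} (h0 : R1 l0 x0) (h1 : R1 l1 x1)
    (h2 : R1 l2 x2) : R1 (cmbP p l0 l1 l2) (p.sem x0 x1 x2) := by
  have hz (q : Pat) {l0 : RL} {x0 x1 x2 : ℕ → V} (h0 : R1 l0 x0) (h1 : R1 .nil x1)
      (h2 : R1 .nil x2) : R1 l0 (q.sem x0 x1 x2) := by
    rw [h1.nil_eq', h2.nil_eq', Pat.sem_zero]
    exact h0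
  induction p generalizing l0 l1 l2 x0 x1 x2 with
  | nil => exact h0
  | a t ih =>
    refine h0.cpR (k := fun v => P236C.cmbP t v l1 l2) ?_ fun u hu => ih hu h1 h2
    rfl
  | b t ih =>
    rcases l1 with _ | ⟨b1, b2, u⟩
    · rcases l2 with _ | ⟨c1, c2, w⟩
      · exact hz _ h0 h1 h2
      · refine h0.cpR (k := fun v => P236C.cmbP t v .nil _) ?_ fun v hv => ih hv h1.tlR h2
        rw [Pat.sem, h1.nil_eq, add_zero]
    · refine h0.adR h1.head.1 (k := fun v => P236C.cmbP t v u l2) ?_ fun v hv => ih hv h1.tail h2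
      rw [h1.head.2, Pat.sem]
  | c t ih =>
    rcases l1 with _ | ⟨b1, b2, u⟩ <;> rcases l2 with _ | ⟨c1, c2, w⟩
    · exact hz _ h0 h1 h2
    · refine h0.adR h2.head.1 (k := fun v => P236C.cmbP t v .nil w) ?_
        fun v hv => ih hv h1.tlR h2.tail
      rw [Pat.sem, h1.nil_eq, sub_zero, h2.head.2]
    · refine h0.adR h1.head.1.symm (k := fun v => P236C.cmbP t v u .nil) ?_
        fun v hv => ih hv h1.tail h2.tlR
      rw [Pat.sem, h2.nil_eq, add_zero, tv_swap, h1.head.2, sub_eq_add_neg]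
    · refine h0.adR (wf_ad h1.head.1.symm h2.head.1) (k := fun v => P236C.cmbP t v u w) ?_
        fun v hv => ih hv h1.tail h2.tail
      rw [tv_ad h1.head.1.symm h2.head.1, Pat.sem, tv_swap b1, h1.head.2, h2.head.2,
        sub_eq_add_neg, add_assoc]
  | d t ih =>
    rcases l1 with _ | ⟨b1, b2, u⟩
    · rcases l2 with _ | ⟨c1, c2, w⟩
      · exact hz _ h0 h1 h2
      · refine h0.cpR (k := fun v => P236C.cmbP t v .nil w) ?_ fun v hv => ih hv h1.tlR h2.tail
        rfl
    · refine h0.cpR (k := fun v => P236C.cmbP t v u (P236C.tlR l2)) ?_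
        fun v hv => ih hv h1.tail h2.tlR
      rfl
  | e t ih =>
    rcases l1 with _ | ⟨b1, b2, u⟩
    · rcases l2 with _ | ⟨c1, c2, w⟩
      · exact hz _ h0 h1 h2
      · refine h0.cpR (k := fun v => P236C.cmbP t v .nil w) ?_ fun v hv => ih hv h1.tlR h2.tail
        rw [Pat.sem, h1.nil_eq, add_zero]
    · refine h0.adR h1.head.1 (k := fun v => P236C.cmbP t v u (P236C.tlR l2)) ?_
        fun v hv => ih hv h1.tail h2.tlR
      rw [h1.head.2, Pat.sem]

theorem R1.cmbV (p : Pat) {l0 l1 l2 : RL} {x0 x1 x2 : ℕ → V} (h0 : R1 l0 x0) (h1 : R1 l1 x1)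
    (h2 : R1 l2 x2) : R1 (cmbV p l0 l1 l2) (p.sem x0 x1 x2) := by
  cases l1 <;> cases l2
  · rw [h1.nil_eq', h2.nil_eq', Pat.sem_zero]
    exact h0
  all_goals exact h0.cmbP p h1 h2

/-- the first plane of a row -/
def RL.fst : RL → ℕ → ℕ
  | .nil, _ => 0
  | .cons a _ _, 0 => a
  | .cons _ _ t, k + 1 => t.fst k

/-- the second plane of a row -/
def RL.snd : RL → ℕ → ℕ
  | .nil, _ => 0
  | .cons _ b _, 0 => b
  | .cons _ _ t, k + 1 => t.snd k

theorem wf_sel {m1 m2 b1 b2 c1 c2 : ℕ} (hm : wf m1 m2) (hb : wf b1 b2) (hc : wf c1 c2) :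
    wf (Nat.lor (Nat.land b1 m1) (Nat.land c1 m2)) (Nat.lor (Nat.land b2 m1) (Nat.land c2 m2)) ∧
      tv (Nat.lor (Nat.land b1 m1) (Nat.land c1 m2)) (Nat.lor (Nat.land b2 m1) (Nat.land c2 m2)) =
        mk m1 (tv b1 b2) + mk m2 (tv c1 c2) := by
  refine ⟨fun p => ?_, funext fun p => ?_⟩ <;>
  · have h1 := hm p
    have h2 := hb p
    have h3 := hc p
    simp only [tv, mk_apply, Nat.land_eq, Nat.lor_eq, Nat.testBit_and, Nat.testBit_or, Pi.add_apply]
    revert h1 h2 h3
    cases m1.testBit p <;> cases m2.testBit p <;> cases b1.testBit p <;> cases b2.testBit p <;>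
      cases c1.testBit p <;> cases c2.testBit p <;> simp

theorem R1.cmbW {ms : RL} (hm : ms.WF) {l0 l1 l2 : RL} {x0 x1 x2 : ℕ → V} (h0 : R1 l0 x0)
    (h1 : R1 l1 x1) (h2 : R1 l2 x2) : R1 (cmbW ms l0 l1 l2) fun k =>
      x0 k + (mk (ms.fst k) (x1 k) + mk (ms.snd k) (x2 k - x1 k)) := by
  induction ms generalizing l0 l1 l2 x0 x1 x2 with
  | nil => exact h0.of_eq fun k => by simp [RL.fst, RL.snd]
  | cons m1 m2 t ih =>
    rcases l1 with _ | ⟨b1, b2, u⟩ <;> rcases l2 with _ | ⟨c1, c2, w⟩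
    · exact h0.of_eq fun k => by simp [h1.nil_eq, h2.nil_eq]
    · refine h0.adR (h2.head.1.land m2) (k := fun v => P236C.cmbW t v .nil w) ?_
        fun v hv => ih hm.2 hv h1.tlR h2.tail
      rw [tv_land, h2.head.2, h1.nil_eq, map_zero, zero_add, sub_zero]
      rfl
    · have h := wf_sel hm.1 h1.head.1 h1.head.1.symm
      refine h0.adR h.1 (k := fun v => P236C.cmbW t v u .nil) ?_
        fun v hv => ih hm.2 hv h1.tail h2.tlR
      rw [h.2, tv_swap b1, h1.head.2, h2.nil_eq, zero_sub]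
      rfl
    · have h := wf_sel hm.1 h1.head.1 (wf_ad h1.head.1.symm h2.head.1)
      refine h0.adR h.1 (k := fun v => P236C.cmbW t v u w) ?_
        fun v hv => ih hm.2 hv h1.tail h2.tail
      rw [h.2, tv_ad h1.head.1.symm h2.head.1, tv_swap b1, h1.head.2, h2.head.2, neg_add_eq_sub]
      rfl

/-! ### lists -/

section lists

variable {α β : Type} {R : α → β → Prop} {z : α}

/-- The list `l` has the values `x`. -/
def LR (R : α → β → Prop) (z : α) (l : List α) (x : ℕ → β) : Prop := ∀ i, R (getL z l i) (x i)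

theorem LR.cons {a : α} {t : List α} {x : ℕ → β} (h : R a (x 0))
    (ht : LR R z t fun i => x (i + 1)) : LR R z (a :: t) x := fun i => by
  cases i with
  | zero => exact h
  | succ i => exact ht i

theorem LR.tail {a : α} {t : List α} {x : ℕ → β} (h : LR R z (a :: t) x) :
    LR R z t fun i => x (i + 1) := fun i => h (i + 1)

theorem LR.tnil {x : ℕ → β} (h : LR R z [] x) : LR R z [] fun i => x (i + 1) := fun i => h (i + 1)

theorem LR.tl {l : List α} {x : ℕ → β} (h : LR R z l x) :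
    LR R z (List.rec [] (fun _ v _ => v) l) fun i => x (i + 1) := by
  cases l
  · exact h.tnil
  · exact h.tail

theorem LR.unL {l : List α} {x y : ℕ → β} (h : LR R z l x) {g : α → α} {k : List α → List α}
    (h0 : ∀ a, R a (x 0) → R (g a) (y 0))
    (hk : ∀ t, (LR R z t fun i => x (i + 1)) → LR R z (k t) fun i => y (i + 1)) :
    LR R z (unL z l fun a t => g a :: k t) y := by
  cases l
  · exact .cons (h0 _ (h 0)) (hk _ h.tnil)
  · exact .cons (h0 _ (h 0)) (hk _ h.tail)

theorem LR.zp2 {f : ℕ → α → α → α} {F : ℕ → β → β → β} [Zero β] (hz : ∀ x, R z x ↔ x = 0)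
    (h0 : ∀ c, F c 0 0 = 0) (hf : ∀ c a b x y, R a x → R b y → R (f c a b) (F c x y)) (d : ℕ)
    {a b : List α} {x y : ℕ → β} (ha : LR R z a x) (hb : LR R z b y) (c : ℕ) :
    LR R z (zp2 z f d a b c) fun i => F (c + d * i) (x i) (y i) := by
  have e (c i : ℕ) : c + d * (i + 1) = Nat.add c d + d * i := by
    rw [Nat.add_eq, mul_add, mul_one, add_assoc, add_comm d]
  induction a generalizing b x y c with
  | nil =>
    induction b generalizing x y c with
    | nil => exact fun i => (hz _).2 (by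
        beta_reduce; rw [(hz _).1 (ha i), (hz _).1 (hb i), h0])
    | cons v u ih =>
      refine .cons (hf _ _ _ _ _ (ha 0) (hb 0)) ?_
      simp only [e]
      exact ih ha.tnil hb.tail _
  | cons w t ih =>
    cases b <;> refine .cons (hf _ _ _ _ _ (ha 0) (hb 0)) ?_ <;> simp only [e]
    · exact ih ha.tail hb.tnil _
    · exact ih ha.tail hb.tail _

theorem LR.zp3 {f : ℕ → α → α → α → α} {F : ℕ → β → β → β → β} [Zero β]
    (hz : ∀ x, R z x ↔ x = 0) (h0 : ∀ c x, F c x 0 0 = x)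
    (hf : ∀ c a0 a1 a2 x0 x1 x2, R a0 x0 → R a1 x1 → R a2 x2 → R (f c a0 a1 a2) (F c x0 x1 x2))
    (d : ℕ) {l0 l1 l2 : List α} {x0 x1 x2 : ℕ → β} (h : LR R z l0 x0) (h1 : LR R z l1 x1)
    (h2 : LR R z l2 x2) (c : ℕ) :
    LR R z (zp3 z f d l0 l1 l2 c) fun i => F (c + d * i) (x0 i) (x1 i) (x2 i) := by
  have e (c i : ℕ) : c + d * (i + 1) = Nat.add c d + d * i := by
    rw [Nat.add_eq, mul_add, mul_one, add_assoc, add_comm d]
  induction l0 generalizing l1 l2 x0 x1 x2 c with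
  | nil =>
    have := LR.zp2 (f := fun c => f c z) (F := fun c => F c 0) hz (fun c => h0 c 0)
      (fun c a b x y => hf c z a b 0 x y ((hz _).2 rfl)) d h1 h2 c
    exact fun i => by beta_reduce; rw [(hz _).1 (h i)]; exact this i
  | cons w t ih =>
    cases l1 <;> cases l2
    · exact fun i => by beta_reduce; rw [(hz _).1 (h1 i), (hz _).1 (h2 i), h0]; exact h i
    all_goals refine .cons (hf _ _ _ _ _ _ _ (h 0) (h1 0) (h2 0)) ?_
    all_goals simp only [e]
    · exact ih h.tail h1.tnil h2.tail _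
    · exact ih h.tail h1.tail h2.tnil _
    · exact ih h.tail h1.tail h2.tail _

variable [AddCommGroup β] {ad sb : α → α → α}

theorem LR.cmbQ (hz : ∀ x, R z x ↔ x = 0) (ha : ∀ a b x y, R a x → R b y → R (ad a b) (x + y))
    (hs : ∀ a b x y, R a x → R b y → R (sb a b) (x - y)) (p : Pat) {l0 l1 l2 : List α}
    {x0 x1 x2 : ℕ → β} (h0 : LR R z l0 x0) (h1 : LR R z l1 x1) (h2 : LR R z l2 x2) :
    LR R z (cmbQ z ad sb p l0 l1 l2) (p.sem x0 x1 x2) := by
  have hn {x : ℕ → β} (h : LR R z [] x) (i : ℕ) : x i = 0 := (hz _).1 (h i)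
  have hy (q : Pat) {l0 : List α} {x0 x1 x2 : ℕ → β} (h0 : LR R z l0 x0) (h1 : LR R z [] x1)
      (h2 : LR R z [] x2) : LR R z l0 (q.sem x0 x1 x2) := by
    rw [show x1 = 0 from funext (hn h1), show x2 = 0 from funext (hn h2), Pat.sem_zero]
    exact h0
  induction p generalizing l0 l1 l2 x0 x1 x2 with
  | nil => exact h0
  | a t ih =>
    refine h0.unL (g := fun a => a) (k := fun s => P236C.cmbQ z ad sb t s l1 l2) ?_
      fun s hs => ih hs h1 h2
    exact fun _ h => h
  | b t ih =>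
    rcases l1 with _ | ⟨y, u⟩
    · rcases l2 with _ | ⟨w, v⟩
      · exact hy _ h0 h1 h2
      · refine h0.unL (g := fun a => a) (k := fun s => P236C.cmbQ z ad sb t s [] _)
          (fun _ h => ?_) fun s hs => ih hs h1.tnil h2
        rwa [Pat.sem, hn h1, add_zero]
    · cases l0
      · exact .cons (by rw [Pat.sem, hn h0, zero_add]; exact h1 0) (ih h0.tnil h1.tail h2)
      · exact .cons (ha _ _ _ _ (h0 0) (h1 0)) (ih h0.tail h1.tail h2)
  | c t ih =>
    rcases l1 with _ | ⟨y, u⟩ <;> rcases l2 with _ | ⟨w, v⟩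
    · exact hy _ h0 h1 h2
    · refine h0.unL (g := fun a => ad a w) (k := fun s => P236C.cmbQ z ad sb t s [] v)
        (fun _ h => ?_) fun s hs => ih hs h1.tnil h2.tail
      rw [Pat.sem, hn h1, sub_zero]
      exact ha _ _ _ _ h (h2 0)
    · refine h0.unL (g := fun a => sb a y) (k := fun s => P236C.cmbQ z ad sb t s u [])
        (fun _ h => ?_) fun s hs => ih hs h1.tail h2.tnil
      rw [Pat.sem, hn h2, add_zero]
      exact hs _ _ _ _ h (h1 0)
    · cases l0
      · exact .cons (by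
          rw [Pat.sem, hn h0, zero_sub, neg_add_eq_sub]; exact hs _ _ _ _ (h2 0) (h1 0))
          (ih h0.tnil h1.tail h2.tail)
      · exact .cons (ha _ _ _ _ (hs _ _ _ _ (h0 0) (h1 0)) (h2 0)) (ih h0.tail h1.tail h2.tail)
  | d t ih =>
    rcases l1 with _ | ⟨y, u⟩
    · rcases l2 with _ | ⟨w, v⟩
      · exact hy _ h0 h1 h2
      · refine h0.unL (g := fun a => a) (k := fun s => P236C.cmbQ z ad sb t s [] v) ?_
          fun s hs => ih hs h1.tnil h2.tail
        exact fun _ h => h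
    · have := h2.tl
      exact h0.unL (y := (Pat.d t).sem x0 x1 x2) (g := fun a => a) (fun _ h => h)
        fun s hs => ih hs h1.tail this
  | e t ih =>
    rcases l1 with _ | ⟨y, u⟩
    · rcases l2 with _ | ⟨w, v⟩
      · exact hy _ h0 h1 h2
      · refine h0.unL (g := fun a => a) (k := fun s => P236C.cmbQ z ad sb t s [] v)
          (fun _ h => ?_) fun s hs => ih hs h1.tnil h2.tail
        rwa [Pat.sem, hn h1, add_zero]
    · cases l0
      · exact .cons (by rw [Pat.sem, hn h0, zero_add]; exact h1 0) (ih h0.tnil h1.tail h2.tl)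
      · exact .cons (ha _ _ _ _ (h0 0) (h1 0)) (ih h0.tail h1.tail h2.tl)

theorem LR.cmbL (hz : ∀ x, R z x ↔ x = 0) (ha : ∀ a b x y, R a x → R b y → R (ad a b) (x + y))
    (hs : ∀ a b x y, R a x → R b y → R (sb a b) (x - y)) (p : Pat) {l0 l1 l2 : List α}
    {x0 x1 x2 : ℕ → β} (h0 : LR R z l0 x0) (h1 : LR R z l1 x1) (h2 : LR R z l2 x2) :
    LR R z (cmbL z ad sb p l0 l1 l2) (p.sem x0 x1 x2) := by
  cases l1 <;> cases l2
  · rw [show x1 = 0 from funext fun i => (hz _).1 (h1 i),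
      show x2 = 0 from funext fun i => (hz _).1 (h2 i), Pat.sem_zero]
    exact h0
  all_goals exact h0.cmbQ hz ha hs p h1 h2

end lists

theorem r1_nil_iff (x : ℕ → V) : R1 .nil x ↔ x = 0 := ⟨R1.nil_eq', fun h => h ▸ r1_nil⟩

theorem r2_nil_iff (x : ℕ → ℕ → V) : LR R1 .nil [] x ↔ x = 0 :=
  ⟨fun h => funext fun i => (h i).nil_eq', fun h => h ▸ fun _ => r1_nil⟩

theorem LR.lad {a b : List RL} {x y : ℕ → ℕ → V} (ha : LR R1 .nil a x) (hb : LR R1 .nil b y) :
    LR R1 .nil (lad a b) (x + y) := by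
  induction a generalizing b x y with
  | nil => rw [(r2_nil_iff _).1 ha, zero_add]; exact hb
  | cons v t ih =>
    cases b
    · rw [(r2_nil_iff _).1 hb, add_zero]; exact ha
    · exact .cons ((ha 0).vad (hb 0)) (ih ha.tail hb.tail)

theorem LR.lsb {a b : List RL} {x y : ℕ → ℕ → V} (ha : LR R1 .nil a x) (hb : LR R1 .nil b y) :
    LR R1 .nil (lsb a b) (x - y) := by
  induction a generalizing b x y with
  | nil =>
    induction b generalizing x y with
    | nil => rw [(r2_nil_iff _).1 hb, sub_zero]; exact ha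
    | cons w u ih => exact .cons ((ha 0).vsb (hb 0)) (ih ha.tnil hb.tail)
  | cons v t ih =>
    cases b
    · rw [(r2_nil_iff _).1 hb, sub_zero]; exact ha
    · exact .cons ((ha 0).vsb (hb 0)) (ih ha.tail hb.tail)

theorem chkV_sound (ms : List ℕ) {v w : RL} (h : chkV ms v w = true) (k : ℕ) :
    mk (getL 0 ms k) (v.val k) = mk (getL 0 ms k) (w.val k) := by
  induction ms generalizing v w k with
  | nil => simp
  | cons m ms ih =>
    have key : ∀ a b t a' b' t', (Bool.rec false (chkV ms t t') (Nat.beq (Nat.land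
        (Nat.lor (Nat.xor a a') (Nat.xor b b')) m) 0) : Bool) = true →
        mk (getL 0 (m :: ms) k) ((RL.cons a b t).val k) =
          mk (getL 0 (m :: ms) k) ((RL.cons a' b' t').val k) := by
      intro a b t a' b' t' h'
      cases h1 : Nat.beq (Nat.land (Nat.lor (Nat.xor a a') (Nat.xor b b')) m) 0
      · rw [h1] at h'
        exact absurd h' (by simp)
      rw [h1] at h'
      rcases k with _ | k
      · funext p
        have h2 := congrArg (·.testBit p) (Nat.eq_of_beq_eq_true h1)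
        simp only [Nat.land_eq, Nat.lor_eq, Nat.xor_eq, Nat.testBit_and, Nat.testBit_or,
          Nat.testBit_xor, Nat.zero_testBit] at h2
        simp only [getL_zero, mk_apply, RL.val, tv]
        revert h2
        cases m.testBit p <;> cases a.testBit p <;> cases a'.testBit p <;> cases b.testBit p <;>
          cases b'.testBit p <;> simp
      · exact ih h' k
    have hn : ∀ i, RL.nil.val i = (RL.cons 0 0 .nil).val i := fun i => by
      cases i
      · exact tv_zero.symm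
      · rfl
    cases v <;> cases w
    · rfl
    · rw [hn]; exact key _ _ _ _ _ _ h
    · rw [hn]; exact key _ _ _ _ _ _ h
    · exact key _ _ _ _ _ _ h

/-- the coefficient of a digit in base four -/
def cf (k : ℕ) : ZMod 3 := if k = 0 then 0 else if k = 1 then 1 else -1

/-- The continuation `K` adds `v`. -/
def KS (K : KK) (v : V) : Prop := ∀ n m, wf (Nat.xor n m) m →
  wf (K n m).a (K n m).b ∧ tv (K n m).a (K n m).b = tv (Nat.xor n m) m + v

theorem wf_ad6 {n m c1 c2 : ℕ} (ha : wf (Nat.xor n m) m) (hc : wf c1 c2) :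
    wf (Nat.xor (Nat.lor (Nat.xor m c1) (Nat.xor m (Nat.xor n c2)))
      (Nat.land (Nat.xor n c2) (Nat.lor c2 (Nat.xor m c1))))
      (Nat.land (Nat.xor n c2) (Nat.lor c2 (Nat.xor m c1))) := fun p => by
  have h1 := ha p
  have h2 := hc p
  simp only [Nat.xor_eq, Nat.lor_eq, Nat.land_eq, Nat.testBit_xor, Nat.testBit_or,
    Nat.testBit_and] at h1 ⊢
  revert h1 h2
  cases n.testBit p <;> cases m.testBit p <;> cases c1.testBit p <;> cases c2.testBit p <;> simp

theorem tv_ad6 {n m c1 c2 : ℕ} (ha : wf (Nat.xor n m) m) (hc : wf c1 c2) :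
    tv (Nat.xor (Nat.lor (Nat.xor m c1) (Nat.xor m (Nat.xor n c2)))
      (Nat.land (Nat.xor n c2) (Nat.lor c2 (Nat.xor m c1))))
      (Nat.land (Nat.xor n c2) (Nat.lor c2 (Nat.xor m c1))) = tv (Nat.xor n m) m + tv c1 c2 :=
  funext fun p => by
    have h1 := ha p
    have h2 := hc p
    simp only [tv, Nat.xor_eq, Nat.lor_eq, Nat.land_eq, Nat.testBit_xor, Nat.testBit_or,
      Nat.testBit_and, Pi.add_apply] at h1 ⊢
    revert h1 h2
    cases n.testBit p <;> cases m.testBit p <;> cases c1.testBit p <;> cases c2.testBit p <;>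
      decide

theorem ks_add {K : KK} {v : V} (h : KS K v) {c1 c2 : ℕ} (hc : wf c1 c2) :
    KS (fun n m => K (Nat.lor (Nat.xor m c1) (Nat.xor m (Nat.xor n c2)))
      (Nat.land (Nat.xor n c2) (Nat.lor c2 (Nat.xor m c1)))) (tv c1 c2 + v) := fun _ _ ha =>
  ⟨(h _ _ (wf_ad6 ha hc)).1, (h _ _ (wf_ad6 ha hc)).2.trans (by rw [tv_ad6 ha hc, add_assoc])⟩

theorem dsel_spec (d : ℕ) : ∃ g : ℕ → ℕ → KK → KK, (∀ {β : Type} (k : _ → β), dsel d k = k g) ∧
    ∀ {K v c1 c2}, wf c1 c2 → KS K v → KS (g c1 c2 K) (cf d • tv c1 c2 + v) := by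
  rcases d with _ | _ | d
  · exact ⟨_, fun _ => rfl, fun _ h => by simpa [cf] using h⟩
  · exact ⟨_, fun _ => rfl, fun hc h => by simpa [cf] using ks_add h hc⟩
  · refine ⟨_, fun _ => rfl, fun hc h => ?_⟩
    rw [show cf (d + 1 + 1) = -1 by simp [cf], neg_smul, one_smul, ← tv_swap]
    exact ks_add h hc.symm

/-- the linear combination of the first `n` values -/
def Sm (n : ℕ) (y : ℕ → V) (x : ℕ) : V := ∑ i ∈ Finset.range n, cf (x / 4 ^ i % 4) • y i

theorem sm_succ (n : ℕ) (y : ℕ → V) (x : ℕ) :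
    Sm (n + 1) y x = cf (x % 4) • y 0 + Sm n (fun i => y (i + 1)) (x / 4) := by
  rw [Sm, Finset.sum_range_succ', pow_zero, Nat.div_one, add_comm, Sm]
  simp only [Nat.div_div_eq_div_mul, pow_succ' 4]

theorem R1.sm_len {l : RL} {y : ℕ → V} (h : R1 l y) {n : ℕ} (hn : l.len ≤ n) (x : ℕ) :
    Sm n y x = Sm l.len y x := by
  induction l generalizing y n x with
  | nil => exact Finset.sum_eq_zero fun i _ => by rw [h.nil_eq, smul_zero]
  | cons a b t ih =>
    obtain ⟨n, rfl⟩ := Nat.exists_eq_add_one.2 (t.len.succ_pos.trans_le hn)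
    rw [RL.len, sm_succ, sm_succ, ih h.tail (Nat.le_of_succ_le_succ hn)]

theorem R1.unR' {l : RL} {x : ℕ → V} (h : R1 l x) {n : ℕ} (hn : l.len ≤ n) :
    ∃ a b t, (∀ {β : Type} (k : ℕ → ℕ → RL → β), P236C.unR l k = k a b t) ∧ wf a b ∧
      tv a b = x 0 ∧ (R1 t fun i => x (i + 1)) ∧ t.len ≤ n := by
  cases l with
  | nil => exact ⟨0, 0, .nil, fun _ => rfl, wf_zero, by rw [h.nil_eq, tv_zero],
      r1_nil.of_eq fun k => (h.nil_eq _).symm, hn⟩
  | cons a b t => exact ⟨a, b, t, fun _ => rfl, h.head.1, h.head.2, h.tail, Nat.le_of_succ_le hn⟩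

theorem ks_cel0 : KS (fun n m => fin (Nat.xor n m) m) 0 := fun n m h => by
  simp only [fin_eq]
  exact ⟨h, (add_zero _).symm⟩

theorem R1.cells (fu : RL) {l : RL} {y : ℕ → V} (h : R1 l y) (hl : l.len ≤ fu.len) :
    ∃ F, cells fu l = Quot.mk _ F ∧ ∀ x, KS (F x) (Sm l.len y x) := by
  induction fu generalizing l y with
  | nil => exact ⟨_, rfl, fun x => by
      rw [Nat.le_zero.1 hl]
      exact ks_cel0⟩
  | cons _ _ fu ih =>
    rcases l with _ | ⟨a0, b0, t0⟩
    · exact ⟨_, rfl, fun _ => ks_cel0⟩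
    obtain ⟨a1, b1, t1, e1, w1, v1, h1, l1⟩ := h.tail.unR' (Nat.le_of_succ_le_succ hl)
    obtain ⟨a2, b2, t2, e2, w2, v2, h2, l2⟩ := h1.unR' l1
    obtain ⟨a3, b3, t3, e3, w3, v3, h3, l3⟩ := h2.unR' l2
    obtain ⟨a4, b4, t4, e4, w4, v4, h4, l4⟩ := h3.unR' l3
    obtain ⟨a5, b5, t5, e5, w5, v5, h5, l5⟩ := h4.unR' l4
    obtain ⟨F, e6, hF⟩ := ih h5 l5
    have e0 : ∀ a b, P236C.cells (.cons a b fu) (.cons a0 b0 t0) = P236C.unR t0 fun a1 b1 t1 =>
        P236C.unR t1 fun a2 b2 t2 => P236C.unR t2 fun a3 b3 t3 => P236C.unR t3 fun a4 b4 t4 =>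
          P236C.unR t4 fun a5 b5 t5 => Quot.lift (cel6 a0 b0 a1 b1 a2 b2 a3 b3 a4 b4 a5 b5)
            (hB _) (P236C.cells fu t5) := fun _ _ => rfl
    rw [e0, e1, e2, e3, e4, e5, e6]
    refine ⟨_, rfl, fun x => ?_⟩
    have h6 := hF (Nat.shiftRight x 12)
    rw [← h5.sm_len l5, Nat.shiftRight_eq, Nat.shiftRight_eq_div_pow] at h6
    rw [← h.sm_len (n := fu.len + 1 + 1 + 1 + 1 + 1 + 1) (hl.trans (Nat.le_add_right _ 5)),
      sm_succ, sm_succ, sm_succ, sm_succ, sm_succ, sm_succ, ← h.head.2, ← v1, ← v2, ← v3, ← v4,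
      ← v5, show x / 4 / 4 / 4 / 4 / 4 / 4 = x / 2 ^ 12 by omega]
    intro n m
    have e : Nat.land x 4095 = x % 4096 := Nat.and_two_pow_sub_one_eq_mod x 12
    have e' : ∀ b i, dg4 b i = (b + 1) / 2 ^ i % 4 := fun b i =>
      (Nat.and_two_pow_sub_one_eq_mod _ 2).trans (by rw [← Nat.shiftRight_eq_div_pow]; rfl)
    change _ → wf (Nat.rec _ _ (Nat.land x 4095) : Row).a (Nat.rec _ _ (Nat.land x 4095) : Row).b ∧
      tv (Nat.rec _ _ (Nat.land x 4095) : Row).a (Nat.rec _ _ (Nat.land x 4095) : Row).b = _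
    rw [e, Nat.shiftRight_eq, Nat.shiftRight_eq_div_pow]
    rcases hx : x % 4096 with _ | b
    · rw [show x % 4 = 0 by omega, show x / 4 % 4 = 0 by omega, show x / 4 / 4 % 4 = 0 by omega,
        show x / 4 / 4 / 4 % 4 = 0 by omega, show x / 4 / 4 / 4 / 4 % 4 = 0 by omega,
        show x / 4 / 4 / 4 / 4 / 4 % 4 = 0 by omega]
      simpa [cf] using h6 n m
    · obtain ⟨g0, d0, s0⟩ := dsel_spec (dg4 b 0)
      obtain ⟨g1, d1, s1⟩ := dsel_spec (dg4 b 2)
      obtain ⟨g2, d2, s2⟩ := dsel_spec (dg4 b 4)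
      obtain ⟨g3, d3, s3⟩ := dsel_spec (dg4 b 6)
      obtain ⟨g4, d4, s4⟩ := dsel_spec (dg4 b 8)
      obtain ⟨g5, d5, s5⟩ := dsel_spec (dg4 b 10)
      have e7 : tbl6 b = Quot.mk _ fun a0 b0 a1 b1 a2 b2 a3 b3 a4 b4 a5 b5 K n m =>
          g0 a0 b0 (g1 a1 b1 (g2 a2 b2 (g3 a3 b3 (g4 a4 b4 (g5 a5 b5 K))))) n m :=
        (d0 _).trans ((d1 _).trans ((d2 _).trans ((d3 _).trans ((d4 _).trans (d5 _)))))
      have h7 := s0 h.head.1 (s1 w1 (s2 w2 (s3 w3 (s4 w4 (s5 w5 h6))))) n m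
      simp only [e'] at h7
      rw [show x % 4 = (b + 1) / 2 ^ 0 % 4 by omega, show x / 4 % 4 = (b + 1) / 2 ^ 2 % 4 by omega,
        show x / 4 / 4 % 4 = (b + 1) / 2 ^ 4 % 4 by omega,
        show x / 4 / 4 / 4 % 4 = (b + 1) / 2 ^ 6 % 4 by omega,
        show x / 4 / 4 / 4 / 4 % 4 = (b + 1) / 2 ^ 8 % 4 by omega,
        show x / 4 / 4 / 4 / 4 / 4 % 4 = (b + 1) / 2 ^ 10 % 4 by omega]
      simp only [e7]
      exact h7

theorem R1.comb {z : RL} {y : ℕ → V} (h : R1 z y) (x : ℕ) {a1 a2 : ℕ} (ha : wf a1 a2) :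
    wf (comb z x a1 a2).a (comb z x a1 a2).b ∧ tv (comb z x a1 a2).a (comb z x a1 a2).b =
      tv a1 a2 + ∑ i ∈ Finset.range z.len, cf (x / 4 ^ i % 4) • y i := by
  obtain ⟨F, e, hF⟩ := h.cells z le_rfl
  have e1 : Nat.xor (Nat.lor a1 a2) a2 = a1 := Nat.eq_of_testBit_eq fun p => by
    have := ha p
    simp only [Nat.xor_eq, Nat.lor_eq, Nat.testBit_xor, Nat.testBit_or]
    revert this
    cases a1.testBit p <;> cases a2.testBit p <;> simp
  rw [P236C.comb, e]
  rcases x with _ | x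
  · exact ⟨ha, by simp [cf]⟩
  · have := hF (x + 1) (Nat.lor a1 a2) a2
    rw [e1] at this
    exact this ha

/-! ### arrays -/

/-- values of arrays, indices `K₄, K₃, K₂` -/
abbrev S3 : Type := ℕ → ℕ → ℕ → V

/-- values of lists of arrays -/
abbrev S4 : Type := ℕ → S3

/-- `a` has the values `x`. -/
def R3 (a : A3) (x : S3) : Prop := ∀ k4 k3, R1 (get2 a k4 k3) (x k4 k3)

/-- `a` has the values `x`. -/
def R4 (a : A4) (x : S4) : Prop := ∀ n, R3 (getL [] a n) (x n)

theorem r3_nil : R3 [] 0 := fun _ _ => r1_nil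

theorem r4_nil : R4 [] 0 := fun _ => r3_nil

theorem R3.of_eq {a : A3} {x y : S3} (h : R3 a x) (e : ∀ k4 k3 k2, x k4 k3 k2 = y k4 k3 k2) :
    R3 a y := fun k4 k3 => (h k4 k3).of_eq (e k4 k3)

theorem R4.of_eq {a : A4} {x y : S4} (h : R4 a x)
    (e : ∀ n k4 k3 k2, x n k4 k3 k2 = y n k4 k3 k2) : R4 a y := fun n => (h n).of_eq (e n)

theorem R3.nil_eq {x : S3} (h : R3 [] x) : x = 0 :=
  funext fun k4 => funext fun k3 => funext fun k2 => (h k4 k3).nil_eq k2

theorem R4.eq_zero {a : A4} {x : S4} (h : R4 a x) {n : ℕ} (hn : a.length ≤ n) : x n = 0 := by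
  have := h n
  rw [getL_of_le _ hn] at this
  exact this.nil_eq

theorem R4.cons {a : A3} {t : A4} {x : S4} (h : R3 a (x 0)) (ht : R4 t fun n => x (n + 1)) :
    R4 (a :: t) x := fun n => by
  cases n with
  | zero => exact h
  | succ n => exact ht n

theorem R4.single {a : A3} {x : S3} (h : R3 a x) : R4 [a] fun n => if n = 0 then x else 0 :=
  R4.cons h fun _ => r3_nil

theorem R4.hdL {a : A4} {x : S4} (h : R4 a x) : R3 (hdL a) (x 0) := by
  rw [hdL_eq]
  exact h 0

theorem R4.tlL {a : A4} {x : S4} (h : R4 a x) : R4 (tlL a) fun n => x (n + 1) := fun n => by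
  rw [getL_tlL]
  exact h (n + 1)

theorem get2_tab3 (T c : ℕ) (f : ℕ → ℕ → ℕ → RL) (k4 k3 : ℕ) : get2 (tab3 T c f) k4 k3 =
    if c + 40 * k4 + 13 * k3 ≤ T then f k4 k3 (c + 40 * k4 + 13 * k3) else .nil := by
  rw [get2, tab3, getL_tabN]
  by_cases h : k4 < cnt T 40 c
  · rw [if_pos h, frc_eq, getL_tabN, frc_eq]
    exact if_congr (lt_cnt (by decide)) rfl rfl
  · rw [if_neg h, getL_nil, if_neg]
    rw [lt_cnt (by decide)] at h
    omega

theorem r3_tab3 {T c : ℕ} {f : ℕ → ℕ → ℕ → RL} {x : S3}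
    (h : ∀ k4 k3, c + 40 * k4 + 13 * k3 ≤ T → R1 (f k4 k3 (c + 40 * k4 + 13 * k3)) (x k4 k3)) :
    R3 (tab3 T c f) fun k4 k3 k2 => if c + 40 * k4 + 13 * k3 ≤ T then x k4 k3 k2 else 0 :=
  fun k4 k3 => by
    rw [get2_tab3]
    by_cases h1 : c + 40 * k4 + 13 * k3 ≤ T
    · simp only [if_pos h1]
      exact h k4 k3 h1
    · simp only [if_neg h1]
      exact r1_nil

theorem r4_tabN {n : ℕ} {f : ℕ → A3} {x : S4} (h : ∀ i < n, R3 (f i) (x i)) :
    R4 (tabN n f) fun i => if i < n then x i else 0 := fun i => by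
  rw [getL_tabN]
  by_cases h1 : i < n
  · simp only [if_pos h1]
    exact h i h1
  · simp only [if_neg h1]
    exact r3_nil

/-- the value of a prepared term -/
structure ST where
  /-- the map of rows -/
  φ : V →ₗ[ZMod 3] V
  /-- exponent of `x` -/
  e : ℕ
  /-- exponent of `t₂` -/
  g2 : ℕ
  /-- exponent of `t₃` -/
  g3 : ℕ

/-- `t` has the value `u`. -/
def RT (t : PT) (u : ST) : Prop := RM t.f t.g u.φ ∧ t.e = u.e ∧ t.g2 = u.g2 ∧ t.g3 = u.g3

/-- the sum over the terms -/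
def sumS (us : List ST) (x : S4) : S3 := fun k4 k3 k2 =>
  (us.map fun u => u.φ (x u.e k4 (k3 + u.g3) (k2 + u.g2))).sum

theorem sumS_zero (us : List ST) : sumS us 0 = 0 := by
  funext k4 k3 k2
  simp [sumS]

theorem R4.sumT {ts : List PT} {us : List ST} (ht : List.Forall₂ RT ts us) {src : A4} {x : S4}
    (h : R4 src x) (k4 k3 : ℕ) : R1 (sumT ts src k4 k3) (sumS us x k4 k3) := by
  induction ht with
  | nil => exact r1_nil
  | @cons t u ts us h1 _ ih =>
    obtain ⟨f, g, e, g2, g3⟩ := t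
    obtain ⟨φ, e', g2', g3'⟩ := u
    obtain ⟨hf, rfl, rfl, rfl⟩ := h1
    exact (ih.vz hf ((h e k4 (k3 + g3)).dropR g2)).of_eq fun k2 => by
      simp only [sumS, List.map_cons, List.sum_cons]
      exact add_comm _ _

/-- restriction of an array of degree `c` to the valid positions -/
def cut (C : Ctx) (c : ℕ) (x : S3) : S3 := fun k4 k3 k2 =>
  if c + 40 * k4 + 13 * k3 + 4 * k2 ≤ C.T then
    mk (C.ge (c + 40 * k4 + 13 * k3 + 4 * k2)) (x k4 k3 k2) else 0

theorem cut_zero (C : Ctx) (c : ℕ) : cut C c 0 = 0 := by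
  funext k4 k3 k2
  simp [cut]

theorem mk_sG (C : Ctx) (c k : ℕ) (v : V) : mk (getL 0 (sG C c) k) v =
    if c + 4 * k ≤ C.T then mk (C.ge (c + 4 * k)) v else 0 := by
  rw [sG, getL_str4]
  split_ifs <;> simp

theorem r3_cut (C : Ctx) (c : ℕ) {f : ℕ → ℕ → RL} {x : S3} (h : ∀ k4 k3, R1 (f k4 k3) (x k4 k3)) :
    R3 (tab3 C.T c fun k4 k3 c3 => vtr (sG C c3) (f k4 k3)) (cut C c x) :=
  (r3_tab3 fun k4 k3 _ => (h k4 k3).vtr _).of_eq fun k4 k3 k2 => by
    rw [mk_sG, cut]
    split_ifs with h1 h2 h2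
    · rfl
    · rfl
    · omega
    · rfl

namespace M3

theorem r1_dropT {l : RL} {x : ℕ → V} (h : R1 l x) (n : ℕ) :
    R1 (dropT n l) fun k => x (k + n) := by
  induction n with
  | zero => exact h
  | succ n ih => exact ih.tlR.of_eq fun k => by rw [add_assoc, add_comm 1]

/-- The terms `G` have the values `F` on vectors. -/
inductive GR : List PT → ((ℕ → V) → ℕ → V) → Prop
  | nil : GR [] fun _ _ => 0
  | cons {t : PT} {φ : V →ₗ[ZMod 3] V} {G : List PT} {F : (ℕ → V) → ℕ → V} :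
    RM t.f t.g φ → GR G F → GR (t :: G) fun y k => φ (y (k + t.g2)) + F y k

theorem GR.zero {G : List PT} {F : (ℕ → V) → ℕ → V} (h : GR G F) : F 0 = 0 := by
  induction h with
  | nil => rfl
  | cons _ _ ih => funext k; simp [ih]

/-- The program `s` adds `F`. -/
def SP (s : RL → RL → RL) (F : (ℕ → V) → ℕ → V) : Prop :=
  ∀ v acc y z, R1 v y → R1 acc z → R1 (s v acc) fun k => z k + F y k

theorem GR.gsum {G : List PT} {F : (ℕ → V) → ℕ → V} (h : GR G F) :
    ∃ s, gsum G = Quot.mk _ s ∧ SP s F := by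
  induction h with
  | nil => exact ⟨_, rfl, fun _ _ _ _ _ ha => ha.of_eq fun _ => (add_zero _).symm⟩
  | @cons t φ G F hf _ ih =>
    obtain ⟨r, e, hr⟩ := ih
    obtain ⟨f, g, e', g2, g3⟩ := t
    have e1 : M3.gsum (⟨f, g, e', g2, g3⟩ :: G) = gs1 f g g2 r := by
      change Quot.lift (gs1 f g g2) (hB (gs1 f g g2)) (M3.gsum G) = _
      rw [e]
    refine ⟨fun v acc => r v (vz f g acc (M3.dropT g2 v)), e1.trans (by cases g2 <;> rfl),
      fun v acc y z hv ha => (hr _ _ _ _ hv (ha.vz hf (r1_dropT hv g2))).of_eq fun k => add_assoc _ _ _⟩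

/-- The groups `E` have the values `F` on arrays. -/
inductive ER : List (ℕ × List PT) → (S3 → S3) → Prop
  | nil : ER [] fun _ _ _ _ => 0
  | cons {g3 : ℕ} {G : List PT} {F : (ℕ → V) → ℕ → V} {E : List (ℕ × List PT)} {H : S3 → S3} :
    GR G F → ER E H → ER ((g3, G) :: E) fun y k4 k3 k => F (y k4 (k3 + g3)) k + H y k4 k3 k

theorem ER.zero {E : List (ℕ × List PT)} {H : S3 → S3} (h : ER E H) : H 0 = 0 := by
  induction h with
  | nil => rfl
  | @cons g3 G F E H hg _ ih =>
    funext k4 k3 k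
    change F 0 k + H 0 k4 k3 k = 0
    rw [hg.zero, ih]
    exact add_zero _

/-- The program `A` adds `z`. -/
def AR (A : AS) (z : S3) : Prop :=
  ∀ k4 k3 acc w, R1 acc w → R1 (A k4 k3 acc) fun k => w k + z k4 k3 k

theorem AR.of_eq {A : AS} {z z' : S3} (h : AR A z) (e : ∀ k4 k3 k, z k4 k3 k = z' k4 k3 k) :
    AR A z' := fun k4 k3 acc w hw => (h k4 k3 acc w hw).of_eq fun k => by rw [e]

theorem ER.progE {E : List (ℕ × List PT)} {H : S3 → S3} (h : ER E H) :
    ∃ s, progE E = Quot.mk _ s ∧ ∀ a A y z, R3 a y → AR A z →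
      AR (s a A) fun k4 k3 k => H y k4 k3 k + z k4 k3 k := by
  induction h with
  | nil => exact ⟨_, rfl, fun _ _ _ _ _ hA => hA.of_eq fun _ _ _ => (zero_add _).symm⟩
  | @cons g3 G F E H hg _ ih =>
    obtain ⟨r, e, hr⟩ := ih
    obtain ⟨s, e', hs⟩ := hg.gsum
    have e1 : M3.progE ((g3, G) :: E) = pe1 g3 r s := by
      change Quot.lift (fun r => Quot.lift (pe1 g3 r) (hB (pe1 g3 r)) (gsum G))
        (hB fun r => Quot.lift (pe1 g3 r) (hB (pe1 g3 r)) (gsum G)) (M3.progE E) = _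
      rw [e, e']
    refine ⟨fun a A k4 k3 acc => (fun v => RL.rec (r a A k4 k3 acc)
      (fun _ _ _ _ => r a A k4 k3 (s v acc)) v) (get2 a k4 (k3 + g3)),
      e1.trans (by cases g3 <;> rfl), fun a A y z ha hA k4 k3 acc w hw => ?_⟩
    have hv := ha k4 (k3 + g3)
    beta_reduce
    generalize get2 a k4 (k3 + g3) = v at hv
    cases v with
    | nil =>
      refine (hr a A y z ha hA k4 k3 acc w hw).of_eq fun k => ?_
      rw [hv.nil_eq', hg.zero, Pi.zero_apply, zero_add]
    | cons b1 b2 u =>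
      refine (hr a A y z ha hA k4 k3 _ _ (hs _ acc _ w hv hw)).of_eq fun k => ?_
      simp only [add_assoc]

/-- The groups `P` have the values `F` on lists of arrays. -/
inductive PR : List (List (ℕ × List PT)) → (S4 → S3) → Prop
  | nil : PR [] fun _ _ _ _ => 0
  | cons {E : List (ℕ × List PT)} {H : S3 → S3} {P : List (List (ℕ × List PT))} {F : S4 → S3} :
    ER E H → PR P F →
      PR (E :: P) fun x k4 k3 k => H (x 0) k4 k3 k + F (fun n => x (n + 1)) k4 k3 k

theorem PR.zero {P : List (List (ℕ × List PT))} {F : S4 → S3} (h : PR P F) : F 0 = 0 := by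
  induction h with
  | nil => rfl
  | @cons E H P F hE _ ih =>
    funext k4 k3 k
    change H 0 k4 k3 k + F 0 k4 k3 k = 0
    rw [hE.zero, ih]
    exact add_zero _

theorem PR.progP {P : List (List (ℕ × List PT))} {F : S4 → S3} (h : PR P F) (Q : S3 → S3)
    {Y : XX} (hY : ∀ A z, AR A z → R3 (Y A) (Q z)) :
    ∃ s, progP P = Quot.mk _ s ∧ ∀ src A X x z, R4 src x → AR A z → R3 (X A) (Q z) →
      R3 (s src A X Y) (Q fun k4 k3 k => z k4 k3 k + F x k4 k3 k) := by
  induction h with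
  | nil => exact ⟨_, rfl, fun _ _ _ _ _ _ _ hX => by simpa only [add_zero] using hX⟩
  | @cons E H P F hE hP ih =>
    obtain ⟨r, e, hr⟩ := ih
    obtain ⟨s, e', hs⟩ := hE.progE
    have h0 {A : AS} {X : XX} {x : S4} {z : S3} (hx : R4 [] x) (hX : R3 (X A) (Q z)) :
        R3 (X A) (Q fun k4 k3 k => z k4 k3 k +
          (H (x 0) k4 k3 k + F (fun n => x (n + 1)) k4 k3 k)) := by
      obtain rfl : x = 0 := funext fun n => hx.eq_zero (Nat.zero_le n)
      change R3 _ (Q fun k4 k3 k => z k4 k3 k + (H 0 k4 k3 k + F 0 k4 k3 k))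
      simpa only [hE.zero, hP.zero, Pi.zero_apply, add_zero] using hX
    have hz := hE.zero
    rcases E with _ | ⟨p, E⟩
    · obtain rfl : H = fun _ _ _ _ => 0 := by cases hE; rfl
      refine ⟨fun src A X Y => List.rec (X A) (fun _ t _ => r t A X Y) src, ?_,
        fun src A X x z hx hA hX => ?_⟩
      · change Quot.lift pp0 (hB pp0) (M3.progP P) = _
        rw [e]
        rfl
      · cases src with
        | nil => exact h0 hx hX
        | cons a t => simpa only [zero_add] using hr t A X _ z (fun n => hx (n + 1)) hA hX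
    · refine ⟨fun src A X Y => List.rec (X A) (fun a t _ =>
        List.rec (r t A X Y) (fun _ _ _ => r t (s a A) Y Y) a) src, ?_,
        fun src A X x z hx hA hX => ?_⟩
      · change Quot.lift (fun r => Quot.lift (pp1 r) (hB (pp1 r)) (M3.progE _))
          (hB fun r => Quot.lift (pp1 r) (hB (pp1 r)) (M3.progE _)) (M3.progP P) = _
        rw [e, e']
        rfl
      · rcases src with _ | ⟨_ | ⟨b, a⟩, t⟩
        · exact h0 hx hX
        · simpa only [R3.nil_eq (hx 0), hz, Pi.zero_apply, zero_add] using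
            hr t A X _ z (fun n => hx (n + 1)) hA hX
        · have h1 := hs (b :: a) A _ z (hx 0) hA
          have h2 := hr t _ Y _ _ (fun n => hx (n + 1)) h1 (hY _ _ h1)
          simpa only [add_assoc, add_comm, add_left_comm] using h2

theorem ER.insE {t : PT} {φ : V →ₗ[ZMod 3] V} (ht : RM t.f t.g φ) {E : List (ℕ × List PT)}
    {H : S3 → S3} (h : ER E H) :
    ER (insE t E) fun y k4 k3 k => φ (y k4 (k3 + t.g3) (k + t.g2)) + H y k4 k3 k := by
  induction h with
  | nil =>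
    change ER [(t.g3, [t])] _
    simpa only [add_zero] using ER.cons (g3 := t.g3) (GR.cons ht .nil) .nil
  | @cons g3 G F E H hg hE ih =>
    have e : M3.insE t ((g3, G) :: E) = Bool.rec ((g3, G) :: M3.insE t E)
      ((g3, t :: G) :: E) (Nat.beq g3 t.g3) := rfl
    rw [e]
    cases h : Nat.beq g3 t.g3
    · simpa only [add_left_comm] using ER.cons (g3 := g3) hg ih
    · obtain rfl := Nat.eq_of_beq_eq_true h
      simpa only [add_assoc] using ER.cons (g3 := t.g3) (GR.cons ht hg) hE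

theorem PR.insP {t : PT} {φ : V →ₗ[ZMod 3] V} (ht : RM t.f t.g φ) (e : ℕ)
    {P : List (List (ℕ × List PT))} {F : S4 → S3} (h : PR P F) :
    PR (insP t e P) fun x k4 k3 k => φ (x e k4 (k3 + t.g3) (k + t.g2)) + F x k4 k3 k := by
  induction e generalizing P F with
  | zero =>
    cases h with
    | nil =>
      change PR [insE t []] _
      simpa only [add_zero] using PR.cons (ER.nil.insE ht) .nil
    | cons hE hP =>
      change PR (insE t _ :: _) _
      simpa only [add_assoc] using PR.cons (hE.insE ht) hP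
  | succ e ih =>
    cases h with
    | nil =>
      change PR ([] :: M3.insP t e []) _
      simpa only [zero_add] using PR.cons .nil (ih .nil)
    | cons hE hP =>
      change PR (_ :: M3.insP t e _) _
      simpa only [add_left_comm] using PR.cons hE (ih hP)

theorem pr_grp {ts : List PT} {us : List ST} (ht : List.Forall₂ RT ts us) :
    PR (grp ts) (sumS us) := by
  induction ht with
  | nil => exact .nil
  | @cons t u ts us h1 _ ih =>
    have := ih.insP h1.1 t.e
    rw [h1.2.1, h1.2.2.1, h1.2.2.2] at this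
    rw [show grp (t :: ts) = insP t t.e (grp ts) from rfl, h1.2.1]
    exact this

theorem vtrB_eq (ms : List ℕ) : vtrB ms = Quot.mk _ (vtr ms) := by
  induction ms with
  | nil => rfl
  | cons m ms ih =>
    change Quot.lift (vt1 m) (hB (vt1 m)) (vtrB ms) = _
    rw [ih]
    rfl

theorem tabB_eq {α : Type} (n : ℕ) {p : ℕ → Bx (AS → α)} {q : ℕ → AS → α}
    (h : ∀ i, p i = Quot.mk _ (q i)) : tabB n p = Quot.mk _ fun A => tabN n fun i => q i A := by
  have key (r : AS → List α) : foldN n (fun i ih => Quot.lift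
      (fun r => Quot.lift (tb1 r) (hB (tb1 r)) (p i))
      (hB fun r => Quot.lift (tb1 r) (hB (tb1 r)) (p i)) ih) (Quot.mk _ r) =
      Quot.mk _ fun A => Nat.rec (motive := fun _ => List α → List α) (fun l => l)
        (fun i ih l => ih (q i A :: l)) n (r A) := by
    induction n generalizing r with
    | zero => rfl
    | succ n ih =>
      rw [foldN_succ, h]
      exact ih _
  exact key _

theorem shape_eq (C : Ctx) (c : ℕ) : shape C c =
    Quot.mk _ fun A => tab3 C.T c fun k4 k3 c3 => vtr (sG C c3) (A k4 k3 .nil) := by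
  simp only [shape, tab3, frc_eq, vtrB_eq]
  exact tabB_eq _ fun _ => tabB_eq _ fun _ => rfl

end M3

open M3 in
theorem R4.mul3 (C : Ctx) {ts : List PT} {us : List ST} (ht : List.Forall₂ RT ts us) (c : ℕ)
    {src : A4} {x : S4} (h : R4 src x) : R3 (mul3 C ts c src) (cut C c (sumS us x)) := by
  obtain ⟨s, e, hs⟩ := (pr_grp ht).progP (cut C c)
    (Y := Quot.lift (fun f : XX => f) (hB fun f => f) (shape C c)) fun A z hA => by
      rw [shape_eq]
      exact r3_cut C c fun k4 k3 => (hA k4 k3 _ _ r1_nil).of_eq fun k => zero_add _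
  rw [P236C.mul3, progT, e]
  simpa only [Pi.zero_apply, zero_add] using hs src (fun _ _ acc => acc) (fun _ => []) x 0 h
    (fun _ _ _ _ hw => hw.of_eq fun _ => (add_zero _).symm) (by rw [cut_zero]; exact r3_nil)

/-- multiplication by a polynomial -/
def mulS (C : Ctx) (us : List ST) (d c : ℕ) (x : S4) : S4 :=
  fun n => cut C (c + d * n) (sumS us fun e => x (n + e))

theorem R4.mulR (C : Ctx) {ts : List PT} {us : List ST} (ht : List.Forall₂ RT ts us) (d : ℕ)
    {src : A4} {x : S4} (h : R4 src x) (c : ℕ) : R4 (mulR C ts d src c) (mulS C us d c x) := by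
  induction src generalizing x c with
  | nil =>
    have hx : x = 0 := funext fun n => h.eq_zero (Nat.zero_le n)
    refine r4_nil.of_eq fun n k4 k3 k2 => ?_
    rw [hx, mulS, show (fun e => (0 : S4) (n + e)) = 0 from rfl, sumS_zero, cut_zero]
    rfl
  | cons a t ih =>
    have e : P236C.mulR C ts d (a :: t) c = Bool.rec []
        (P236C.mul3 C ts c (a :: t) :: frc (c + d) (P236C.mulR C ts d t)) (Nat.ble c C.T) := rfl
    rw [e, frc_eq]
    cases hc : Nat.ble c C.T
    · refine r4_nil.of_eq fun n k4 k3 k2 => ?_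
      have : ¬c ≤ C.T := fun h' => by simp [Nat.ble_eq_true_of_le h'] at hc
      rw [mulS, cut, if_neg (by omega)]
      rfl
    refine R4.cons ((h.mul3 C ht c).of_eq fun k4 k3 k2 => by simp [mulS]) ?_
    refine (ih (fun n => h (n + 1)) (c + d)).of_eq fun n k4 k3 k2 => ?_
    simp only [mulS, mul_add, mul_one, add_assoc, add_comm d, add_comm 1]

theorem mulS_eq_zero (C : Ctx) (us : List ST) (d c : ℕ) {x : S4} {l : ℕ}
    (h : ∀ n, l ≤ n → x n = 0) (n : ℕ) (hn : l ≤ n) : mulS C us d c x n = 0 := by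
  rw [mulS, show (fun e => x (n + e)) = 0 from funext fun e => h _ (by omega), sumS_zero, cut_zero]

/-- The function `f` on arrays has the values `F`. -/
def RF (f : ℕ → A3 → A3 → A3 → A3) (F : ℕ → S3 → S3 → S3 → S3) : Prop :=
  (∀ c x, F c x 0 0 = x) ∧ ∀ c a0 a1 a2 x0 x1 x2, R3 a0 x0 → R3 a1 x1 → R3 a2 x2 →
    R3 (f c a0 a1 a2) (F c x0 x1 x2)

theorem r3_nil_iff (x : S3) : R3 [] x ↔ x = 0 := ⟨R3.nil_eq, fun h => h ▸ r3_nil⟩

/-- the digit mask in degree `c`, if it is in the range -/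
def dS (C : Ctx) (q j c : ℕ) (v : V) : V := if c ≤ C.T then mk (dm C q j c) v else 0

/-- digit step for `t₁` -/
def cS1 (C : Ctx) (q c : ℕ) (x0 x1 x2 : S3) : S3 := fun k4 k3 k2 =>
  x0 k4 k3 k2 + (dS C q 1 (c + 40 * k4 + 13 * k3 + 4 * k2) (x1 k4 k3 k2) +
    (dS C q 2 (c + 40 * k4 + 13 * k3 + 4 * k2) (x2 k4 k3 k2 - x1 k4 k3 k2) -
      dS C q 1 (c + 40 * k4 + 13 * k3 + 4 * k2)
        (dS C q 2 (c + 40 * k4 + 13 * k3 + 4 * k2) (x2 k4 k3 k2 - x1 k4 k3 k2))))

theorem rf4 (p : Pat) : RF (cmb4 p) fun _ => p.sem :=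
  ⟨fun _ => p.sem_zero, fun _ _ _ _ _ _ _ h0 h1 h2 => LR.cmbL (R := LR R1 .nil) r2_nil_iff
    (fun _ _ _ _ => LR.lad) (fun _ _ _ _ => LR.lsb) p h0 h1 h2⟩

theorem rf3 (p : Pat) : RF (cmb3 p) fun _ x0 x1 x2 k4 => p.sem (x0 k4) (x1 k4) (x2 k4) :=
  ⟨fun _ x => funext fun k4 => p.sem_zero (x k4), fun c _ _ _ _ _ _ h0 h1 h2 =>
    LR.zp3 (R := LR R1 .nil) (F := fun _ => p.sem) r2_nil_iff (fun _ => p.sem_zero)
      (fun _ _ _ _ _ _ _ => LR.cmbL r1_nil_iff (fun _ _ _ _ => R1.vad) (fun _ _ _ _ => R1.vsb) p)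
      0 h0 h1 h2 c⟩

theorem rf2 (p : Pat) :
    RF (cmb2 p) fun _ x0 x1 x2 k4 k3 => p.sem (x0 k4 k3) (x1 k4 k3) (x2 k4 k3) :=
  ⟨fun _ x => funext₂ fun k4 k3 => p.sem_zero (x k4 k3), fun c _ _ _ _ _ _ h0 h1 h2 =>
    LR.zp3 (R := LR R1 .nil) (F := fun _ x0 x1 x2 k3 => p.sem (x0 k3) (x1 k3) (x2 k3)) r2_nil_iff
      (fun _ x => funext fun k3 => p.sem_zero (x k3)) (fun c4 _ _ _ _ _ _ g0 g1 g2 =>
        LR.zp3 (F := fun _ => p.sem) r1_nil_iff (fun _ => p.sem_zero)
          (fun _ _ _ _ _ _ _ => R1.cmbV p) 0 g0 g1 g2 c4) 0 h0 h1 h2 c⟩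

theorem sM_spec (C : Ctx) (q c : ℕ) : (sM C q c).WF ∧ ∀ k v w,
    mk ((sM C q c).fst k) v + mk ((sM C q c).snd k) w = dS C q 1 (c + 4 * k) v +
      (dS C q 2 (c + 4 * k) w - dS C q 1 (c + 4 * k) (dS C q 2 (c + 4 * k) w)) := by
  have h (f g : ℕ → ℕ) (hw : ∀ i, wf (f i) (g i)) (n x : ℕ) : ∀ l : RL,
      l = Nat.rec (motive := fun _ => ℕ → RL) (fun _ => .nil)
        (fun _ ih x => .cons (f x) (g x) (frc (x + 4) ih)) n x → l.WF ∧ ∀ k,
        l.fst k = (if k < n then f (x + 4 * k) else 0) ∧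
          l.snd k = if k < n then g (x + 4 * k) else 0 := by
    induction n generalizing x with
    | zero => rintro _ rfl; exact ⟨trivial, fun k => ⟨rfl, rfl⟩⟩
    | succ n ih =>
      rintro _ rfl
      obtain ⟨h1, h2⟩ := ih (x + 4) _ (frc_eq _ _)
      refine ⟨⟨hw x, h1⟩, fun k => ?_⟩
      cases k with
      | zero => exact ⟨rfl, rfl⟩
      | succ k =>
        simp only [Nat.add_lt_add_iff_right, show x + 4 * (k + 1) = x + 4 + 4 * k by ring]
        exact h2 k
  obtain ⟨h1, h2⟩ := h (dm C q 1) (fun i => Nat.xor (dm C q 2 i)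
    (Nat.land (dm C q 2 i) (dm C q 1 i))) (fun i p => by
      simp only [Nat.xor_eq, Nat.land_eq, Nat.testBit_xor, Nat.testBit_and]
      cases (dm C q 1 i).testBit p <;> simp) (cnt C.T 4 c) c (sM C q c) rfl
  refine ⟨h1, fun k v w => ?_⟩
  rw [(h2 k).1, (h2 k).2]
  simp only [lt_cnt (show 0 < 4 by decide), dS]
  split_ifs
  · funext p
    simp only [mk_apply, Nat.xor_eq, Nat.land_eq, Nat.testBit_xor, Nat.testBit_and, Pi.add_apply,
      Pi.sub_apply]
    cases (dm C q 1 (c + 4 * k)).testBit p <;> cases (dm C q 2 (c + 4 * k)).testBit p <;> simp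
  · simp

theorem rf1 (C : Ctx) (q : ℕ) : RF (cmb1 C q) (cS1 C q) :=
  ⟨fun c x => by funext k4 k3 k2; simp [cS1, dS], fun c _ _ _ _ _ _ h0 h1 h2 =>
    LR.zp3 (R := LR R1 .nil) (F := fun c4 x0 x1 x2 k3 k2 => x0 k3 k2 +
      (dS C q 1 (c4 + 13 * k3 + 4 * k2) (x1 k3 k2) +
        (dS C q 2 (c4 + 13 * k3 + 4 * k2) (x2 k3 k2 - x1 k3 k2) - dS C q 1 (c4 + 13 * k3 + 4 * k2)
          (dS C q 2 (c4 + 13 * k3 + 4 * k2) (x2 k3 k2 - x1 k3 k2))))) r2_nil_iff
      (fun _ x => by funext k3 k2; simp [dS]) (fun c4 _ _ _ _ _ _ g0 g1 g2 =>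
        LR.zp3 (F := fun c3 x0 x1 x2 k2 => x0 k2 + (dS C q 1 (c3 + 4 * k2) (x1 k2) +
          (dS C q 2 (c3 + 4 * k2) (x2 k2 - x1 k2) - dS C q 1 (c3 + 4 * k2)
            (dS C q 2 (c3 + 4 * k2) (x2 k2 - x1 k2))))) r1_nil_iff
          (fun _ x => by funext k2; simp [dS]) (fun c3 _ _ _ _ _ _ e0 e1 e2 => by
            rw [frc_eq]
            exact (e0.cmbW (sM_spec C q c3).1 e1 e2).of_eq fun k => by rw [(sM_spec C q c3).2])
          13 g0 g1 g2 c4) 40 h0 h1 h2 c⟩

variable {fa : ℕ → A3 → A3 → A3 → A3} {F : ℕ → S3 → S3 → S3 → S3}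

/-- the substitution in one digit -/
def stepS (C : Ctx) (F : ℕ → S3 → S3 → S3 → S3) (w : ℕ) (us : List ST) (d c : ℕ) (x : S4) : S4 :=
  if c + w ≤ C.T then fun n => F (c + d * n) (x n) (mulS C us d (c + w) x n)
    (mulS C us d (c + w + w) (mulS C us d (c + w) x) n) else x

theorem R4.step (C : Ctx) (hf : RF fa F) (w : ℕ) {ts : List PT} {us : List ST}
    (ht : List.Forall₂ RT ts us) (d c : ℕ) {a : A4} {x : S4} (h : R4 a x) :
    R4 (step C fa w ts d c a) (stepS C F w us d c x) := by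
  rw [P236C.step, stepS]
  by_cases hc : c + w ≤ C.T
  · rw [if_pos hc, show Nat.ble (Nat.add c w) C.T = true from Nat.ble_eq_true_of_le hc]
    simp only [frc_eq]
    have h1 := h.mulR C ht d (c + w)
    exact LR.zp3 r3_nil_iff hf.1 hf.2 d h h1 (h1.mulR C ht d (c + w + w)) c
  · rw [if_neg hc, show Nat.ble (Nat.add c w) C.T = false from
      Bool.eq_false_iff.2 fun e => hc (Nat.le_of_ble_eq_true e)]
    exact h

/-- the contraction in one digit -/
def ctrS (F : ℕ → S3 → S3 → S3 → S3) (d c : ℕ) (x : S4) : S4 := fun n =>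
  F (c + d * n) (x (3 * n)) (x (3 * n + 1)) (x (3 * n + 2))

theorem R4.ctr (hf : RF fa F) (d c : ℕ) {a : A4} {x : S4} (h : R4 a x) :
    R4 (ctr fa d c a) (ctrS F d c x) := by
  have key (u l : A4) (hl : l.length ≤ u.length) (c : ℕ) (x : S4) (h : R4 l x) :
      R4 (List.rec (motive := fun _ => A4 → ℕ → A4) (fun _ _ => []) (fun _ _ ih l c =>
        List.rec [] (fun a0 t _ => List.rec [a0] (fun a1 u _ => List.rec [fa c a0 a1 []]
          (fun a2 v _ => fa c a0 a1 a2 :: ih v (Nat.add c d)) u) t) l) u l c) (ctrS F d c x) := by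
    have h0 {l : A4} {x : S4} (h : R4 l x) (c n : ℕ) (hn : l.length ≤ 3 * n) :
        ctrS F d c x n = 0 := by
      rw [ctrS, h.eq_zero hn, h.eq_zero (n := 3 * n + 1) (by omega),
        h.eq_zero (n := 3 * n + 2) (by omega), hf.1]
    induction u generalizing l c x with
    | nil => exact fun n => (r3_nil_iff _).2 (h0 h c n (hl.trans (Nat.zero_le _)))
    | cons _ u ih =>
      rcases l with _ | ⟨a0, _ | ⟨a1, _ | ⟨a2, v⟩⟩⟩
      · exact fun n => (r3_nil_iff _).2 (h0 h c n (Nat.zero_le _))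
      · refine R4.cons ?_ fun n => (r3_nil_iff _).2 (h0 h c _ (by simp; omega))
        rw [ctrS, h.eq_zero (n := 3 * 0 + 1) le_rfl, h.eq_zero (n := 3 * 0 + 2) (by simp), hf.1]
        exact h 0
      · exact R4.cons (hf.2 c _ _ _ _ _ _ (h 0) (h 1) (h 2))
          fun n => (r3_nil_iff _).2 (h0 h c _ (by simp; omega))
      · refine R4.cons (hf.2 c _ _ _ _ _ _ (h 0) (h 1) (h 2)) ((ih v (by simp at hl; omega) _
          (fun n => x (n + 3)) fun n => h (n + 3)).of_eq fun n k4 k3 k2 => ?_)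
        simp only [ctrS, Nat.add_eq, mul_add, mul_one, add_assoc, add_comm d]
  exact key a a le_rfl c x h

theorem chk3_sound (C : Ctx) (c : ℕ) {a e : A3} {x y : S3} (ha : R3 a x) (he : R3 e y)
    (h : chk3 C c a e = true) : cut C c x = cut C c y := by
  funext k4 k3 k2
  rw [cut, cut]
  split_ifs with hc
  · rw [chk3, allN_iff] at h
    have h4 := h k4 ((lt_cnt (by decide)).2 (show c + 40 * k4 ≤ C.T by omega))
    rw [frc_eq, allN_iff] at h4
    have h3 := h4 k3 ((lt_cnt (by decide)).2 (show c + 40 * k4 + 13 * k3 ≤ C.T by omega))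
    rw [frc_eq] at h3
    have h2 := chkV_sound _ h3 k2
    rw [mk_sG, mk_sG, (ha k4 k3).2, (he k4 k3).2] at h2
    change (if c + 40 * k4 + 13 * k3 + 4 * k2 ≤ C.T then _ else _) =
      (if c + 40 * k4 + 13 * k3 + 4 * k2 ≤ C.T then _ else _) at h2
    rwa [if_pos hc, if_pos hc] at h2
  · rfl

theorem testBit_dm (C : Ctx) {q : ℕ} (hq : 0 < q) (k c p : ℕ) : (dm C q k c).testBit p = true ↔
    ∃ i, c + 3 * q * i ≤ C.T ∧ (C.ge (c + q * (3 * i + k))).testBit p ≠
      (C.ge (c + q * (3 * i + k) + q)).testBit p := by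
  have h : ∀ n x : ℕ, Nat.testBit (Nat.rec (motive := fun _ => ℕ → ℕ) (fun _ => 0)
      (fun _ ih x => frc (x + q) fun y => Nat.lor (Nat.xor (C.ge x) (C.ge y))
        (frc (x + 3 * q) ih)) n x) p = true ↔
      ∃ i < n, (C.ge (x + 3 * q * i)).testBit p ≠ (C.ge (x + 3 * q * i + q)).testBit p := by
    intro n
    induction n with
    | zero => intro x; simp
    | succ n ih =>
      intro x
      simp only [frc_eq] at ih ⊢
      rw [Nat.exists_lt_succ_left, Nat.lor_eq, Nat.testBit_or, Bool.or_eq_true, ih]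
      simp only [Nat.xor_eq, Nat.testBit_xor, bne_iff_ne, mul_zero, add_zero, mul_add, mul_one,
        add_assoc, add_comm (3 * q)]
  refine ((congrArg (fun x : ℕ => x.testBit p = true) (frc_eq _ _)).to_iff.trans (h _ _)).trans ?_
  refine exists_congr fun i => and_congr (lt_cnt (Nat.mul_pos (by decide) hq)) ?_
  rw [show Nat.add c (Nat.mul q k) + 3 * q * i = c + q * (3 * i + k) by
    simp only [Nat.add_eq, Nat.mul_eq]; ring]

end Vale.Agent.P236C

end
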