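import Vale.Agent.P236C.Val

/-!
# P236C: literals, packed arrays and tables

The values of literal arrays, of packed arrays (`pack1`, `unpack`, `node`, `zlist`), of the tables
(`chn`, `zt1`, `ztab`) and of the coefficient arrays (`zid`, `xarr`).
-/

noncomputable section

namespace Vale.Agent.P236C

/-! ### literals -/

/-- the values of an array -/
def val3 (a : A3) : S3 := fun k4 k3 => (get2 a k4 k3).val

/-- the values of a list of arrays -/
def val4 (a : A4) : S4 := fun n => val3 (getL [] a n)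

theorem allL_cons {α : Type} (f : α → Bool) (a : α) (l : List α) :
    allL f (a :: l) = true ↔ f a = true ∧ allL f l = true := by
  change (Bool.rec false (allL f l) (f a) : Bool) = true ↔ _
  cases f a <;> simp

theorem allL_iff {α : Type} (f : α → Bool) (l : List α) :
    allL f l = true ↔ ∀ a ∈ l, f a = true := by
  induction l with
  | nil => simp [allL]
  | cons a l ih => rw [allL_cons, ih, List.forall_mem_cons]

theorem allL_getL {α : Type} {f : α → Bool} {l : List α} (h : allL f l = true) {d : α}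
    (hd : f d = true) (i : ℕ) : f (getL d l i) = true := by
  induction l generalizing i with
  | nil => exact hd
  | cons a l ih =>
    rw [allL_cons] at h
    cases i with
    | zero => exact h.1
    | succ i => exact ih h.2 i

theorem wfV_sound {l : RL} (h : wfV l = true) : l.WF := by
  induction l with
  | nil => trivial
  | cons a b t ih =>
    change (Bool.rec false (wfV t) (Nat.beq (Nat.land a b) 0) : Bool) = true at h
    cases e : Nat.beq (Nat.land a b) 0
    · rw [e] at h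
      cases h
    · rw [e] at h
      exact ⟨wf_iff.2 (Nat.eq_of_beq_eq_true e), ih h⟩

theorem wf4_sound {us : A4} (h : wf4 us = true) : R4 us (val4 us) := fun n k4 k3 =>
  ⟨wfV_sound (allL_getL (allL_getL (allL_getL h (d := []) rfl n) (d := []) rfl k4) rfl k3), rfl⟩

/-! ### concatenation of bit strings -/

theorem testBit_ones (l p : ℕ) : (ones l).testBit p = decide (p < l) := by
  change (1 <<< l - 1).testBit p = _
  rw [Nat.shiftLeft_eq, one_mul, Nat.testBit_two_pow_sub_one]

/-- all bits are below `l` -/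
def Bd (a l : ℕ) : Prop := ∀ p, a.testBit p = true → p < l

theorem Bd.mono {a l m : ℕ} (h : Bd a l) (e : l ≤ m) : Bd a m := fun p hp => (h p hp).trans_le e

theorem bd_zero (l : ℕ) : Bd 0 l := fun p hp => by simp at hp

theorem testBit_cat {a l : ℕ} (h : Bd a l) (x p : ℕ) : (Nat.lor a (Nat.shiftLeft x l)).testBit p =
    if p < l then a.testBit p else x.testBit (p - l) := by
  simp only [Nat.lor_eq, Nat.shiftLeft_eq', Nat.testBit_or, Nat.testBit_shiftLeft]
  split_ifs with hp
  · simp [show ¬l ≤ p by omega]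
  · simp [show l ≤ p by omega, Bool.eq_false_iff.2 fun e => hp (h p e)]

theorem Bd.cat {a l x m : ℕ} (h : Bd a l) (hx : Bd x m) :
    Bd (Nat.lor a (Nat.shiftLeft x l)) (l + m) := fun p hp => by
  rw [testBit_cat h] at hp
  split_ifs at hp with h1
  · omega
  · have := hx _ hp
    omega

theorem wf_cat {a b l x y : ℕ} (ha : Bd a l) (hb : Bd b l) (h : wf a b) (hx : wf x y) :
    wf (Nat.lor a (Nat.shiftLeft x l)) (Nat.lor b (Nat.shiftLeft y l)) := fun p => by
  rw [testBit_cat ha, testBit_cat hb]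
  split_ifs
  · exact h p
  · exact hx _

theorem foldN_succ' {β : Type} (n : ℕ) (f : ℕ → β → β) (b : β) :
    foldN (n + 1) f b = f 0 (foldN n (fun i => f (i + 1)) b) := by
  induction n generalizing b with
  | zero => rfl
  | succ n ih => rw [foldN_succ, ih, foldN_succ]

theorem catN_succ (n : ℕ) (l f : ℕ → ℕ) : catN (n + 1) l f =
    Nat.lor (f 0) (Nat.shiftLeft (catN n (fun i => l (i + 1)) fun i => f (i + 1)) (l 0)) :=
  foldN_succ' _ _ _

theorem bd_catN {n : ℕ} {l f : ℕ → ℕ} (h : ∀ i < n, Bd (f i) (l i)) :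
    Bd (catN n l f) (∑ i ∈ Finset.range n, l i) := by
  induction n generalizing l f with
  | zero => exact bd_zero _
  | succ n ih =>
    rw [catN_succ, Finset.sum_range_succ', add_comm]
    exact (h 0 n.succ_pos).cat (ih fun i hi => h (i + 1) (by omega))

theorem wf_catN {n : ℕ} {l f g : ℕ → ℕ} (hf : ∀ i < n, Bd (f i) (l i))
    (hg : ∀ i < n, Bd (g i) (l i)) (h : ∀ i < n, wf (f i) (g i)) :
    wf (catN n l f) (catN n l g) := by
  induction n generalizing l f g with
  | zero => exact wf_zero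
  | succ n ih =>
    rw [catN_succ, catN_succ]
    exact wf_cat (hf 0 n.succ_pos) (hg 0 n.succ_pos) (h 0 n.succ_pos)
      (ih (fun i hi => hf (i + 1) (by omega)) (fun i hi => hg (i + 1) (by omega))
        fun i hi => h (i + 1) (by omega))

theorem testBit_catN {n : ℕ} {l f : ℕ → ℕ} (h : ∀ i < n, Bd (f i) (l i)) {k : ℕ} (hk : k < n)
    {p : ℕ} (hp : p < l k) :
    (catN n l f).testBit (∑ i ∈ Finset.range k, l i + p) = (f k).testBit p := by
  induction n generalizing l f k with
  | zero => omega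
  | succ n ih =>
    rw [catN_succ, testBit_cat (h 0 n.succ_pos)]
    rcases k with _ | k
    · rw [Finset.sum_range_zero, zero_add, if_pos hp]
    · rw [Finset.sum_range_succ', if_neg (by omega), show
        ∑ i ∈ Finset.range k, l (i + 1) + l 0 + p - l 0 = ∑ i ∈ Finset.range k, l (i + 1) + p by
          omega]
      exact ih (l := fun i => l (i + 1)) (f := fun i => f (i + 1))
        (fun i hi => h (i + 1) (by omega)) (by omega) hp

/-- the first plane of a row of a vector -/
def RL.ra : RL → ℕ → ℕ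
  | .nil, _ => 0
  | .cons a _ _, 0 => a
  | .cons _ _ t, k + 1 => t.ra k

/-- the second plane of a row of a vector -/
def RL.rb : RL → ℕ → ℕ
  | .nil, _ => 0
  | .cons _ b _, 0 => b
  | .cons _ _ t, k + 1 => t.rb k

theorem RL.val_eq (l : RL) (k : ℕ) : l.val k = tv (l.ra k) (l.rb k) := by
  induction l generalizing k with
  | nil => exact tv_zero.symm
  | cons a b t ih =>
    cases k with
    | zero => rfl
    | succ k => exact ih k

theorem bd_ones (a l : ℕ) : Bd (Nat.land a (ones l)) l := fun p hp => by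
  simp only [Nat.land_eq, Nat.testBit_and, testBit_ones, Bool.and_eq_true, decide_eq_true_eq] at hp
  exact hp.2

theorem catV_cons (s : ℕ → ℕ → ℕ) (l : ℕ) (ls : List ℕ) (a b : ℕ) (t : RL) :
    catV s (l :: ls) (.cons a b t) =
      Nat.lor (Nat.land (s a b) (ones l)) (Nat.shiftLeft (catV s ls t) l) := rfl

theorem bd_catV (s : ℕ → ℕ → ℕ) (ls : List ℕ) (v : RL) : Bd (catV s ls v) ls.sum := by
  induction ls generalizing v with
  | nil => exact bd_zero _
  | cons l ls ih =>
    cases v with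
    | nil => exact bd_zero _
    | cons a b t =>
      rw [catV_cons, List.sum_cons]
      exact (bd_ones _ l).cat (ih t)

theorem wf_catV (ls : List ℕ) {v : RL} (h : v.WF) : wf (catV idF ls v) (catV swF ls v) := by
  induction ls generalizing v with
  | nil => exact wf_zero
  | cons l ls ih =>
    cases v with
    | nil => exact wf_zero
    | cons a b t =>
      rw [catV_cons, catV_cons]
      exact wf_cat (bd_ones _ l) (bd_ones _ l) (h.1.land _) (ih h.2)

theorem testBit_catV {s : ℕ → ℕ → ℕ} (hs : s 0 0 = 0) (ls : List ℕ) (v : RL) (k : ℕ) {p : ℕ}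
    (hp : p < getL 0 ls k) : (catV s ls v).testBit (∑ i ∈ Finset.range k, getL 0 ls i + p) =
      (s (v.ra k) (v.rb k)).testBit p := by
  induction ls generalizing v k with
  | nil => simp at hp
  | cons l ls ih =>
    cases v with
    | nil =>
      change (0 : ℕ).testBit _ = (s 0 0).testBit p
      rw [hs, Nat.zero_testBit, Nat.zero_testBit]
    | cons a b t =>
      rw [catV_cons, testBit_cat (bd_ones _ l)]
      rcases k with _ | k
      · rw [getL_zero] at hp
        rw [Finset.sum_range_zero, zero_add, if_pos hp]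
        simp [testBit_ones, hp, RL.ra, RL.rb]
      · rw [Finset.sum_range_succ', getL_zero, if_neg (by omega), show
          ∑ i ∈ Finset.range k, getL 0 (l :: ls) (i + 1) + l + p - l =
            ∑ i ∈ Finset.range k, getL 0 ls i + p by simp only [getL_succ]; omega]
        exact ih t k hp

/-! ### packed arrays -/

/-- the offset of a row in a packed vector -/
def off2 (C : Ctx) (c k : ℕ) : ℕ := ∑ i ∈ Finset.range k, C.ln (c + 4 * i)

/-- the offset of a row in a packed array -/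
def offP (C : Ctx) (c k4 k3 k2 : ℕ) : ℕ := off3 C c k4 k3 + off2 C (c + 40 * k4 + 13 * k3) k2

theorem getL_sL (C : Ctx) {c k : ℕ} (h : c + 4 * k ≤ C.T) :
    getL 0 (sL C c) k = C.ln (c + 4 * k) := by
  rw [sL, getL_str4, if_pos h]

theorem sum_sL (C : Ctx) {c k : ℕ} (h : c + 4 * k ≤ C.T) :
    ∑ i ∈ Finset.range k, getL 0 (sL C c) i = off2 C c k :=
  Finset.sum_congr rfl fun i hi => getL_sL C (by have := Finset.mem_range.1 hi; omega)

theorem tot2_eq (C : Ctx) (c : ℕ) : tot2 C c = off2 C c (cnt C.T 4 c) := sumN_eq _ _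

theorem sL_sum (C : Ctx) (c : ℕ) : (sL C c).sum = tot2 C c := by
  rw [tot2_eq, sL, str4_eq, tabN_eq, off2, Finset.sum_range, ← List.sum_ofFn]
  congr 1
  refine List.ext_getElem (by simp) fun i _ _ => by simp

theorem off2_lt (C : Ctx) {c k p : ℕ} (h : c + 4 * k ≤ C.T) (hp : p < C.ln (c + 4 * k)) :
    off2 C c k + p < tot2 C c := by
  rw [tot2_eq]
  have h1 : off2 C c (k + 1) ≤ off2 C c (cnt C.T 4 c) :=
    Finset.sum_le_sum_of_subset (Finset.range_mono ((lt_cnt (by decide)).2 h))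
  rw [off2, Finset.sum_range_succ] at h1
  exact lt_of_lt_of_le (Nat.add_lt_add_left hp _) h1

theorem len3_eq (C : Ctx) (c k : ℕ) : len3 C c k = tot2 C (c + 13 * k) := frc_eq _ _

theorem len4_eq (C : Ctx) (c k : ℕ) :
    len4 C c k = ∑ i ∈ Finset.range (cnt C.T 13 (c + 40 * k)), len3 C (c + 40 * k) i :=
  (frc_eq _ _).trans (sumN_eq _ _)

theorem off3_eq (C : Ctx) (c k4 k3 : ℕ) : off3 C c k4 k3 = ∑ i ∈ Finset.range k4, len4 C c i +
    ∑ i ∈ Finset.range k3, len3 C (c + 40 * k4) i := by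
  rw [off3, frc_eq, sumN_eq, sumN_eq]
  rfl

theorem pack1_eq (C : Ctx) (s : ℕ → ℕ → ℕ) (c : ℕ) (a : A3) : pack1 C s c a =
    catN (cnt C.T 40 c) (len4 C c) fun k4 => catN (cnt C.T 13 (c + 40 * k4)) (len3 C (c + 40 * k4))
      fun k3 => catV s (sL C (c + 40 * k4 + 13 * k3)) (get2 a k4 k3) := by
  simp only [pack1, frc_eq]
  rfl

theorem bd_pk3 (C : Ctx) (s : ℕ → ℕ → ℕ) (c k : ℕ) (v : RL) :
    Bd (catV s (sL C (c + 13 * k)) v) (len3 C c k) := by
  rw [len3_eq, ← sL_sum]
  exact bd_catV _ _ _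

theorem bd_pk4 (C : Ctx) (s : ℕ → ℕ → ℕ) (c k : ℕ) (v : ℕ → RL) :
    Bd (catN (cnt C.T 13 (c + 40 * k)) (len3 C (c + 40 * k))
      fun k3 => catV s (sL C (c + 40 * k + 13 * k3)) (v k3)) (len4 C c k) := by
  rw [len4_eq]
  exact bd_catN fun i _ => bd_pk3 C s _ i _

theorem testBit_pack1 (C : Ctx) {s : ℕ → ℕ → ℕ} (hs : s 0 0 = 0) (c : ℕ) (a : A3)
    {k4 k3 k2 p : ℕ} (h : c + 40 * k4 + 13 * k3 + 4 * k2 ≤ C.T)
    (hp : p < C.ln (c + 40 * k4 + 13 * k3 + 4 * k2)) :
    (pack1 C s c a).testBit (offP C c k4 k3 k2 + p) =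
      (s ((get2 a k4 k3).ra k2) ((get2 a k4 k3).rb k2)).testBit p := by
  have h2 := off2_lt C h hp
  have h3 : k3 < cnt C.T 13 (c + 40 * k4) := (lt_cnt (by decide)).2 (by omega)
  have h4 : ∑ i ∈ Finset.range (k3 + 1), len3 C (c + 40 * k4) i ≤ len4 C c k4 := by
    rw [len4_eq]
    exact Finset.sum_le_sum_of_subset (Finset.range_mono h3)
  rw [Finset.sum_range_succ, len3_eq C _ k3] at h4
  rw [pack1_eq, offP, off3_eq, add_assoc, add_assoc,
    testBit_catN (fun i _ => bd_pk4 C s c i _) ((lt_cnt (by decide)).2 (by omega)) (by omega),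
    testBit_catN (fun i _ => bd_pk3 C s _ i _) h3 (by rw [len3_eq]; exact h2), ← sum_sL C h,
    testBit_catV hs _ _ _ (by rw [getL_sL C h]; exact hp)]

theorem catV_nil (s : ℕ → ℕ → ℕ) (ls : List ℕ) : catV s ls .nil = 0 := by cases ls <;> rfl

theorem cat_cat (a b x l l' : ℕ) :
    Nat.lor (Nat.lor a (Nat.shiftLeft b l)) (Nat.shiftLeft x (Nat.add l l')) =
      Nat.lor a (Nat.shiftLeft (Nat.lor b (Nat.shiftLeft x l')) l) := by
  simp only [Nat.lor_eq, Nat.shiftLeft_eq', Nat.add_eq, Nat.shiftLeft_or_distrib, Nat.or_assoc,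
    ← Nat.shiftLeft_add, add_comm]

theorem cat_zero (a l : ℕ) : Nat.lor a (Nat.shiftLeft 0 l) = a := by simp

theorem pkP_eq (ls : List ℕ) : (∀ v, (pkP ls).1.f v = ⟨catV idF ls v, catV swF ls v⟩) ∧
    ∀ l v, ((pkP ls).2 l).f v = ⟨catV idF (l :: ls) v, catV swF (l :: ls) v⟩ := by
  induction ls with
  | nil =>
    refine ⟨fun _ => rfl, fun l v => ?_⟩
    cases v with
    | nil => rfl
    | cons a b t => exact congrArg₂ Row.mk (cat_zero _ _).symm (cat_zero _ _).symm
  | cons l' ls ih =>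
    refine ⟨ih.2 l', fun l v => ?_⟩
    rcases v with _ | ⟨a, b, _ | ⟨a', b', t⟩⟩
    · rfl
    · exact congrArg₂ Row.mk (cat_zero _ _).symm (cat_zero _ _).symm
    · simp only [catV_cons, ← cat_cat]
      exact congrArg₂ Row.mk
        (congrArg (fun z : Row => Nat.lor _ (Nat.shiftLeft z.a _)) (ih.1 t))
        (congrArg (fun z : Row => Nat.lor _ (Nat.shiftLeft z.b _)) (ih.1 t))

theorem catN_zero {n : ℕ} {l f : ℕ → ℕ} (h : ∀ i, f i = 0) : catN n l f = 0 := by
  induction n generalizing l f with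
  | zero => rfl
  | succ n ih => rw [catN_succ, ih fun i => h _, h, cat_zero]

theorem pkL_eq {α : Type} (d : α) {n : ℕ} {l : ℕ → ℕ} {p : ℕ → PB α} {F G : ℕ → α → ℕ}
    (h : ∀ i a, (p i).f a = ⟨F i a, G i a⟩) (hF : ∀ i, F i d = 0) (hG : ∀ i, G i d = 0)
    (v : List α) : (pkL n l p).f v =
      ⟨catN n l fun i => F i (getL d v i), catN n l fun i => G i (getL d v i)⟩ := by
  rcases n with _ | n
  · rfl
  induction n generalizing l p F G v with
  | zero =>
    cases v with
    | nil => exact congrArg₂ Row.mk (catN_zero hF).symm (catN_zero hG).symm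
    | cons a t => exact (h 0 a).trans (congrArg₂ Row.mk (cat_zero _ _).symm (cat_zero _ _).symm)
  | succ n ih =>
    have e : pkL (n + 1 + 1) l p = PB.mk fun v => List.rec row0 (fun a t _ =>
        Row.mk (Nat.lor ((p 0).f a).a (Nat.shiftLeft
            ((pkL (n + 1) (fun i => l (i + 1)) fun i => p (i + 1)).f t).a (l 0)))
          (Nat.lor ((p 0).f a).b (Nat.shiftLeft
            ((pkL (n + 1) (fun i => l (i + 1)) fun i => p (i + 1)).f t).b (l 0)))) v :=
      foldN_succ' _ _ _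
    rw [e]
    cases v with
    | nil => exact congrArg₂ Row.mk (catN_zero hF).symm (catN_zero hG).symm
    | cons a t =>
      rw [catN_succ (n + 1) l fun i => F i _, catN_succ (n + 1) l fun i => G i _]
      simp only [h 0, ih (fun i => h (i + 1)) (fun i => hF _) (fun i => hG _) t, getL_zero,
        getL_succ]

theorem pkA_eq (C : Ctx) (c : ℕ) (a : A3) :
    (pkA C c).f a = ⟨pack1 C idF c a, pack1 C swF c a⟩ := by
  rw [pack1_eq, pack1_eq]
  refine pkL_eq [] (F := fun k4 (b : List RL) => catN (cnt C.T 13 (c + 40 * k4))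
      (len3 C (c + 40 * k4)) fun k3 => catV idF (sL C (c + 40 * k4 + 13 * k3)) (getL .nil b k3))
    (G := fun k4 (b : List RL) => catN (cnt C.T 13 (c + 40 * k4))
      (len3 C (c + 40 * k4)) fun k3 => catV swF (sL C (c + 40 * k4 + 13 * k3)) (getL .nil b k3))
    (fun k4 b => ?_) (fun _ => catN_zero fun _ => catV_nil _ _)
    (fun _ => catN_zero fun _ => catV_nil _ _) a
  rw [frc_eq]
  refine pkL_eq .nil (F := fun k3 => catV idF (sL C (c + 40 * k4 + 13 * k3)))
    (G := fun k3 => catV swF (sL C (c + 40 * k4 + 13 * k3))) (fun k3 v => ?_)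
    (fun _ => catV_nil _ _) (fun _ => catV_nil _ _) b
  rw [frc_eq]
  exact (pkP_eq _).1 v

theorem getT_eq (l : A4) (j : ℕ) : getT l j = getL [] l j := by
  have h : ∀ i, getL [] (Nat.rec l (fun _ ih => tlL ih) j : A4) i = getL [] l (i + j) := by
    induction j with
    | zero => exact fun _ => rfl
    | succ j ih => exact fun i => (getL_tlL _ i).trans ((ih _).trans (by rw [add_right_comm]; rfl))
  rw [getT, hdL_eq, h, zero_add]

theorem cutB_eq (ms ls : List ℕ) (a b : ℕ) : (cutB ms ls).f a b = cutV ms ls a b := by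
  induction ms generalizing ls a b with
  | nil => rfl
  | cons m ms ih =>
    cases ls with
    | nil => rfl
    | cons l ls => exact congrArg (RL.cons _ _) (ih ls _ _)

theorem lstB_eq {α : Type} (n : ℕ) (p : ℕ → UB α) (a b : ℕ) :
    (lstB n p).f a b = tabN n fun i => (p i).f a b := by
  rw [tabN_eq]
  induction n generalizing p with
  | zero => rfl
  | succ n ih =>
    rw [List.range_succ_eq_map, List.map_cons, List.map_map, lstB, foldN_succ']
    exact congrArg (_ :: ·) (ih fun i => p (i + 1))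

theorem unpack_eq (C : Ctx) (c0 c a b : ℕ) : unpack C c0 c a b =
    tab3 C.T c fun k4 k3 c3 => frc (Nat.sub (Nat.add c3 c0) c) fun e => cutV (sG C c3) (sL C e)
      (Nat.land (Nat.shiftRight a (off3 C c0 k4 k3)) (ones (tot2 C e)))
      (Nat.land (Nat.shiftRight b (off3 C c0 k4 k3)) (ones (tot2 C e))) := by
  simp only [unpack, unpB, tab3, lstB_eq, frc_eq, ← cutB_eq]
  refine congrArg _ (funext fun k4 => congrArg _ (funext fun k3 => ?_))
  cases off3 C c0 k4 k3 <;> rfl

/-- The packed row `v` in the layout of degree `c` has the values `x`. -/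
def RP (C : Ctx) (c : ℕ) (v : V) (x : S3) : Prop := ∀ k4 k3 k2 p,
  c + 40 * k4 + 13 * k3 + 4 * k2 ≤ C.T → p < C.ln (c + 40 * k4 + 13 * k3 + 4 * k2) →
    v (offP C c k4 k3 k2 + p) = x k4 k3 k2 p

theorem R3.wf_pack (C : Ctx) (c : ℕ) {a : A3} {x : S3} (h : R3 a x) :
    wf (pack1 C idF c a) (pack1 C swF c a) := by
  rw [pack1_eq, pack1_eq]
  exact wf_catN (fun i _ => bd_pk4 C _ c i _) (fun i _ => bd_pk4 C _ c i _) fun k4 _ =>
    wf_catN (fun i _ => bd_pk3 C _ _ i _) (fun i _ => bd_pk3 C _ _ i _) fun k3 _ =>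
      wf_catV _ (h k4 k3).1

theorem R3.rp_pack (C : Ctx) (c : ℕ) {a : A3} {x : S3} (h : R3 a x) :
    RP C c (tv (pack1 C idF c a) (pack1 C swF c a)) x := fun k4 k3 k2 p hc hp => by
  rw [← (h k4 k3).2, RL.val_eq, tv, tv, testBit_pack1 C rfl c a hc hp,
    testBit_pack1 C rfl c a hc hp]
  rfl

theorem RP.sum {C : Ctx} {c : ℕ} {ι : Type} (s : Finset ι) (r : ι → ZMod 3) {v : ι → V}
    {x : ι → S3} (h : ∀ i ∈ s, RP C c (v i) (x i)) :
    RP C c (∑ i ∈ s, r i • v i) (∑ i ∈ s, r i • x i) := fun k4 k3 k2 p hc hp => by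
  simp only [Finset.sum_apply, Pi.smul_apply]
  exact Finset.sum_congr rfl fun i hi => by rw [h i hi k4 k3 k2 p hc hp]

theorem r1_cutV (ms ls : List ℕ) {a b : ℕ} (h : wf a b) : R1 (cutV ms ls a b) fun k =>
    if k < ls.length then mk (getL 0 ms k) (shr (∑ i ∈ Finset.range k, getL 0 ls i) (tv a b))
    else 0 := by
  induction ms generalizing ls a b with
  | nil => exact r1_nil.of_eq fun k => by simp
  | cons m ms ih =>
    cases ls with
    | nil => exact r1_nil.of_eq fun k => by simp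
    | cons l ls =>
      refine R1.cons (h.land m) ?_ ((ih ls (h.shiftRight l)).of_eq fun k => ?_)
      · rw [tv_land, if_pos (by simp)]
        congr 1
        funext p
        simp [shr_apply]
      · rw [tv_shiftRight, Finset.sum_range_succ']
        refine if_congr (by simp) ?_ rfl
        congr 1
        funext p
        simp only [shr_apply, getL_succ, getL_zero]
        congr 1
        omega

/-- The masks only contain positions below the bounds. -/
def Ctx.LnOk (C : Ctx) : Prop :=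
  ∀ e c p, e ≤ c → c ≤ C.T → (C.ge c).testBit p = true → p < C.ln e

theorem RP.unpack {C : Ctx} (hC : C.LnOk) {c0 c a b : ℕ} (hc : c0 ≤ c) (h : wf a b) {x : S3}
    (hx : RP C c0 (tv a b) x) : R3 (unpack C c0 c a b) (cut C c x) := by
  rw [unpack_eq]
  refine (r3_tab3 (x := fun k4 k3 k2 => cut C c x k4 k3 k2) fun k4 k3 _ => ?_).of_eq
    fun k4 k3 k2 => ?_
  · rw [frc_eq, show Nat.sub (Nat.add (c + 40 * k4 + 13 * k3) c0) c = c0 + 40 * k4 + 13 * k3 by
      simp only [Nat.add_eq, Nat.sub_eq]; omega]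
    refine (r1_cutV _ _ ((h.shiftRight _).land _)).of_eq fun k2 => ?_
    rw [mk_sG, cut]
    by_cases h1 : c + 40 * k4 + 13 * k3 + 4 * k2 ≤ C.T
    · have h2 : c0 + 40 * k4 + 13 * k3 + 4 * k2 ≤ C.T := by omega
      rw [if_pos h1, if_pos h1, if_pos (by
        rw [sL, str4_eq, length_tabN]; exact (lt_cnt (by decide)).2 h2), sum_sL C h2, tv_land,
        tv_shiftRight]
      funext p
      rw [mk_apply, mk_apply]
      split_ifs with h3
      · have h4 := hC (c0 + 40 * k4 + 13 * k3 + 4 * k2) _ p (by omega) h1 h3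
        rw [shr_apply, mk_apply, testBit_ones, if_pos (decide_eq_true (off2_lt C h2 h4)),
          shr_apply, ← add_assoc]
        exact hx k4 k3 k2 p h2 h4
      · rfl
    · rw [if_neg h1, if_neg h1, ite_self]
  · split_ifs with h1
    · rfl
    · rw [cut, if_neg (by omega)]

theorem bnd_le (c : ℕ) : bnd c ≤ c := Nat.sub_le _ _

theorem r3_node {C : Ctx} (hC : C.LnOk) {zl : ℕ → RL} {c : ℕ} {y : ℕ → V} (h : R1 (zl c) y)
    {z : ℕ → S3} (hz : ∀ i < (zl c).len, RP C (bnd c) (y i) (z i)) (x : ℕ) :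
    R3 (node C zl c x) (cut C c (∑ i ∈ Finset.range (zl c).len, cf (x / 4 ^ i % 4) • z i)) := by
  rcases x with _ | x
  · refine r3_nil.of_eq fun k4 k3 k2 => ?_
    rw [Finset.sum_eq_zero fun i _ => by simp [cf], cut_zero]
  · have h1 := h.comb (x + 1) wf_zero
    have e : node C zl c (x + 1) = unpack C (bnd c) c (comb (zl c) (x + 1) 0 0).a
      (comb (zl c) (x + 1) 0 0).b :=
      frc_eq (bnd c) fun c0 => unpack C c0 c (comb (zl c) (x + 1) 0 0).a (comb (zl c) (x + 1) 0 0).b
    rw [e]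
    refine RP.unpack hC (bnd_le c) h1.1 ?_
    rw [h1.2, tv_zero, zero_add]
    exact RP.sum _ _ fun i hi => hz i (Finset.mem_range.1 hi)

theorem r1_foldN (n : ℕ) {r : ℕ → Row} {y : ℕ → V}
    (h : ∀ k < n, wf (r k).a (r k).b ∧ tv (r k).a (r k).b = y k) :
    R1 (foldN n (fun k l => RL.cons (r k).a (r k).b l) .nil) fun k => if k < n then y k else 0 := by
  induction n generalizing r y with
  | zero => exact r1_nil.of_eq fun k => by simp
  | succ n ih =>
    rw [foldN_succ']
    exact R1.cons (h 0 n.succ_pos).1 (by simpa using (h 0 n.succ_pos).2)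
      ((ih (r := fun k => r (k + 1)) fun k hk => h (k + 1) (by omega)).of_eq fun k => by simp)

theorem testBit_pm (C : Ctx) (g1 : ℕ → ℕ) (j c : ℕ) {k4 k3 k2 p : ℕ}
    (h : c + 40 * k4 + 13 * k3 + 4 * k2 ≤ C.T) (hp : p < C.ln (c + 40 * k4 + 13 * k3 + 4 * k2)) :
    (pm C g1 j c).testBit (offP C c k4 k3 k2 + p) = (g1 j).testBit p := by
  rw [pm, pkA_eq, testBit_pack1 C rfl _ _ h hp, get2_tab3, if_pos (by omega)]
  have key : ∀ n k, k < n → (foldN n (fun _ l => RL.cons (g1 j) 0 l) RL.nil).ra k = g1 j := by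
    intro n
    induction n with
    | zero => omega
    | succ n ih =>
      intro k hk
      rw [foldN_succ']
      cases k with
      | zero => rfl
      | succ k => exact ih k (by omega)
  exact congrArg (·.testBit p) (key _ _ ((lt_cnt (by decide)).2 h))

/-- multiplication by `v₁ ^ j` on rows -/
def sh1 (g1 : ℕ → ℕ) (j : ℕ) (v : V) : V := if j = 0 then v else mk (g1 j) (shl j v)

theorem RP.sh {C : Ctx} {c : ℕ} {v : V} {x : S3} (h : RP C c v x) {g1 : ℕ → ℕ} {j : ℕ}
    (hg : ∀ p, (g1 j).testBit p = true → j ≤ p) :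
    RP C c (mk (pm C g1 j c) (shl j v)) fun k4 k3 k2 => mk (g1 j) (shl j (x k4 k3 k2)) :=
  fun k4 k3 k2 p hc hp => by
    beta_reduce
    rw [mk_apply, mk_apply, testBit_pm C g1 j c hc hp]
    split_ifs with h1
    · have h2 := hg p h1
      rw [shl_apply, shl_apply, if_pos h2, if_pos (by omega), Nat.add_sub_assoc h2]
      exact h k4 k3 k2 _ hc (by omega)
    · rfl

/-- the default monomial -/
def ie0 : IE := ⟨0, 0, 0, 0, 0⟩

/-- the array of the monomial `e` -/
def zS (g1 : ℕ → ℕ) (Z : ℕ → ℕ → ℕ → S4) (e : IE) : S3 :=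
  fun k4 k3 k2 => sh1 g1 e.j1 (Z e.i e.j4 e.j3 e.j2 k4 k3 k2)

/-- the packed arrays of a list of monomials -/
def zl1 (C : Ctx) (g1 : ℕ → ℕ) (zt : List (List (List A4))) (c0 : ℕ) (l : List IE) : RL :=
  List.rec RL.nil (fun e _ ih => IE.rec (fun i j1 j2 j3 j4 =>
    Row.rec (fun a b => Nat.rec (RL.cons a b ih) (fun _ _ =>
      RL.cons (Nat.land (Nat.shiftLeft a j1) (pm C g1 j1 c0))
        (Nat.land (Nat.shiftLeft b j1) (pm C g1 j1 c0)) ih) j1) (zp C zt i j4 j3 j2 c0)) e) l

theorem zlist_eq (C : Ctx) (g1 : ℕ → ℕ) (ds : List ℕ) (zt : List (List (List A4))) (c : ℕ) :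
    zlist C g1 ds zt c = zl1 C g1 zt (bnd c) (inner c ds 0) :=
  frc_eq (bnd c) fun c0 => zl1 C g1 zt c0 (inner c ds 0)

theorem zp_eq (C : Ctx) (zt : List (List (List A4))) (i j4 j3 j2 c0 : ℕ) :
    zp C zt i j4 j3 j2 c0 = ⟨pack1 C idF c0 (getL [] (getL [] (getL [] (getL [] zt i) j4) j3) j2),
      pack1 C swF c0 (getL [] (getL [] (getL [] (getL [] zt i) j4) j3) j2)⟩ := by
  simp only [zp, fin_eq, pkA_eq, getT_eq]

theorem zl1_spec (C : Ctx) {g1 : ℕ → ℕ} {zt : List (List (List A4))} {Z : ℕ → ℕ → ℕ → S4}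
    (hZ : ∀ i j4 j3, R4 (getL [] (getL [] (getL [] zt i) j4) j3) (Z i j4 j3)) (c0 : ℕ)
    (l : List IE) (hl : ∀ e ∈ l, ∀ p, (g1 e.j1).testBit p = true → e.j1 ≤ p) :
    (zl1 C g1 zt c0 l).WF ∧ (zl1 C g1 zt c0 l).len = l.length ∧
      ∀ i < l.length, RP C c0 ((zl1 C g1 zt c0 l).val i) (zS g1 Z (getL ie0 l i)) := by
  induction l with
  | nil => exact ⟨trivial, rfl, fun i hi => by simp at hi⟩
  | cons e l ih =>
    obtain ⟨i, j1, j2, j3, j4⟩ := e
    obtain ⟨h1, h2, h3⟩ := ih fun e he => hl e (List.mem_cons_of_mem _ he)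
    have h4 := hZ i j4 j3 j2
    have h5 := hl _ List.mem_cons_self
    rcases j1 with _ | j1
    · have e : zl1 C g1 zt c0 (⟨i, 0, j2, j3, j4⟩ :: l) = .cons (zp C zt i j4 j3 j2 c0).a
          (zp C zt i j4 j3 j2 c0).b (zl1 C g1 zt c0 l) := rfl
      rw [e, zp_eq]
      refine ⟨⟨h4.wf_pack C _, h1⟩, congrArg (· + 1) h2, fun k hk => ?_⟩
      cases k with
      | zero => exact h4.rp_pack C _
      | succ k => exact h3 k (by simpa using hk)
    · have e : zl1 C g1 zt c0 (⟨i, j1 + 1, j2, j3, j4⟩ :: l) = .cons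
          (Nat.land (Nat.shiftLeft (zp C zt i j4 j3 j2 c0).a (j1 + 1)) (pm C g1 (j1 + 1) c0))
          (Nat.land (Nat.shiftLeft (zp C zt i j4 j3 j2 c0).b (j1 + 1)) (pm C g1 (j1 + 1) c0))
          (zl1 C g1 zt c0 l) := rfl
      rw [e, zp_eq]
      refine ⟨⟨((h4.wf_pack C _).shiftLeft _).land _, h1⟩, congrArg (· + 1) h2, fun k hk => ?_⟩
      cases k with
      | zero =>
        rw [RL.val, tv_land, tv_shiftLeft]
        exact (h4.rp_pack C _).sh h5
      | succ k => exact h3 k (by simpa using hk)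

/-- **The array of a node** is the linear combination of the arrays of the monomials. -/
theorem r3_node_zlist {C : Ctx} (hC : C.LnOk) {g1 : ℕ → ℕ} (ds : List ℕ)
    {zt : List (List (List A4))} {Z : ℕ → ℕ → ℕ → S4}
    (hZ : ∀ i j4 j3, R4 (getL [] (getL [] (getL [] zt i) j4) j3) (Z i j4 j3)) (c : ℕ)
    (hg : ∀ e ∈ inner c ds 0, ∀ p, (g1 e.j1).testBit p = true → e.j1 ≤ p) (x : ℕ) :
    R3 (node C (zlist C g1 ds zt) c x) (cut C c (∑ i ∈ Finset.range (inner c ds 0).length,
      cf (x / 4 ^ i % 4) • zS g1 Z (getL ie0 (inner c ds 0) i))) := by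
  obtain ⟨h1, h2, h3⟩ := zl1_spec C hZ (bnd c) _ hg
  rw [← zlist_eq] at h1 h2 h3
  rw [← h2] at h3 ⊢
  exact r3_node hC ⟨h1, rfl⟩ h3 x

/-! ### the tables -/

/-- iteration with the degrees `c, c + d, …` -/
def itr {α : Type} (f : ℕ → α → α) (d c : ℕ) (a : α) : ℕ → α
  | 0 => a
  | i + 1 => f (c + d * (i + 1)) (itr f d c a i)

theorem itr_succ' {α : Type} (f : ℕ → α → α) (d c : ℕ) (a : α) (i : ℕ) :
    itr f d c a (i + 1) = itr f d (c + d) (f (c + d) a) i := by
  induction i with
  | zero => simp [itr]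
  | succ i ih => rw [itr, ih, itr, show c + d * (i + 1 + 1) = c + d + d * (i + 1) by ring]

theorem getL_chn {α : Type} (z : α) (n : ℕ) (f : ℕ → A3 → A3) (d : ℕ) (g : ℕ → A3 → α) (c : ℕ)
    (a : A3) (i : ℕ) :
    getL z (chn n f d g c a) i = if i < n then g (c + d * i) (itr f d c a i) else z := by
  induction n generalizing c a i with
  | zero => rfl
  | succ n ih =>
    have e : chn (n + 1) f d g c a = g c a :: chn n f d g (c + d) (f (c + d) a) :=
      congrArg _ (frc_eq _ _)
    rw [e]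
    cases i with
    | zero => simp [itr]
    | succ i =>
      rw [getL_succ, ih, itr_succ', show c + d + d * i = c + d * (i + 1) by ring]
      simp

/-- multiplication of an array by a polynomial -/
def mE (C : Ctx) (us : List ST) (c : ℕ) (x : S3) : S3 :=
  cut C c (sumS us fun n => if n = 0 then x else 0)

theorem R3.itr (C : Ctx) {n : ℕ} {us : List ST} (ht : List.Forall₂ RT (C.tm 5 n 1) us) (d c : ℕ)
    {a : A3} {x : S3} (h : R3 a x) (i : ℕ) :
    R3 (itr (mulE C n) d c a i) (itr (mE C us) d c x i) := by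
  induction i with
  | zero => exact h
  | succ i ih => exact R4.mul3 C ht _ (R4.single ih)

/-- three interlaced iterations -/
def it3 {α : Type} (f : ℕ → α → α) : ℕ → ℕ → α → α → α → α
  | 0, _, a0, _, _ => a0
  | i + 1, c, a0, a1, a2 => it3 f i (c + 4) a1 a2 (f (c + 12) a0)

theorem r3_chn3 (C : Ctx) {us : List ST} (ht : List.Forall₂ RT (C.tm 5 1 3) us) (n i c : ℕ)
    {a0 a1 a2 : A3} {x0 x1 x2 : S3} (h0 : R3 a0 x0) (h1 : R3 a1 x1) (h2 : R3 a2 x2) :
    R3 (getL [] (chn3 C n c a0 a1 a2) i) (if i < n then it3 (mE C us) i c x0 x1 x2 else 0) := by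
  induction n generalizing i c a0 a1 a2 x0 x1 x2 with
  | zero => exact r3_nil
  | succ n ih =>
    have e : chn3 C (n + 1) c a0 a1 a2 =
        a0 :: chn3 C n (c + 4) a1 a2 (mul3 C (C.tm 5 1 3) (c + 12) [a0]) := by
      change (a0 :: frc (c + 4) fun c1 => chn3 C n c1 a1 a2 (frc (c + 12) fun c3 =>
        mul3 C (C.tm 5 1 3) c3 [a0])) = _
      rw [frc_eq, frc_eq]
    rw [e]
    cases i with
    | zero => exact h0
    | succ i =>
      simp only [Nat.add_lt_add_iff_right]
      exact ih i (c + 4) h1 h2 (R4.mul3 C ht (c + 12) (R4.single h0))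

/-- the multiples by the powers of `η v₂` -/
def z0S (C : Ctx) (E : ℕ → List ST) (c : ℕ) (x : S3) (j : ℕ) : S3 :=
  it3 (mE C (E 0)) j c x (mE C (E 1) (c + 4) x) (mE C (E 1) (c + 8) (mE C (E 1) (c + 4) x))

/-- the table of one generator -/
def ztS (C : Ctx) (E : ℕ → List ST) (c : ℕ) (x : S3) (j4 j3 : ℕ) : S4 := fun j2 =>
  if c + 40 * j4 + 13 * j3 + 4 * j2 ≤ C.T then z0S C E (c + 40 * j4 + 13 * j3)
    (itr (mE C (E 2)) 13 (c + 40 * j4) (itr (mE C (E 3)) 40 c x j4) j3) j2 else 0

theorem R3.zt0 (C : Ctx) {E : ℕ → List ST} (h0 : List.Forall₂ RT (C.tm 5 1 3) (E 0))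
    (h1 : List.Forall₂ RT (C.tm 5 1 1) (E 1)) (c : ℕ) {a : A3} {x : S3} (h : R3 a x) (j : ℕ) :
    R3 (getL [] (zt0 C c a) j) (if c + 4 * j ≤ C.T then z0S C E c x j else 0) := by
  have h2 := R4.mul3 C h1 (c + 4) (R4.single h)
  have := r3_chn3 C h0 (cnt C.T 4 c) j c h h2 (R4.mul3 C h1 (c + 8) (R4.single h2))
  simp only [lt_cnt (show 0 < 4 by decide)] at this
  simp only [P236C.zt0, frc_eq]
  exact this

theorem R3.zt1 (C : Ctx) {E : ℕ → List ST} (h0 : List.Forall₂ RT (C.tm 5 1 3) (E 0))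
    (h1 : List.Forall₂ RT (C.tm 5 1 1) (E 1))
    (h2 : List.Forall₂ RT (C.tm 5 2 1) (E 2)) (h3 : List.Forall₂ RT (C.tm 5 3 1) (E 3)) (c : ℕ)
    {a : A3} {x : S3} (h : R3 a x) (j4 j3 : ℕ) :
    R4 (getL [] (getL [] (zt1 C c a) j4) j3) (ztS C E c x j4 j3) := fun j2 => by
  rw [P236C.zt1, getL_chn, ztS]
  by_cases e4 : j4 < cnt C.T 40 c
  · rw [if_pos e4, getL_chn]
    by_cases e3 : j3 < cnt C.T 13 (c + 40 * j4)
    · rw [if_pos e3]
      exact ((h.itr C h3 40 c j4).itr C h2 13 _ j3).zt0 C h0 h1 _ j2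
    · rw [if_neg e3, if_neg fun e => e3 ((lt_cnt (by decide)).2 (by omega))]
      exact r3_nil
  · rw [if_neg e4, if_neg fun e => e4 ((lt_cnt (by decide)).2 (by omega))]
    exact r3_nil

/-- the table of all generators -/
def ztabS (C : Ctx) (E : ℕ → List ST) (ds : List ℕ) (u : S4) (i j4 j3 : ℕ) : S4 :=
  if i < ds.length then ztS C E (getL 0 ds i) (u i) j4 j3 else 0

theorem R4.ztab (C : Ctx) {E : ℕ → List ST} (h0 : List.Forall₂ RT (C.tm 5 1 3) (E 0))
    (h1 : List.Forall₂ RT (C.tm 5 1 1) (E 1))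
    (h2 : List.Forall₂ RT (C.tm 5 2 1) (E 2)) (h3 : List.Forall₂ RT (C.tm 5 3 1) (E 3))
    (ds : List ℕ) {us : A4} {u : S4} (h : R4 us u) (i j4 j3 : ℕ) :
    R4 (getL [] (getL [] (getL [] (ztab C ds us) i) j4) j3) (ztabS C E ds u i j4 j3) := by
  induction ds generalizing us u i with
  | nil => exact r4_nil
  | cons d ds ih =>
    cases i with
    | zero => exact h.hdL.zt1 C h0 h1 h2 h3 d j4 j3
    | succ i => exact (ih h.tlL i).of_eq fun _ _ _ _ => by simp [ztabS]

/-! ### the monomials -/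

theorem foldN_append {α : Type} (n : ℕ) {f : ℕ → List α → List α}
    (h : ∀ i l, f i l = f i [] ++ l) (l : List α) : foldN n f l = foldN n f [] ++ l := by
  induction n generalizing l with
  | zero => rfl
  | succ n ih => rw [foldN_succ, foldN_succ, ih, ih (f n []), h, List.append_assoc]

theorem foldN_mem {α : Type} {P : α → Prop} (n : ℕ) {f : ℕ → List α → List α}
    (h : ∀ i < n, ∀ l, (∀ a ∈ l, P a) → ∀ a ∈ f i l, P a) {l : List α} (hl : ∀ a ∈ l, P a) :
    ∀ a ∈ foldN n f l, P a := by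
  induction n generalizing l with
  | zero => exact hl
  | succ n ih =>
    rw [foldN_succ]
    exact ih (fun i hi => h i (by omega)) (h n n.lt_succ_self l hl)

theorem inn1_eq (i j4 j3 m : ℕ) (l : List IE) : inn1 i j4 j3 m l = ⟨i, m % 4, m / 4, j3, j4⟩ ::
    if m % 4 ≤ 1 ∧ 4 ≤ m then ⟨i, m % 4 + 4, m / 4 - 1, j3, j4⟩ :: l else l := by
  simp only [inn1, frc_eq]
  change _ :: (Bool.rec l (Nat.rec l (fun k' _ => IE.mk i (m % 4 + 4) k' j3 j4 :: l) (m / 4))
    (Nat.ble (m % 4) 1) : List IE) = _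
  congr 1
  by_cases h : m % 4 ≤ 1
  · rw [Nat.ble_eq_true_of_le h]
    rcases e : m / 4 with _ | k
    · rw [if_neg (by omega)]
      rfl
    · rw [if_pos ⟨h, by omega⟩]
      rfl
  · rw [Bool.eq_false_iff.2 fun e => h (Nat.le_of_ble_eq_true e), if_neg fun e => h e.1]

theorem foldN_map {α β : Type} (φ : β → α) (n : ℕ) {f : ℕ → List α → List α}
    {g : ℕ → List β → List β} (l : List α)
    (h : ∀ i < n, ∀ m, f i (m.map φ ++ l) = (g i m).map φ ++ l) (m : List β) :
    foldN n f (m.map φ ++ l) = (foldN n g m).map φ ++ l := by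
  induction n generalizing m with
  | zero => rfl
  | succ n ih =>
    rw [foldN_succ, foldN_succ, h n n.lt_succ_self, ih fun i hi => h i (by omega)]

theorem inn1_mon1 (i j4 j3 m : ℕ) (l : List IE) (u : List (ℕ → IE)) :
    inn1 i j4 j3 m (u.map (· i) ++ l) = (mon1 j4 j3 m u).map (· i) ++ l := by
  simp only [inn1, mon1, frc_eq]
  cases Nat.ble (Nat.mod m (nat_lit 4)) (nat_lit 1)
  · rfl
  · cases Nat.div m (nat_lit 4) <;> rfl

theorem cnt_add (a : ℕ) {d : ℕ} (hd : 0 < d) (m : ℕ) : cnt (a + m) d a = m / d + 1 := by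
  change (a + m + d - a) / d = _
  rw [show a + m + d - a = m + d by omega, Nat.add_div_right _ hd]

theorem innG_mon (i d m : ℕ) (l : List IE) : innG (d + m) i d l = (mon m).map (· i) ++ l := by
  rw [innG, show cnt (d + m) (nat_lit 40) d = m / 40 + 1 from cnt_add d (by decide) m]
  refine foldN_map (fun g : ℕ → IE => g i) _ l (fun j4 h4 u => ?_) []
  obtain ⟨m4, rfl⟩ := Nat.exists_eq_add_of_le (show 40 * j4 ≤ m by omega)
  rw [frc_eq, frc_eq, show Nat.sub (40 * j4 + m4) (Nat.mul (nat_lit 40) j4) = m4 from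
    Nat.add_sub_cancel_left _ _, ← add_assoc,
    show cnt (d + 40 * j4 + m4) (nat_lit 13) (Nat.add d (Nat.mul (nat_lit 40) j4)) = m4 / 13 + 1
      from cnt_add _ (by decide) m4]
  refine foldN_map (fun g : ℕ → IE => g i) _ l (fun j3 _ u => ?_) u
  rw [inn1_mon1]
  exact congrArg (fun x => (mon1 j4 j3 x u).map (· i) ++ l) (Nat.add_sub_add_left _ _ _)

theorem innG_lt {c d : ℕ} (h : c < d) (i : ℕ) (l : List IE) : innG c i d l = l := by
  rw [innG, show cnt c (nat_lit 40) d = 0 from Nat.div_eq_of_lt (by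
    simp only [Nat.add_eq, Nat.sub_eq]; omega)]
  rfl

theorem inner_cons (c d : ℕ) (ds : List ℕ) (i : ℕ) :
    inner c (d :: ds) i = innG c i d (inner c ds (i + 1)) := by
  change Nat.rec (motive := fun _ => List IE) (inner c ds (i + 1)) (fun m _ =>
    List.rec (inner c ds (i + 1)) (fun g _ l => g i :: l) (mon m)) (c + 1 - d) = _
  rcases lt_or_ge c d with h | h
  · rw [innG_lt h, show c + 1 - d = 0 by omega]
    rfl
  · obtain ⟨m, rfl⟩ := Nat.exists_eq_add_of_le h
    rw [innG_mon, show d + m + 1 - d = m + 1 by omega]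
    change List.rec (motive := fun _ => List IE) _ _ (mon m) = _
    induction mon m with
    | nil => rfl
    | cons g u ih => exact congrArg (g i :: ·) ih

theorem innG_append (c i d : ℕ) (l : List IE) : innG c i d l = innG c i d [] ++ l :=
  foldN_append _ (fun j4 l4 => by
    rw [frc_eq, frc_eq]
    exact foldN_append _ (fun j3 l3 => by
      rw [inn1_eq, inn1_eq]
      split_ifs <;> rfl) l4) l

theorem inner_append (c : ℕ) (d0 d1 : List ℕ) (i : ℕ) :
    inner c (d0 ++ d1) i = inner c d0 i ++ inner c d1 (i + d0.length) := by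
  induction d0 generalizing i with
  | nil => rfl
  | cons d d0 ih =>
    rw [List.cons_append, inner_cons, inner_cons, ih, innG_append, innG_append c i d (inner _ _ _),
      List.append_assoc, List.length_cons, add_assoc, add_comm 1]

theorem mem_inner {c : ℕ} {ds : List ℕ} {lo : ℕ} : ∀ e ∈ inner c ds lo, lo ≤ e.i ∧
    e.i < lo + ds.length ∧ e.j1 < 6 ∧
      getL 0 ds (e.i - lo) + e.j1 + 4 * e.j2 + 13 * e.j3 + 40 * e.j4 = c := by
  induction ds generalizing lo with
  | nil => exact fun e he => nomatch he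
  | cons d ds ih =>
    rw [inner_cons]
    refine foldN_mem _ (fun j4 _ l4 h4 => ?_) fun e he => ?_
    · rw [frc_eq]
      refine foldN_mem _ (fun j3 h3 l3 hl e he => ?_) h4
      have h5 : d + 40 * j4 + 13 * j3 ≤ c := (lt_cnt (by decide)).1 h3
      rw [inn1_eq, show Nat.sub c (Nat.add (Nat.add d (Nat.mul 40 j4)) (Nat.mul 13 j3)) =
        c - (d + 40 * j4 + 13 * j3) from rfl] at he
      rcases List.mem_cons.1 he with rfl | he
      · simp only [Nat.sub_self, getL_zero, List.length_cons]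
        omega
      · split_ifs at he with h6
        · rcases List.mem_cons.1 he with rfl | he
          · simp only [Nat.sub_self, getL_zero, List.length_cons]
            omega
          · exact hl e he
        · exact hl e he
    · obtain ⟨h1, h2, h3, h4⟩ := ih e he
      rw [show e.i - lo = e.i - (lo + 1) + 1 by omega, getL_succ, List.length_cons]
      omega

theorem offI_eq (ds : List ℕ) (c : ℕ) : offI ds c = 2 * (inner c ds 0).length := by
  have h : ∀ l : List (ℕ → IE), len2 l = 2 * l.length := fun l => by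
    induction l with
    | nil => rfl
    | cons a l ih => exact congrArg (· + 2) ih
  generalize 0 = i
  induction ds generalizing i with
  | nil => rfl
  | cons d ds ih =>
    rw [inner_cons]
    change Nat.rec (motive := fun _ => ℕ) (offI ds c) (fun m _ => offI ds c + len2 (mon m))
      (c + 1 - d) = _
    rcases lt_or_ge c d with h1 | h1
    · rw [innG_lt h1, show c + 1 - d = 0 by omega]
      exact ih _
    · obtain ⟨m, rfl⟩ := Nat.exists_eq_add_of_le h1
      rw [innG_mon, show d + m + 1 - d = m + 1 by omega, List.length_append, List.length_map,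
        mul_add, ← ih, ← h, add_comm (len2 _)]

theorem tv_single (p : ℕ) : tv (Nat.shiftLeft 1 p) 0 = Pi.single p 1 := funext fun q => by
  rw [tv, Nat.shiftLeft_eq', Nat.shiftLeft_eq, one_mul, Nat.testBit_two_pow, Pi.single_apply]
  simp [eq_comm]

theorem r1_zid (ps : IE → ℕ) (ds : List ℕ) (lo c : ℕ) :
    (zid ps ds lo c).len = (inner c ds lo).length ∧ R1 (zid ps ds lo c) fun i =>
      if i < (inner c ds lo).length then Pi.single (ps (getL ie0 (inner c ds lo) i)) 1 else 0 := by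
  rw [zid]
  induction inner c ds lo with
  | nil => exact ⟨rfl, r1_nil.of_eq fun k => by simp⟩
  | cons e l ih =>
    exact ⟨congrArg (· + 1) ih.1, R1.cons (wf_zero_right _) (by simpa using tv_single (ps e))
      (ih.2.of_eq fun k => by simp)⟩

/-- the coefficients as an array -/
def xS (C : Ctx) (n : ℕ → ℕ) (y : ℕ → ℕ → V) (w o : ℕ → ℕ) (x : XD) : S3 := fun k4 k3 k2 =>
  if x.c + 40 * k4 + 13 * k3 + 4 * k2 ≤ C.T then
    ∑ k1 ∈ Finset.range (cnt C.T 1 (x.c + 40 * k4 + 13 * k3 + 4 * k2)),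
      ∑ i ∈ Finset.range (n (x.c + 40 * k4 + 13 * k3 + 4 * k2 + k1)),
        cf (fld C.T w (x.c + k1 + 4 * k2) (getL 0 (getL [] x.x k1) k2) k4 k3 /
          2 ^ o (x.c + 40 * k4 + 13 * k3 + 4 * k2 + k1) / 4 ^ i % 4) •
            y (x.c + 40 * k4 + 13 * k3 + 4 * k2 + k1) i else 0

theorem row_foldN (n : ℕ) {f : ℕ → Row → Row} {y : ℕ → V}
    (h : ∀ k r, wf r.a r.b → wf (f k r).a (f k r).b ∧ tv (f k r).a (f k r).b = tv r.a r.b + y k)
    {r : Row} (hr : wf r.a r.b) : wf (foldN n f r).a (foldN n f r).b ∧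
      tv (foldN n f r).a (foldN n f r).b = tv r.a r.b + ∑ k ∈ Finset.range n, y k := by
  induction n generalizing r with
  | zero => exact ⟨hr, by simp [foldN_zero]⟩
  | succ n ih =>
    rw [foldN_succ, Finset.sum_range_succ]
    refine ⟨(ih (h n r hr).1).1, ?_⟩
    rw [(ih (h n r hr).1).2, (h n r hr).2]
    abel

theorem r3_xarr (C : Ctx) {zl : ℕ → RL} {y : ℕ → ℕ → V} (h : ∀ c, R1 (zl c) (y c))
    (w o : ℕ → ℕ) (x : XD) : R3 (xarr C zl w o x) (xS C (fun c => (zl c).len) y w o x) := by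
  refine (r3_tab3 (x := xS C (fun c => (zl c).len) y w o x) fun k4 k3 _ => ?_).of_eq
    fun k4 k3 k2 => ?_
  · simp only [frc_eq]
    generalize hc : x.c + 40 * k4 + 13 * k3 = c3
    have key := r1_foldN (cnt C.T 4 c3) (r := fun k2 => foldN (cnt C.T 1 (c3 + 4 * k2))
      (fun k1 r => comb (zl (c3 + 4 * k2 + k1)) (Nat.shiftRight
        (fld C.T w (x.c + k1 + 4 * k2) (getL 0 (getL [] x.x k1) k2) k4 k3)
        (o (c3 + 4 * k2 + k1))) r.a r.b) ⟨0, 0⟩) fun k2 _ =>
      row_foldN (cnt C.T 1 (c3 + 4 * k2)) (f := fun k1 r => comb (zl (c3 + 4 * k2 + k1))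
        (Nat.shiftRight (fld C.T w (x.c + k1 + 4 * k2) (getL 0 (getL [] x.x k1) k2) k4 k3)
        (o (c3 + 4 * k2 + k1))) r.a r.b) (r := ⟨0, 0⟩)
        (fun k1 r hr => (h (c3 + 4 * k2 + k1)).comb _ hr) wf_zero
    refine R1.of_eq key fun k2 => ?_
    rw [xS, hc]
    refine if_congr (lt_cnt (by decide)) ?_ rfl
    simp only [tv_zero, zero_add, Nat.shiftRight_eq, Nat.shiftRight_eq_div_pow]
  · split_ifs with h1
    · rfl
    · rw [xS, if_neg (by omega)]

/-! ### the two checks -/

theorem chkQ_iff (C : Ctx) (g1 : ℕ → ℕ) (ds : List ℕ) (us : A4) (xs : List XD) :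
    chkQ C g1 ds us xs = true ↔ ∀ x ∈ xs, chk3 C x.c
      (lev0 C (node C (zlist C g1 ds (ztab C ds us))) (wdI ds) x.x x.c) [] = true :=
  allL_iff (fun x : XD => chk3 C x.c
    (lev0 C (node C (zlist C g1 ds (ztab C ds us))) (wdI ds) x.x x.c) []) xs

theorem chkU_sound (C : Ctx) (ps : IE → ℕ) (ds d0 dp : List ℕ) (lo : ℕ) {xs : List XD} {us : A4}
    (h : chkU C ps ds d0 dp lo xs us = true) (i : ℕ) (hi : i < xs.length) :
    chk3 C xs[i].c (hdL (st3 C 4 1 xs[i].c (st4 C 4 1 xs[i].c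
      [xarr C (zid ps dp lo) (wdI ds) (offI d0) xs[i]]))) (getL [] us i) = true := by
  induction xs generalizing us i with
  | nil => simp at hi
  | cons x xs ih =>
    change (Bool.rec false (chkU C ps ds d0 dp lo xs (tlL us)) (chk3 C x.c (hdL (st3 C 4 1 x.c
      (st4 C 4 1 x.c [xarr C (zid ps dp lo) (wdI ds) (offI d0) x]))) (hdL us)) : Bool) = true at h
    cases e : chk3 C x.c (hdL (st3 C 4 1 x.c
      (st4 C 4 1 x.c [xarr C (zid ps dp lo) (wdI ds) (offI d0) x]))) (hdL us)
    · rw [e] at h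
      cases h
    · rw [e] at h
      cases i with
      | zero => rwa [hdL_eq us] at e
      | succ i =>
        rw [← getL_tlL]
        exact ih h i (by simpa using hi)

end Vale.Agent.P236C

end
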